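import Crest.Agent.R316.Defs

/-!
Row 316, task ALG: pure lemmas on polynomials and their roots.
-/

set_option autoImplicit false
set_option linter.dupNamespace false

namespace Crest.Agent.R316

open Crest.Agent.PT Crest.Agent.QC Crest.Agent.R317 Polynomial Finset

variable {α β : Type} [Enc α] [Enc β]

theorem alg_prod_getD (l : List ℂ) (f : ℂ → ℂ) :
    ∏ k ∈ range l.length, f (l.getD k 0) = (l.map f).prod := by
  induction l with
  | nil => simp
  | cons a l ih =>
    rw [List.length_cons, prod_range_succ', List.map_cons, List.prod_cons, ← ih, mul_comm]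
    simp

theorem rt_spec {p : ℂ[X]} (hp : p.Monic) (t : ℂ) :
    p.eval t = ∏ k ∈ range p.natDegree, (t - rt p k) := by
  have hex : ∃ ρ : ℕ → ℂ, ∀ t, p.eval t = ∏ k ∈ range p.natDegree, (t - ρ k) := by
    refine ⟨fun k => p.roots.toList.getD k 0, fun t => ?_⟩
    rw [(IsAlgClosed.splits p).eval_eq_prod_roots_of_monic hp, ← IsAlgClosed.card_roots_eq_natDegree,
      ← Multiset.length_toList, alg_prod_getD p.roots.toList (fun a => t - a),
      ← Multiset.prod_coe, ← Multiset.map_coe, Multiset.coe_toList]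
  unfold rt
  rw [dif_pos hex]
  exact hex.choose_spec t

theorem alg_mon_degree (e : ℕ) (p : ℂ[X]) (c : ℂ) :
    (∑ j ∈ range e, C (c * p.coeff j) * X ^ j : ℂ[X]).degree < e :=
  (degree_sum_le _ _).trans_lt ((Finset.sup_lt_iff (WithBot.bot_lt_coe e)).2 fun _ hj =>
    (degree_C_mul_X_pow_le _ _).trans_lt (WithBot.coe_lt_coe.2 (mem_range.1 hj)))

theorem mon_monic (e : ℕ) (p : ℂ[X]) (c : ℂ) : (mon e p c).Monic := by
  exact monic_X_pow_add (alg_mon_degree e p c)

theorem mon_natDegree (e : ℕ) (p : ℂ[X]) (c : ℂ) : (mon e p c).natDegree = e := by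
  unfold mon
  rw [natDegree_add_eq_left_of_degree_lt (by rw [degree_X_pow]; exact alg_mon_degree e p c),
    natDegree_X_pow]

theorem mon_eq {e : ℕ} {p : ℂ[X]} {c : ℂ} (h : ∀ j, e < j → p.coeff j = 0)
    (hc : c * p.coeff e = 1) : mon e p c = C c * p := by
  ext j
  simp only [mon, coeff_add, coeff_X_pow, finsetSum_coeff, coeff_C_mul, mul_ite, mul_one,
    mul_zero, sum_ite_eq, mem_range]
  rcases lt_trichotomy j e with hj | rfl | hj
  · simp [hj, hj.ne]
  · simp [hc]
  · simp [h j hj, hj.ne', hj.not_gt]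

theorem alg_roots_prod (N : ℕ) (ρ : ℕ → ℂ) :
    (∏ k ∈ range N, (X - C (ρ k)) : ℂ[X]).roots = (range N).val.map ρ := by
  rw [← roots_multiset_prod_X_sub_C ((range N).val.map ρ), Multiset.map_map]
  rfl

/-- Two enumerations of the roots of one polynomial differ by a permutation. -/
theorem perm_of_prod_eq {N : ℕ} {ρ ρ' : ℕ → ℂ}
    (h : ∀ t, ∏ k ∈ range N, (t - ρ k) = ∏ k ∈ range N, (t - ρ' k)) :
    ∃ π : ℕ → ℕ, Set.BijOn π (range N) (range N) ∧ ∀ k < N, ρ (π k) = ρ' k := by
  classical
  have h1 : (∏ k ∈ range N, (X - C (ρ k)) : ℂ[X]) = ∏ k ∈ range N, (X - C (ρ' k)) := by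
    apply Polynomial.funext
    intro t
    simp only [eval_prod, eval_sub, eval_X, eval_C]
    exact h t
  have h2 : (range N).val.map ρ = (range N).val.map ρ' := by
    rw [← alg_roots_prod, h1, alg_roots_prod]
  have hc : ∀ v, Fintype.card {i : range N // ρ' i = v} = Fintype.card {i : range N // ρ i = v} := by
    intro v
    have := congrArg (Multiset.count v) h2
    simp only [Multiset.count_map] at this
    rw [Fintype.card_subtype, Fintype.card_subtype, univ_eq_attach,
      filter_attach (fun i => ρ' i = v), filter_attach (fun i => ρ i = v), card_map, card_map,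
      card_attach, card_attach]
    simp only [eq_comm (b := v)]
    exact this.symm
  let σ : range N ≃ range N :=
    Equiv.ofFiberEquiv (f := fun i : range N => ρ' i) (g := fun i : range N => ρ i)
      fun v => Fintype.equivOfCardEq (hc v)
  have hσ : ∀ i : range N, ρ (σ i) = ρ' i := fun i =>
    Equiv.ofFiberEquiv_map (f := fun i : range N => ρ' i) (g := fun i : range N => ρ i) _ i
  refine ⟨fun k => if hk : k ∈ range N then σ ⟨k, hk⟩ else k, ⟨?_, ?_, ?_⟩, ?_⟩
  · intro k hk
    have hk' : k ∈ range N := hk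
    simp only [dif_pos hk']
    exact (σ ⟨k, hk'⟩).2
  · intro k hk l hl e
    have hk' : k ∈ range N := hk
    have hl' : l ∈ range N := hl
    simp only [dif_pos hk', dif_pos hl'] at e
    exact congrArg Subtype.val (σ.injective (Subtype.ext e))
  · intro l hl
    have hl' : l ∈ range N := hl
    refine ⟨σ.symm ⟨l, hl'⟩, (σ.symm ⟨l, hl'⟩).2, ?_⟩
    simp only [dif_pos (σ.symm ⟨l, hl'⟩).2, Subtype.coe_eta, Equiv.apply_symm_apply]
  · intro k hk
    have hk' : k ∈ range N := mem_range.2 hk
    simp only [dif_pos hk']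
    exact hσ ⟨k, hk'⟩

open Classical in
/-- The number of indices of a root is its multiplicity. -/
theorem card_rt_eq {p : ℂ[X]} (hp : p.Monic) (t : ℂ) :
    ((range p.natDegree).filter fun k => rt p k = t).card = p.rootMultiplicity t := by
  have h1 : p = ∏ k ∈ range p.natDegree, (X - C (rt p k)) := by
    apply Polynomial.funext
    intro t
    simp only [eval_prod, eval_sub, eval_X, eval_C]
    exact rt_spec hp t
  have h2 : p.roots = (range p.natDegree).val.map (rt p) := by
    conv_lhs => rw [h1]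
    exact alg_roots_prod _ _
  rw [← count_roots, h2, Multiset.count_map]
  simp only [eq_comm (a := t)]
  rfl

open Classical in
theorem alg_prod_split {R ι : Type} [CommRing R] (T : Finset ι) (g : ι → R) :
    (∏ i ∈ T, (X + C (g i))) = X ^ (T.filter fun i => g i = 0).card *
      ∏ i ∈ T.filter (fun i => g i ≠ 0), (X + C (g i)) := by
  rw [← prod_filter_mul_prod_filter_not T (fun i => g i = 0), ← prod_const]
  congr 1
  refine prod_congr rfl fun i hi => ?_
  rw [(mem_filter.1 hi).2, C_0, add_zero]

open Classical in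
/-- The coefficients of `∏ (X + g i)` below the number of zeros vanish. -/
theorem low_coeff_lt {R ι : Type} [CommRing R] (T : Finset ι) (g : ι → R) {j : ℕ}
    (hj : j < (T.filter fun i => g i = 0).card) : (∏ i ∈ T, (X + C (g i))).coeff j = 0 := by
  rw [alg_prod_split, coeff_X_pow_mul', if_neg (by omega)]

open Classical in
/-- The next coefficient is the product of the nonzero values. -/
theorem low_coeff_eq {R ι : Type} [CommRing R] (T : Finset ι) (g : ι → R) :
    (∏ i ∈ T, (X + C (g i))).coeff (T.filter fun i => g i = 0).card =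
      ∏ i ∈ T.filter (fun i => g i ≠ 0), g i := by
  rw [alg_prod_split, coeff_X_pow_mul', if_pos le_rfl, Nat.sub_self, coeff_zero_eq_eval_zero,
    eval_prod]
  simp

open Classical in
/-- Over a domain the number of zeros is the index of the first nonzero coefficient. -/
theorem low_coeff_iff {R ι : Type} [CommRing R] [IsDomain R] (T : Finset ι) (g : ι → R) (k : ℕ) :
    ((∀ j < k, (∏ i ∈ T, (X + C (g i))).coeff j = 0) ∧ (∏ i ∈ T, (X + C (g i))).coeff k ≠ 0) ↔
      k = (T.filter fun i => g i = 0).card := by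
  have hne : (∏ i ∈ T, (X + C (g i))).coeff (T.filter fun i => g i = 0).card ≠ 0 := by
    rw [low_coeff_eq]
    exact prod_ne_zero_iff.2 fun i hi => (mem_filter.1 hi).2
  constructor
  · rintro ⟨h1, h2⟩
    rcases lt_trichotomy k (T.filter fun i => g i = 0).card with h | h | h
    · exact absurd (low_coeff_lt T g h) h2
    · exact h
    · exact absurd (h1 _ h) hne
  · rintro rfl
    exact ⟨fun j hj => low_coeff_lt T g hj, hne⟩

/-- Evaluating the coefficients: `coeff k` in `Z` of `∏ (Z + V i)` at `t`. -/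
theorem eval_coeff_prod {ι : Type} (T : Finset ι) (V : ι → ℂ[X]) (k : ℕ) (t : ℂ) :
    ((∏ i ∈ T, (X + C (V i))).coeff k).eval t = (∏ i ∈ T, (X + C ((V i).eval t))).coeff k := by
  have h : (∏ i ∈ T, (X + C (V i))).map (evalRingHom t) = ∏ i ∈ T, (X + C ((V i).eval t)) := by
    rw [Polynomial.map_prod]
    simp
  rw [← h, coeff_map, coe_evalRingHom]

theorem alg_thom_aux {a b : ℝ} (n : ℕ) : ∀ q : ℝ[X], q.natDegree ≤ n →
    (∀ j ≤ n, SignType.sign ((derivative^[j] q).eval a) =
      SignType.sign ((derivative^[j] q).eval b)) →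
    ∀ x ∈ Set.Icc a b, SignType.sign (q.eval x) = SignType.sign (q.eval a) := by
  induction n with
  | zero =>
    intro q hq _ x _
    rw [eq_C_of_natDegree_le_zero hq]
    simp
  | succ n ih =>
    intro q hq h x hx
    have hd : q.derivative.natDegree ≤ n := (natDegree_derivative_le q).trans (by omega)
    have h1 := ih q.derivative hd fun j hj => by
      have := h (j + 1) (by omega)
      rwa [Function.iterate_succ_apply] at this
    have h0 := h 0 (Nat.zero_le _)
    simp only [Function.iterate_zero, id] at h0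
    have ha : a ∈ Set.Icc a b := ⟨le_rfl, hx.1.trans hx.2⟩
    have hb : b ∈ Set.Icc a b := ⟨hx.1.trans hx.2, le_rfl⟩
    have hc : ContinuousOn (fun y => q.eval y) (Set.Icc a b) := q.continuous.continuousOn
    have hdf : DifferentiableOn ℝ (fun y => q.eval y) (interior (Set.Icc a b)) :=
      q.differentiable.differentiableOn
    rcases le_total 0 (q.derivative.eval a) with hs | hs
    · have hm : MonotoneOn (fun y => q.eval y) (Set.Icc a b) := by
        refine monotoneOn_of_deriv_nonneg (convex_Icc a b) hc hdf fun y hy => ?_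
        rw [Polynomial.deriv, ← sign_nonneg_iff, h1 y (interior_subset hy), sign_nonneg_iff]
        exact hs
      have e1 := (SignType.sign (α := ℝ)).monotone (hm ha hx hx.1)
      have e2 := (SignType.sign (α := ℝ)).monotone (hm hx hb hx.2)
      exact le_antisymm (e2.trans h0.symm.le) e1
    · have hm : AntitoneOn (fun y => q.eval y) (Set.Icc a b) := by
        refine antitoneOn_of_deriv_nonpos (convex_Icc a b) hc hdf fun y hy => ?_
        rw [Polynomial.deriv, ← sign_nonpos_iff, h1 y (interior_subset hy), sign_nonpos_iff]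
        exact hs
      have e1 := (SignType.sign (α := ℝ)).monotone (hm ha hx hx.1)
      have e2 := (SignType.sign (α := ℝ)).monotone (hm hx hb hx.2)
      exact le_antisymm e1 (h0.le.trans e2)

/-- Thom's lemma. A real root of a nonzero real polynomial is determined by the signs of the
derivatives. (If `s < t`, by downward induction on `j` the real function `x ↦ re (p^(j) x)` has
constant sign on `[s, t]`: it is monotone, antitone or constant there. For `j = 0` the polynomial
has infinitely many roots.) -/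
theorem thom {p : ℂ[X]} (hp : p ≠ 0) (hr : ∀ j, (p.coeff j).im = 0) {s t : ℝ}
    (hs : p.eval (s : ℂ) = 0)
    (h : ∀ j ≤ p.natDegree, SignType.sign ((derivative^[j] p).eval (s : ℂ)).re =
      SignType.sign ((derivative^[j] p).eval (t : ℂ)).re) : s = t := by
  have hl : p ∈ lifts (algebraMap ℝ ℂ) := by
    rw [lifts_iff_coeff_lifts]
    intro n
    exact ⟨(p.coeff n).re, Complex.ext (by simp) (by simp [hr n])⟩
  obtain ⟨q, rfl⟩ := hl
  change q.map (algebraMap ℝ ℂ) ≠ 0 at hp
  change (q.map (algebraMap ℝ ℂ)).eval (s : ℂ) = 0 at hs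
  change ∀ j ≤ (q.map (algebraMap ℝ ℂ)).natDegree,
    SignType.sign ((derivative^[j] (q.map (algebraMap ℝ ℂ))).eval (s : ℂ)).re =
      SignType.sign ((derivative^[j] (q.map (algebraMap ℝ ℂ))).eval (t : ℂ)).re at h
  have hev : ∀ (r : ℝ[X]) (x : ℝ), (r.map (algebraMap ℝ ℂ)).eval (x : ℂ) = ((r.eval x : ℝ) : ℂ) :=
    fun r x => by
      rw [show (x : ℂ) = algebraMap ℝ ℂ x from rfl, eval_map_algebraMap, aeval_algebraMap_apply]
      simp
  have hq : q ≠ 0 := fun e => hp (by rw [e, Polynomial.map_zero])
  rw [natDegree_map] at h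
  simp only [iterate_derivative_map, hev, Complex.ofReal_re] at h
  rw [hev, Complex.ofReal_eq_zero] at hs
  have ht : q.eval t = 0 := by
    have := h 0 (Nat.zero_le _)
    simp only [Function.iterate_zero, id, hs, sign_zero] at this
    exact sign_eq_zero_iff.1 this.symm
  have key : ∀ a b : ℝ, a < b → q.eval a = 0 →
      (∀ j ≤ q.natDegree, SignType.sign ((derivative^[j] q).eval a) =
        SignType.sign ((derivative^[j] q).eval b)) → False := by
    intro a b hab ha h
    refine hq (eq_zero_of_infinite_isRoot q ((Set.Icc_infinite hab).mono fun x hx => ?_))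
    have := alg_thom_aux q.natDegree q le_rfl h x hx
    rw [ha, sign_zero] at this
    exact sign_eq_zero_iff.1 this
  rcases lt_trichotomy s t with hst | hst | hst
  · exact (key s t hst hs h).elim
  · exact hst
  · exact (key t s hst ht fun j hj => (h j hj).symm).elim

open Classical in
/-- imaginary part of the first nonreal coordinate -/
noncomputable def algPhi (z : Pt) : ℝ :=
  if h : ∃ i, (z i).im ≠ 0 then (z (Nat.find h)).im else 0

theorem algPhi_eq_zero (z : Pt) : algPhi z = 0 ↔ ∀ i, (z i).im = 0 := by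
  classical
  unfold algPhi
  split_ifs with h
  · constructor
    · intro e
      exact absurd e (Nat.find_spec h)
    · intro e
      exact e _
  · push Not at h
    simpa using h

theorem algPhi_cj (z : Pt) : algPhi (cj z) = - algPhi z := by
  classical
  have e : ∀ i, (cj z i).im = - (z i).im := fun i => Complex.conj_im _
  unfold algPhi
  by_cases h : ∃ i, (z i).im ≠ 0
  · have h' : ∃ i, (cj z i).im ≠ 0 := by simpa only [e, ne_eq, neg_eq_zero] using h
    have e2 : Nat.find h' = Nat.find h := by
      congr 1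
      funext i
      simp only [e, ne_eq, neg_eq_zero]
    rw [dif_pos h, dif_pos h', e, e2]
  · have h' : ¬ ∃ i, (cj z i).im ≠ 0 := by simpa only [e, ne_eq, neg_eq_zero] using h
    rw [dif_neg h, dif_neg h', neg_zero]

theorem alg_mul_neg {a b : ℝ} (hb : 0 < b) : a * b < 0 ↔ a < 0 :=
  ⟨fun h => neg_of_mul_neg_left h hb.le, fun h => mul_neg_of_neg_of_pos h hb⟩

open Classical in
theorem alg_prod_neg_iff {ι : Type} (s : Finset ι) (f : ι → ℝ) (h : ∀ k ∈ s, f k ≠ 0) :
    ∏ k ∈ s, f k < 0 ↔ Odd (s.filter fun k => f k < 0).card := by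
  rw [← prod_filter_mul_prod_filter_not s (fun k => f k < 0)]
  have h1 : 0 < ∏ k ∈ s.filter (fun k => ¬ f k < 0), f k := prod_pos fun k hk =>
    lt_of_le_of_ne (not_lt.1 (mem_filter.1 hk).2) (h k (mem_filter.1 hk).1).symm
  have h2 : ∏ k ∈ s.filter (fun k => f k < 0), f k =
      (-1) ^ (s.filter fun k => f k < 0).card * ∏ k ∈ s.filter (fun k => f k < 0), (- f k) := by
    rw [prod_neg, ← mul_assoc, ← mul_pow]
    simp
  have h3 : 0 < ∏ k ∈ s.filter (fun k => f k < 0), (- f k) := prod_pos fun k hk =>
    neg_pos.2 (mem_filter.1 hk).2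
  rw [alg_mul_neg h1, h2, alg_mul_neg h3]
  rcases Nat.even_or_odd (s.filter fun k => f k < 0).card with he | he
  · rw [he.neg_one_pow]
    simp [Nat.not_odd_iff_even.2 he]
  · rw [he.neg_one_pow]
    simp [he]

open Classical in
/-- The sign of a norm. `π` pairs each point with its conjugate. Split the indices with `g ≠ 0`
into the real points, and the nonreal points whose first nonreal coordinate has positive
(`U`) or negative (`L`) imaginary part; `π` maps `U` and `L` injectively, hence bijectively, onto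
each other, so they contribute `∏_U g * conj g > 0`. -/
theorem sign_norm {ι : Type} (T : Finset ι) (z : ι → Pt) (g : ι → ℂ) (π : ι → ι)
    (hπ : Set.BijOn π T T) (hz : ∀ k ∈ T, z (π k) = cj (z k))
    (hg : ∀ k ∈ T, g (π k) = (starRingEnd ℂ) (g k))
    (hr : ∀ k ∈ T, (∀ i, (z k i).im = 0) → (g k).im = 0) :
    (∏ k ∈ T.filter (fun k => g k ≠ 0), g k).re < 0 ↔
      Odd (T.filter fun k => (∀ i, (z k i).im = 0) ∧ (g k).re < 0).card := by
  set T' := T.filter (fun k => g k ≠ 0) with hT'
  set Rl := T'.filter (fun k => algPhi (z k) = 0) with hRl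
  set U := T'.filter (fun k => 0 < algPhi (z k)) with hU
  set L := T'.filter (fun k => algPhi (z k) < 0) with hL
  have hT'T : ∀ k ∈ T', k ∈ T := fun k hk => (mem_filter.1 hk).1
  have hπT' : ∀ k ∈ T', π k ∈ T' := by
    intro k hk
    refine mem_filter.2 ⟨hπ.1 (hT'T k hk), ?_⟩
    rw [hg k (hT'T k hk)]
    exact (_root_.map_ne_zero _).2 (mem_filter.1 hk).2
  have hUL : ∀ k ∈ U, π k ∈ L := by
    intro k hk
    obtain ⟨h1, h2⟩ := mem_filter.1 hk
    refine mem_filter.2 ⟨hπT' k h1, ?_⟩
    rw [hz k (hT'T k h1), algPhi_cj]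
    linarith
  have hLU : ∀ k ∈ L, π k ∈ U := by
    intro k hk
    obtain ⟨h1, h2⟩ := mem_filter.1 hk
    refine mem_filter.2 ⟨hπT' k h1, ?_⟩
    rw [hz k (hT'T k h1), algPhi_cj]
    linarith
  have hiU : Set.InjOn π U := hπ.2.1.mono fun k hk => hT'T k (mem_filter.1 hk).1
  have hiL : Set.InjOn π L := hπ.2.1.mono fun k hk => hT'T k (mem_filter.1 hk).1
  have himg : U.image π = L := by
    refine eq_of_subset_of_card_le (image_subset_iff.2 hUL) ?_
    rw [card_image_of_injOn hiU]
    exact card_le_card_of_injOn π hLU hiL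
  have hsplit : ∏ k ∈ T', g k = (∏ k ∈ Rl, g k) * ((∏ k ∈ U, g k) * ∏ k ∈ L, g k) := by
    rw [← prod_filter_mul_prod_filter_not T' (fun k => algPhi (z k) = 0),
      ← prod_filter_mul_prod_filter_not (T'.filter fun k => ¬ algPhi (z k) = 0)
        (fun k => 0 < algPhi (z k))]
    have e1 : (T'.filter fun k => ¬ algPhi (z k) = 0).filter (fun k => 0 < algPhi (z k)) = U := by
      rw [filter_filter]
      exact filter_congr fun k _ => ⟨fun h => h.2, fun h => ⟨h.ne', h⟩⟩
    have e2 : (T'.filter fun k => ¬ algPhi (z k) = 0).filter (fun k => ¬ 0 < algPhi (z k)) = L := by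
      rw [filter_filter]
      exact filter_congr fun k _ =>
        ⟨fun h => lt_of_le_of_ne (not_lt.1 h.2) h.1, fun h => ⟨h.ne, not_lt.2 h.le⟩⟩
    rw [e1, e2]
  have hUL' : (∏ k ∈ U, g k) * ∏ k ∈ L, g k = ((∏ k ∈ U, Complex.normSq (g k) : ℝ) : ℂ) := by
    rw [← himg, prod_image hiU, ← prod_mul_distrib, Complex.ofReal_prod]
    refine prod_congr rfl fun k hk => ?_
    rw [hg k (hT'T k (mem_filter.1 hk).1), Complex.mul_conj]
  have hpos : 0 < ∏ k ∈ U, Complex.normSq (g k) :=
    prod_pos fun k hk => Complex.normSq_pos.2 (mem_filter.1 (mem_filter.1 hk).1).2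
  have him : ∀ k ∈ Rl, (g k).im = 0 := fun k hk =>
    hr k (hT'T k (mem_filter.1 hk).1) ((algPhi_eq_zero _).1 (mem_filter.1 hk).2)
  have hR : ∏ k ∈ Rl, g k = ((∏ k ∈ Rl, (g k).re : ℝ) : ℂ) := by
    rw [Complex.ofReal_prod]
    exact prod_congr rfl fun k hk => Complex.ext (by simp) (by simp [him k hk])
  have hne : ∀ k ∈ Rl, (g k).re ≠ 0 := fun k hk h =>
    (mem_filter.1 (mem_filter.1 hk).1).2 (Complex.ext h (him k hk))
  rw [hsplit, hUL', hR, ← Complex.ofReal_mul, Complex.ofReal_re, alg_mul_neg hpos,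
    alg_prod_neg_iff Rl _ hne]
  have e : Rl.filter (fun k => (g k).re < 0) =
      T.filter fun k => (∀ i, (z k i).im = 0) ∧ (g k).re < 0 := by
    ext k
    simp only [hRl, hT', mem_filter, algPhi_eq_zero]
    constructor
    · rintro ⟨⟨⟨h1, _⟩, h2⟩, h3⟩
      exact ⟨h1, h2, h3⟩
    · rintro ⟨h1, h2, h3⟩
      refine ⟨⟨⟨h1, fun h => ?_⟩, h2⟩, h3⟩
      rw [h] at h3
      simp at h3
  rw [e]

open Classical in
/-- Parity of a count of tuples. If among the indices in `S i` exactly the value `t i` occurs an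
odd number of times, then the number of tuples with a property of the point is odd iff the point
`t` has the property. (Count fibrewise over the points: a fibre is a product of fibres.) -/
theorem odd_tuples {m : ℕ} (N : ℕ → ℕ) (S : ℕ → ℕ → Prop) (ρ : ℕ → ℕ → ℂ) (t : ℕ → ℂ)
    (h : ∀ i < m, ∀ u, Odd ((range (N i)).filter fun k => S i k ∧ ρ i k = u).card ↔ u = t i)
    (Q : Pt → Prop) :
    Odd ((tups m N).filter fun ι => (∀ i : Fin m, S i (ι i)) ∧ Q (tp ρ ι)).card ↔
      Q (app m t 0) := by
  let A : Fin m → Finset ℕ := fun i => (range (N i)).filter fun k => S i k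
  let F : (Fin m → ℂ) → ZMod 2 := fun u =>
    if Q (fun i => if h : i < m then u ⟨i, h⟩ else 0) then 1 else 0
  let B : Fin m → Finset ℂ := fun i => insert (t i) ((A i).image (ρ i))
  have h1 : (((tups m N).filter fun ι => (∀ i : Fin m, S i (ι i)) ∧ Q (tp ρ ι)).card : ZMod 2) =
      ∑ ι ∈ Fintype.piFinset A, F (fun i => ρ i (ι i)) := by
    rw [card_eq_sum_ones, Nat.cast_sum, ← filter_filter, sum_filter]
    refine sum_congr ?_ fun ι _ => ?_
    · ext ι
      simp only [mem_filter, mem_tups, Fintype.mem_piFinset, A, mem_range]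
      exact ⟨fun h i => ⟨h.1 i, h.2 i⟩, fun h => ⟨fun i => (h i).1, fun i => (h i).2⟩⟩
    · simp only [F, Nat.cast_one]
      rfl
  have h2 : ∑ ι ∈ Fintype.piFinset A, F (fun i => ρ i (ι i)) =
      ∑ u ∈ Fintype.piFinset B, F u * ∏ i : Fin m, if u i = t i then 1 else 0 := by
    rw [← sum_fiberwise_of_maps_to (s := Fintype.piFinset A) (t := Fintype.piFinset B)
      (g := fun ι i => ρ i (ι i))]
    · refine sum_congr rfl fun u _ => ?_
      have e : (Fintype.piFinset A).filter (fun ι => (fun i : Fin m => ρ i (ι i)) = u) =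
          Fintype.piFinset fun i : Fin m => (range (N i)).filter fun k => S i k ∧ ρ i k = u i := by
        ext ι
        simp only [mem_filter, Fintype.mem_piFinset, A, funext_iff]
        exact ⟨fun h i => ⟨(h.1 i).1, (h.1 i).2, h.2 i⟩,
          fun h => ⟨fun i => ⟨(h i).1, (h i).2.1⟩, fun i => (h i).2.2⟩⟩
      rw [sum_congr rfl (g := fun _ => F u) fun ι hι => by rw [(mem_filter.1 hι).2], sum_const, e,
        Fintype.card_piFinset, nsmul_eq_mul, Nat.cast_prod, mul_comm]
      congr 1
      refine prod_congr rfl fun i _ => ?_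
      split_ifs with hi
      · exact ZMod.natCast_eq_one_iff_odd.2 ((h i i.2 (u i)).2 hi)
      · exact ZMod.natCast_eq_zero_iff_even.2
          (Nat.not_odd_iff_even.1 fun ho => hi ((h i i.2 (u i)).1 ho))
    · intro ι hι
      rw [Fintype.mem_piFinset] at hι ⊢
      exact fun i => mem_insert_of_mem (mem_image_of_mem _ (hι i))
  have h3 : ∑ u ∈ Fintype.piFinset B, F u * ∏ i : Fin m, (if u i = t i then 1 else 0) =
      F (fun i => t i) := by
    rw [sum_eq_single (fun i : Fin m => t i)]
    · simp
    · intro u _ hu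
      obtain ⟨i, hi⟩ := Function.ne_iff.1 hu
      rw [prod_eq_zero (mem_univ i) (if_neg hi), mul_zero]
    · intro hn
      exact absurd (Fintype.mem_piFinset.2 fun i => mem_insert_self _ _) hn
  have h4 : (fun i => if h : i < m then t ((⟨i, h⟩ : Fin m) : ℕ) else 0) = app m t 0 := by
    funext i
    simp only [app]
    split_ifs <;> rfl
  rw [← ZMod.natCast_eq_one_iff_odd, h1, h2, h3]
  simp only [F, h4]
  split_ifs with hq
  · simp [hq]
  · simp [hq]

end Crest.Agent.R316
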