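import Crest.Agent.R316.Defs

/-!
Row 316, task BRIDGE: from the typed levels to the frozen levels.

Plan. Prove by induction on `j`, for all `α`, `P`, and all `PT` maps `f : Raw → α`:
`Lv j α P → {x | P (f ⟨x⟩)} ∈ level j`. Level `0`: `PT.polyTimePred`. Level `j+1`: let
`m (f ⟨x⟩) ≤ (|x|+2)^k =: p(|x|)` (`PT.pbNat`), and apply the induction hypothesis to the `PT` map
`w ↦ (f (fst w), ⟨valR (snd w) % 2^(m (f (fst w)))⟩)` (`PT.fstR`, `PT.sndR`, `PT.ofRev`; note
`valR l` is `valR l.reverse.reverse`, or use `valR (snd w).reverse`); `pairBits x y = dbl x ++ false :: y`,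
so `fstL`, `sndL` recover `x, y`. `valR` is a bijection from the strings of length `p` onto
`range (2^p)`, and `#{v < 2^p | Q (v % 2^m)} = 2^(p-m) * cnt (2^m) Q`.
-/

set_option autoImplicit false
set_option linter.dupNamespace false

namespace Crest.Agent.R316

open Crest.Agent.PT Crest.Agent.QC Crest.Agent.R317 Polynomial Finset

variable {α β : Type} [Enc α] [Enc β]

theorem br_inj : ∀ {l l' : List Bool}, l.length = l'.length → valR l = valR l' → l = l'
  | [], [], _, _ => rfl
  | [], _ :: _, h, _ => by simp at h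
  | _ :: _, [], h, _ => by simp at h
  | b :: l, b' :: l', h, e => by
    have h' : l.length = l'.length := by simpa using h
    rw [valR_cons, valR_cons, h'] at e
    have h1 := valR_lt l
    have h2 := valR_lt l'
    rw [h'] at h1
    cases b <;> cases b' <;> simp only [Bool.toNat_false, Bool.toNat_true] at e
    · rw [br_inj h' (by omega)]
    · omega
    · omega
    · rw [br_inj h' (by omega)]

theorem br_surj : ∀ (p v : ℕ), v < 2 ^ p → ∃ l : List Bool, l.length = p ∧ valR l = v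
  | 0, v, h => ⟨[], rfl, by simp only [valR, List.foldl_nil]; omega⟩
  | p + 1, v, h => by
    by_cases hv : v < 2 ^ p
    · obtain ⟨l, h1, h2⟩ := br_surj p v hv
      exact ⟨false :: l, by simp [h1], by simp [valR_cons, h2]⟩
    · obtain ⟨l, h1, h2⟩ := br_surj p (v - 2 ^ p) (by omega)
      refine ⟨true :: l, by simp [h1], ?_⟩
      rw [valR_cons, h1, h2, Bool.toNat_true]
      omega

theorem br_ncard (p : ℕ) (R : ℕ → Prop) :
    {y : List Bool | y.length = p ∧ R (valR y)}.ncard = cnt (2 ^ p) R := by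
  classical
  rw [cnt, ← Set.ncard_coe_finset]
  refine Set.ncard_congr (fun y _ => valR y) ?_ ?_ ?_
  · intro y hy
    simp only [coe_filter, mem_range, Set.mem_ofPred_eq]
    exact ⟨hy.1 ▸ valR_lt y, hy.2⟩
  · intro y y' hy hy' e
    exact br_inj (hy.1.trans hy'.1.symm) e
  · intro v hv
    simp only [coe_filter, mem_range, Set.mem_ofPred_eq] at hv
    obtain ⟨l, h1, rfl⟩ := br_surj p v hv.1
    exact ⟨l, ⟨h1, hv.2⟩, rfl⟩

theorem br_cnt (M c : ℕ) (Q : ℕ → Prop) : cnt (M * c) (fun v => Q (v % M)) = c * cnt M Q := by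
  classical
  simp only [cnt, card_filter]
  induction c with
  | zero => simp
  | succ c ih =>
    rw [Nat.mul_succ, sum_range_add, ih, Nat.succ_mul]
    congr 1
    refine sum_congr rfl fun v hv => ?_
    simp only [Nat.mul_add_mod, Nat.mod_eq_of_lt (mem_range.1 hv)]

theorem br_lv (j : ℕ) : ∀ (α : Type) [Enc α] (P : α → Prop), Lv j α P → ∀ f : Raw → α, PT f →
    {x : List Bool | P (f ⟨x⟩)} ∈ Crest.CountHier.level j := by
  induction j with
  | zero =>
    intro α _ P hP f hf
    obtain ⟨g, hg, H⟩ := DT.comp hP hf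
    exact ⟨_, hg.polyTimePred, fun x => (H _).symm⟩
  | succ j ih =>
    intro α _ P hP f hf
    obtain ⟨Q, m, hQ, hm, H⟩ := hP
    obtain ⟨k, hk⟩ := (hm.comp hf).pbNat
    have h1 : PT (fun w : Raw => f ⟨fstL w.val⟩) := hf.comp PT.fstR
    have h2 : BT (fun w : Raw => valR (sndL w.val)) := PT.ofRev PT.sndR
    have h3 : BT (fun w : Raw => valR (sndL w.val) % 2 ^ m (f ⟨fstL w.val⟩)) :=
      h2.mod ((BT.const 2).pow (hm.comp h1))
    refine ⟨_, ih _ _ hQ (fun w => (f ⟨fstL w.val⟩, ⟨valR (sndL w.val) % 2 ^ m (f ⟨fstL w.val⟩)⟩))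
      (h1.pair h3), (X + 2) ^ k, fun x => ?_⟩
    have hp : ∀ y, Crest.CountHier.pairBits x y = dbl x ++ false :: y := fun _ => rfl
    have hk' : m (f ⟨x⟩) ≤ eval x.length ((X + 2 : ℕ[X]) ^ k) := by simpa using hk ⟨x⟩
    obtain ⟨d, hd⟩ := Nat.exists_eq_add_of_le hk'
    simp only [Set.mem_ofPred_eq, hp, fstL_pair, sndL_pair]
    rw [br_ncard _ (fun v => Q (f ⟨x⟩) (v % 2 ^ m (f ⟨x⟩))), hd, pow_add, br_cnt, H,
      mul_left_comm, mul_comm _ (2 ^ d), Nat.mul_lt_mul_left (by positivity)]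

theorem CD.bridge {P : Raw → Prop} (hP : CD P) :
    ∃ j, {x : List Bool | P ⟨x⟩} ∈ Crest.CountHier.level j := by
  obtain ⟨j, hj⟩ := hP
  exact ⟨j, br_lv j Raw P hj (fun x => x) PT.id'⟩

end Crest.Agent.R316
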