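import Crest.Agent.R316.Lv

/-!
Row 316, task CF: closure properties of `CF`, uniform bounds.
-/

set_option autoImplicit false
set_option linter.dupNamespace false

namespace Crest.Agent.R316

open Crest.Agent.PT Crest.Agent.QC Crest.Agent.R317 Polynomial Finset

variable {α β : Type} [Enc α] [Enc β]

/-- A uniform bound over a binary parameter `y ≤ B a`. (`sz (a, y)` is at most
`2 * sz a + size (B a) + 1 =: n`; `PB.exists_mono` bounds `size (f a y)` by `(n+2)^k`; take
`g a = 2 ^ ((n+2)^k)`.) -/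
theorem BT.unif {f : α → ℕ → ℕ} {B : α → ℕ} (hB : BT B)
    (hf : BT (fun p : α × Bin => f p.1 p.2.val)) :
    ∃ g : α → ℕ, BT g ∧ ∀ a y, y ≤ B a → f a y ≤ g a := by
  obtain ⟨k, hk⟩ := hf.pb.exists_mono
  have h1 := hB.size
  have h2 : PT (fun a : α => sz a) := PT.len PT.id'
  refine ⟨fun a => 2 ^ ((2 * sz a + (B a).size + 1 + 2) ^ k), by fun_prop, fun a y hy => ?_⟩
  have h3 := hk (a, ⟨y⟩) (2 * sz a + (B a).size + 1) (by
    have := Nat.size_le_size hy
    simp only [sz_pair, sz_bin]; omega)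
  exact (Nat.lt_size_self _).le.trans (Nat.pow_le_pow_right (by omega) h3)

theorem BT.unifU {f : α → ℕ → ℕ} {n : α → ℕ} (hn : PT n)
    (hf : BT (fun p : α × ℕ => f p.1 p.2)) :
    ∃ g : α → ℕ, BT g ∧ ∀ a i, i ≤ n a → f a i ≤ g a := by
  obtain ⟨k, hk⟩ := hf.pb.exists_mono
  have h2 : PT (fun a : α => sz a) := PT.len PT.id'
  refine ⟨fun a => 2 ^ ((2 * sz a + n a + 1 + 2) ^ k), by fun_prop, fun a y hy => ?_⟩
  have h3 := hk (a, y) (2 * sz a + n a + 1) (by simp only [sz_pair, sz_nat]; omega)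
  exact (Nat.lt_size_self _).le.trans (Nat.pow_le_pow_right (by omega) h3)

theorem PT.unif {f : α → ℕ → ℕ} {B : α → ℕ} (hB : BT B)
    (hf : PT (fun p : α × Bin => f p.1 p.2.val)) :
    ∃ g : α → ℕ, PT g ∧ ∀ a y, y ≤ B a → f a y ≤ g a := by
  obtain ⟨k, hk⟩ := hf.pbNat.exists_mono
  have h1 := hB.size
  have h2 : PT (fun a : α => sz a) := PT.len PT.id'
  refine ⟨fun a => (2 * sz a + (B a).size + 1 + 2) ^ k, by fun_prop, fun a y hy => ?_⟩
  exact hk (a, ⟨y⟩) (2 * sz a + (B a).size + 1) (by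
    have := Nat.size_le_size hy
    simp only [sz_pair, sz_bin]; omega)

theorem PT.unifU {f : α → ℕ → ℕ} {n : α → ℕ} (hn : PT n)
    (hf : PT (fun p : α × ℕ => f p.1 p.2)) :
    ∃ g : α → ℕ, PT g ∧ ∀ a i, i ≤ n a → f a i ≤ g a := by
  obtain ⟨k, hk⟩ := hf.pbNat.exists_mono
  have h2 : PT (fun a : α => sz a) := PT.len PT.id'
  refine ⟨fun a => (2 * sz a + n a + 1 + 2) ^ k, by fun_prop, fun a y hy => ?_⟩
  exact hk (a, y) (2 * sz a + n a + 1) (by simp only [sz_pair, sz_nat]; omega)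

theorem CF.ofBT {f : α → ℕ} (hf : BT f) : CF f := by
  exact ⟨⟨f, hf, fun _ => le_rfl⟩, CD.ofDT (by fun_prop)⟩

theorem CF.congr {f g : α → ℕ} (hf : CF f) (h : ∀ a, f a = g a) : CF g := by
  rwa [← show f = g from funext h]

theorem CF.comp {g : β → ℕ} {f : α → β} (hg : CF g) (hf : PT f) : CF (fun a => g (f a)) := by
  obtain ⟨⟨B, hB, h⟩, hg⟩ := hg
  exact ⟨⟨fun a => B (f a), hB.comp hf, fun a => h _⟩,
    hg.comp (f := fun p : α × Bin => (f p.1, p.2)) (by fun_prop)⟩

/-- Substitution of a `CF` value for a binary parameter: `∃ y < B a + 1, y = f a ∧ P a y`. -/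
theorem CD.subst {P : α → ℕ → Prop} {f : α → ℕ} (hP : CD (fun p : α × Bin => P p.1 p.2.val))
    (hf : CF f) : CD (fun a => P a (f a)) := by
  obtain ⟨⟨B, hB, h⟩, hf⟩ := hf
  refine (CD.ex (P := fun a y => y = f a ∧ P a y) (B := fun a => B a + 1) (by fun_prop)
    (hf.and hP)).congr fun a => ⟨?_, fun hp => ⟨f a, Nat.lt_succ_of_le (h a), rfl, hp⟩⟩
  rintro ⟨y, -, rfl, hp⟩
  exact hp

theorem CF.subst {g : α → ℕ → ℕ} {f : α → ℕ} (hg : CF (fun p : α × Bin => g p.1 p.2.val))
    (hf : CF f) : CF (fun a => g a (f a)) := by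
  obtain ⟨⟨B', hB', h'⟩, hg⟩ := hg
  obtain ⟨B, hB, h⟩ := hf.1
  obtain ⟨G, hG, hG'⟩ := BT.unif (f := fun a y => B' (a, ⟨y⟩)) hB hB'
  refine ⟨⟨G, hG, fun a => (h' (a, ⟨f a⟩)).trans (hG' a _ (h a))⟩, ?_⟩
  exact CD.subst (P := fun (p : α × Bin) y => p.2.val = g p.1 y) (f := fun p : α × Bin => f p.1)
    (hg.comp (f := fun q : (α × Bin) × Bin => ((q.1.1, q.2), q.1.2)) (by fun_prop))
    (hf.comp (by fun_prop))

/-- A polynomial-time binary operation applied to `CF` values. -/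
theorem CF.bin {op : ℕ → ℕ → ℕ} {f g : α → ℕ}
    (hop : BT (fun p : Bin × Bin => op p.1.val p.2.val)) (hf : CF f) (hg : CF g) :
    CF (fun a => op (f a) (g a)) := by
  refine CF.subst (g := fun a x => op x (g a)) ?_ hf
  refine CF.subst (g := fun (p : α × Bin) y => op p.2.val y) (f := fun p : α × Bin => g p.1) ?_
    (hg.comp (by fun_prop))
  exact CF.ofBT (hop.comp (f := fun q : (α × Bin) × Bin => (q.1.2, q.2)) (by fun_prop))

theorem CF.add {f g : α → ℕ} (hf : CF f) (hg : CF g) : CF (fun a => f a + g a) := by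
  exact CF.bin (op := fun x y => x + y) (by fun_prop) hf hg

theorem CF.sub {f g : α → ℕ} (hf : CF f) (hg : CF g) : CF (fun a => f a - g a) := by
  exact CF.bin (op := fun x y => x - y) (by fun_prop) hf hg

theorem CF.mul {f g : α → ℕ} (hf : CF f) (hg : CF g) : CF (fun a => f a * g a) := by
  exact CF.bin (op := fun x y => x * y) (by fun_prop) hf hg

theorem CF.div {f g : α → ℕ} (hf : CF f) (hg : CF g) : CF (fun a => f a / g a) := by
  exact CF.bin (op := fun x y => x / y) (by fun_prop) hf hg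

theorem CF.mod {f g : α → ℕ} (hf : CF f) (hg : CF g) : CF (fun a => f a % g a) := by
  exact CF.bin (op := fun x y => x % y) (by fun_prop) hf hg

theorem CF.pm {b h m : α → ℕ} (hb : CF b) (hh : CF h) (hm : CF m) :
    CF (fun a => pm (b a) (h a) (m a)) := by
  refine CF.subst (g := fun a x => QC.pm x (h a) (m a)) ?_ hb
  refine CF.subst (g := fun (p : α × Bin) y => QC.pm p.2.val y (m p.1))
    (f := fun p : α × Bin => h p.1) ?_ (hh.comp (by fun_prop))
  refine CF.subst (g := fun (q : (α × Bin) × Bin) z => QC.pm q.1.2.val q.2.val z)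
    (f := fun q : (α × Bin) × Bin => m q.1.1) ?_ (hm.comp (by fun_prop))
  exact CF.ofBT (by fun_prop)

theorem CF.le {f g : α → ℕ} (hf : CF f) (hg : CF g) : CD (fun a => f a ≤ g a) := by
  refine CD.subst (P := fun a x => x ≤ g a) ?_ hf
  refine CD.subst (P := fun (p : α × Bin) y => p.2.val ≤ y) (f := fun p : α × Bin => g p.1) ?_
    (hg.comp (by fun_prop))
  exact CD.ofDT (by fun_prop)

theorem CF.lt {f g : α → ℕ} (hf : CF f) (hg : CF g) : CD (fun a => f a < g a) := by
  refine CD.subst (P := fun a x => x < g a) ?_ hf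
  refine CD.subst (P := fun (p : α × Bin) y => p.2.val < y) (f := fun p : α × Bin => g p.1) ?_
    (hg.comp (by fun_prop))
  exact CD.ofDT (by fun_prop)

theorem CF.eq {f g : α → ℕ} (hf : CF f) (hg : CF g) : CD (fun a => f a = g a) := by
  refine CD.subst (P := fun a x => x = g a) ?_ hf
  refine CD.subst (P := fun (p : α × Bin) y => p.2.val = y) (f := fun p : α × Bin => g p.1) ?_
    (hg.comp (by fun_prop))
  exact CD.ofDT (by fun_prop)

theorem CF.odd {f : α → ℕ} (hf : CF f) : CD (fun a => Odd (f a)) := by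
  exact (CF.eq (hf.mod (CF.ofBT (BT.const 2))) (CF.ofBT (BT.const 1))).congr
    fun a => Nat.odd_iff.symm

theorem CF.ite {P : α → Prop} [∀ a, Decidable (P a)] {f g : α → ℕ} (hP : CD P) (hf : CF f)
    (hg : CF g) : CF (fun a => if P a then f a else g a) := by
  obtain ⟨⟨B, hB, h⟩, hf⟩ := hf
  obtain ⟨⟨B', hB', h'⟩, hg⟩ := hg
  refine ⟨⟨fun a => B a + B' a, hB.add hB', fun a => ?_⟩, ?_⟩
  · have := h a
    have := h' a
    dsimp only
    split_ifs <;> omega
  · refine (CD.ite (hP.comp (f := fun p : α × Bin => p.1) (by fun_prop)) hf hg).congr fun p => ?_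
    dsimp only
    split_ifs <;> rfl

/-- Counting: `v = cnt ↔ ¬ v < cnt ∧ (v = 0 ∨ v - 1 < cnt)`. -/
theorem CF.cnt {P : α → ℕ → Prop} {B : α → ℕ} (hB : BT B)
    (hP : CD (fun p : α × Bin => P p.1 p.2.val)) : CF (fun a => cnt (B a) (P a)) := by
  refine ⟨⟨B, hB, fun a => ?_⟩, ?_⟩
  · classical
    unfold R316.cnt
    exact (card_filter_le _ _).trans (card_range _).le
  · have hP' : CD (fun q : (α × Bin) × Bin => P q.1.1 q.2.val) :=
      hP.comp (f := fun q : (α × Bin) × Bin => (q.1.1, q.2)) (by fun_prop)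
    have h1 := CD.cntLt (P := fun (p : α × Bin) y => P p.1 y) (B := fun p => B p.1)
      (T := fun p => p.2.val) (by fun_prop) (by fun_prop) hP'
    have h2 := CD.cntLt (P := fun (p : α × Bin) y => P p.1 y) (B := fun p => B p.1)
      (T := fun p => p.2.val - 1) (by fun_prop) (by fun_prop) hP'
    have h3 : CD (fun p : α × Bin => p.2.val = 0) := CD.ofDT (by fun_prop)
    refine (h1.not.and (h3.or h2)).congr fun p => ?_
    change (¬ p.2.val < R316.cnt (B p.1) (P p.1) ∧
      (p.2.val = 0 ∨ p.2.val - 1 < R316.cnt (B p.1) (P p.1))) ↔ p.2.val = R316.cnt (B p.1) (P p.1)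
    omega

theorem CF.lst {P : α → ℕ → Prop} {B : α → ℕ} (hB : BT B)
    (hP : CD (fun p : α × Bin => P p.1 p.2.val)) : CF (fun a => lst (B a) (P a)) := by
  refine CF.cnt (P := fun a y => ∀ y' ≤ y, ¬ P a y') hB ?_
  refine (CD.all (P := fun (p : α × Bin) y' => ¬ P p.1 y') (B := fun p => p.2.val + 1) (by fun_prop)
    (hP.comp (f := fun q : (α × Bin) × Bin => (q.1.1, q.2)) (by fun_prop)).not).congr fun p => ?_
  simp only [Nat.lt_succ_iff]

private theorem cf_cnt_sum (B M : ℕ) (hM : 0 < M) (f : ℕ → ℕ) (hf : ∀ y < B, f y ≤ M) :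
    cnt (B * M) (fun i => i % M < f (i / M)) = ∑ y ∈ range B, f y := by
  classical
  unfold cnt
  rw [card_filter]
  induction B with
  | zero => simp
  | succ B ih =>
    rw [Nat.succ_mul, sum_range_add, ih (fun y hy => hf y (by omega)), sum_range_succ]
    congr 1
    trans ∑ x ∈ range M, if x < f B then 1 else 0
    · refine sum_congr rfl fun x hx => ?_
      have hx' := mem_range.mp hx
      simp only [mul_comm B M, Nat.mul_add_mod, Nat.mod_eq_of_lt hx', Nat.mul_add_div hM,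
        Nat.div_eq_of_lt hx', add_zero]
    rw [← card_filter]
    have : (range M).filter (fun x => x < f B) = range (f B) := by
      ext x
      have := hf B (Nat.lt_succ_self B)
      simp only [mem_filter, mem_range]
      omega
    rw [this, card_range]

/-- Exponential sums: with a uniform bound `f a y < M a` the sum is
`cnt (B * M) (fun i => i % M < f a (i / M))`. -/
theorem CF.sum {f : α → ℕ → ℕ} {B : α → ℕ} (hB : BT B)
    (hf : CF (fun p : α × Bin => f p.1 p.2.val)) : CF (fun a => ∑ y ∈ range (B a), f a y) := by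
  obtain ⟨B', hB', h'⟩ := hf.1
  obtain ⟨G, hG, hG'⟩ := BT.unif (f := fun a y => B' (a, ⟨y⟩)) hB hB'
  have h1 : CD (fun p : α × Bin => p.2.val % (G p.1 + 1) < f p.1 (p.2.val / (G p.1 + 1))) :=
    CF.lt (CF.ofBT (by fun_prop))
      (hf.comp (f := fun p : α × Bin => (p.1, (⟨p.2.val / (G p.1 + 1)⟩ : Bin))) (by fun_prop))
  refine (CF.cnt (P := fun a i => i % (G a + 1) < f a (i / (G a + 1)))
    (B := fun a => B a * (G a + 1)) (by fun_prop) h1).congr fun a => ?_
  exact cf_cnt_sum _ _ (Nat.succ_pos _) _ fun y hy =>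
    ((h' (a, ⟨y⟩)).trans (hG' a y hy.le)).trans (Nat.le_succ _)

/-- Uniform bound for a `CF` family. -/
theorem CF.unif {f : α → ℕ → ℕ} {B : α → ℕ} (hB : BT B)
    (hf : CF (fun p : α × Bin => f p.1 p.2.val)) :
    ∃ g : α → ℕ, BT g ∧ ∀ a y, y ≤ B a → f a y ≤ g a := by
  obtain ⟨B', hB', h'⟩ := hf.1
  obtain ⟨G, hG, hG'⟩ := BT.unif (f := fun a y => B' (a, ⟨y⟩)) hB hB'
  exact ⟨G, hG, fun a y hy => (h' (a, ⟨y⟩)).trans (hG' a y hy)⟩

/-- Primality: `2 ≤ q ∧ ∀ y < q, y ∣ q → y = 1`. -/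
theorem CD.prime {q : α → ℕ} (hq : BT q) : CD (fun a => (q a).Prime) := by
  have h1 : CD (fun a => 2 ≤ q a) := CD.ofDT (by fun_prop)
  have h2 : CD (fun a => ∀ y < q a, y ∣ q a → y = 1) :=
    CD.all (P := fun a y => y ∣ q a → y = 1) hq (CD.ofDT (dt_imp (by fun_prop) (by fun_prop)))
  exact (h1.and h2).congr fun a => Nat.prime_def_lt.symm

end Crest.Agent.R316
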