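import Crest.Agent.R316.Defs

/-!
Row 316, task INTERP: interpolation on grids (pure algebra).
-/

set_option autoImplicit false
set_option linter.dupNamespace false

namespace Crest.Agent.R316

open Crest.Agent.PT Crest.Agent.QC Crest.Agent.R317 Polynomial Finset

variable {α β : Type} [Enc α] [Enc β]

theorem itp_symm_val {L m : ℕ} (y : Fin (L ^ m)) (i : Fin m) :
    ((finFunctionFinEquiv.symm y i : Fin L) : ℕ) = dg L y i := rfl

/-- Base-`L` digits enumerate the tuples. -/
theorem sum_dg {M : Type} [AddCommMonoid M] (L m : ℕ) (f : (Fin m → ℕ) → M) :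
    ∑ y ∈ range (L ^ m), f (fun i => dg L y i) = ∑ μ ∈ tups m (fun _ => L), f μ := by
  rw [← Fin.sum_univ_eq_sum_range (fun y => f fun i => dg L y i) (L ^ m)]
  refine sum_bij (fun y _ => fun i : Fin m => dg L y i) ?_ ?_ ?_ fun _ _ => rfl
  · intro y _
    rw [mem_tups]
    intro i
    rw [← itp_symm_val]
    exact Fin.is_lt _
  · intro y _ y' _ e
    apply finFunctionFinEquiv.symm.injective
    funext i
    apply Fin.ext
    rw [itp_symm_val, itp_symm_val]
    exact congrFun e i
  · intro μ hμ
    rw [mem_tups] at hμ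
    refine ⟨finFunctionFinEquiv fun i => ⟨μ i, hμ i⟩, mem_univ _, ?_⟩
    funext i
    rw [← itp_symm_val, Equiv.symm_apply_apply]

/-- Every tuple of digits is the digit sequence of a number. -/
theorem exists_dg {L m : ℕ} (u : ℕ → ℕ) (hu : ∀ i < m, u i < L) :
    ∃ y < L ^ m, ∀ i < m, dg L y i = u i := by
  let y : Fin (L ^ m) := finFunctionFinEquiv fun i : Fin m => (⟨u i, hu i i.2⟩ : Fin L)
  refine ⟨y, y.2, fun i hi => ?_⟩
  have := itp_symm_val y ⟨i, hi⟩
  rw [Equiv.symm_apply_apply] at this
  exact this.symm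

theorem dg_lt {L : ℕ} (hL : 0 < L) (y i : ℕ) : dg L y i < L := Nat.mod_lt _ hL

/-- Value of the Lagrange basis polynomial as a product. -/
theorem aeval_lb (L j : ℕ) (t : ℂ) :
    aeval t (lb L j) =
      ∏ j' ∈ range L, if j' = j then 1 else (t - j') * ((((j : ℚ) - j')⁻¹ : ℚ) : ℂ) := by
  rw [lb, Lagrange.basis, map_prod, ← prod_erase (range L) (a := j)
    (f := fun j' : ℕ => if j' = j then (1 : ℂ) else (t - j') * ((((j : ℚ) - j')⁻¹ : ℚ) : ℂ))
    (if_pos rfl)]
  refine prod_congr rfl fun j' hj' => ?_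
  rw [if_neg (mem_erase.1 hj').1, Lagrange.basisDivisor, map_mul, aeval_C, map_sub, aeval_X,
    aeval_C, mul_comm]
  simp

theorem itp_natDegree_lb {L j : ℕ} (hj : j < L) : (lb L j).natDegree < L := by
  rw [lb, Lagrange.natDegree_basis (Nat.cast_injective.injOn) (mem_range.2 hj), card_range]
  omega

/-- The Lagrange basis polynomial through its coefficients. -/
theorem aeval_lb_eq_sum {L j : ℕ} (hj : j < L) (t : ℂ) :
    aeval t (lb L j) = ∑ e ∈ range L, (lc L j e : ℂ) * t ^ e := by
  rw [aeval_eq_sum_range' (itp_natDegree_lb hj)]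
  exact sum_congr rfl fun e _ => by rw [Rat.smul_def]; rfl

theorem itp_map_lb (L j : ℕ) : (lb L j).map (algebraMap ℚ ℂ) =
    Lagrange.basis (range L) (fun i : ℕ => (i : ℂ)) j := by
  rw [lb, Lagrange.basis, Lagrange.basis, Polynomial.map_prod]
  refine prod_congr rfl fun j' _ => ?_
  simp [Lagrange.basisDivisor]

theorem itp_poly {L : ℕ} {p : ℂ[X]} (hp : p.natDegree < L) :
    p = ∑ j ∈ range L, C (p.eval (j : ℂ)) * (lb L j).map (algebraMap ℚ ℂ) := by
  have h := Lagrange.eq_interpolate (s := range L) (v := fun i : ℕ => (i : ℂ)) (f := p)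
    Nat.cast_injective.injOn (by
      rw [card_range]
      exact degree_le_natDegree.trans_lt (WithBot.coe_lt_coe.2 hp))
  rw [Lagrange.interpolate_apply] at h
  simp only [itp_map_lb]
  exact h

/-- One-variable interpolation (`Lagrange.eq_interpolate`). -/
theorem interp_eval {L : ℕ} {p : ℂ[X]} (hp : p.natDegree < L) (t : ℂ) :
    p.eval t = ∑ j ∈ range L, p.eval (j : ℂ) * aeval t (lb L j) := by
  conv_lhs => rw [itp_poly hp]
  rw [eval_finsetSum]
  refine sum_congr rfl fun j _ => ?_
  rw [eval_mul, eval_C, eval_map_algebraMap]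

theorem interp_coeff {L : ℕ} {p : ℂ[X]} (hp : p.natDegree < L) (e : ℕ) :
    p.coeff e = ∑ j ∈ range L, p.eval (j : ℂ) * (lc L j e : ℂ) := by
  conv_lhs => rw [itp_poly hp]
  rw [finsetSum_coeff]
  refine sum_congr rfl fun j _ => ?_
  rw [coeff_C_mul, coeff_map]
  rfl

/-- A polynomial of total degree `< L` is separately polynomial. -/
theorem sepP_aeval {L : ℕ} {P : MvPolynomial ℕ ℚ} (hP : P.totalDegree < L) :
    SepP L (fun z => MvPolynomial.aeval z P) := by
  intro j z
  let f : ℕ → ℂ[X] := fun i => if i = j then X else C (z i)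
  let P' : MvPolynomial ℕ ℂ := MvPolynomial.map (algebraMap ℚ ℂ) P
  refine ⟨MvPolynomial.aeval f P', ?_, fun t => ?_⟩
  · have h1 : P'.totalDegree ≤ P.totalDegree :=
      Finset.sup_mono (MvPolynomial.support_map_subset (algebraMap ℚ ℂ) P)
    have hf1 : ∀ i, (f i).natDegree ≤ 1 := fun i => by
      simp only [f]
      split_ifs
      · exact natDegree_X_le
      · simp
    have h2 : (MvPolynomial.aeval f P').natDegree ≤ P.totalDegree * 1 :=
      MvPolynomial.aeval_natDegree_le P' h1 f hf1
    omega
  · have h3 : ∀ Q : MvPolynomial ℕ ℂ, (MvPolynomial.aeval f Q).eval t =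
        MvPolynomial.aeval (Function.update z j t) Q := by
      intro Q
      induction Q using MvPolynomial.induction_on with
      | C a => simp
      | add p q hp hq => rw [map_add, eval_add, hp, hq, map_add]
      | mul_X p i hp =>
        rw [map_mul, eval_mul, hp, map_mul, MvPolynomial.aeval_X, MvPolynomial.aeval_X]
        congr 1
        simp only [f, Function.update_apply]
        split_ifs <;> simp
    rw [h3, MvPolynomial.aeval_map_algebraMap]

theorem itp_sum_range_mul {M : Type} [AddCommMonoid M] (a b : ℕ) (f : ℕ → M) :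
    ∑ y ∈ range (a * b), f y = ∑ c ∈ range b, ∑ y ∈ range a, f (a * c + y) := by
  induction b with
  | zero => simp
  | succ b ih => rw [Nat.mul_succ, sum_range_add, ih, sum_range_succ]

theorem itp_dg_low {L k i : ℕ} (c y : ℕ) (hi : i < k) : dg L (L ^ k * c + y) i = dg L y i := by
  rcases Nat.eq_zero_or_pos L with rfl | hL
  · rw [zero_pow (by omega), zero_mul, zero_add]
  obtain ⟨d, rfl⟩ := Nat.exists_eq_add_of_lt hi
  unfold dg
  rw [show L ^ (i + d + 1) * c = L ^ i * (L * (L ^ d * c)) by ring,
    Nat.mul_add_div (Nat.pow_pos hL), Nat.mul_add_mod]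

theorem itp_dg_top {L k c y : ℕ} (hy : y < L ^ k) (hc : c < L) : dg L (L ^ k * c + y) k = c := by
  unfold dg
  rw [Nat.mul_add_div (by omega), Nat.div_eq_of_lt hy, add_zero, Nat.mod_eq_of_lt hc]

/-- Interpolation in the first `m` coordinates (induction on `m`, or on the number of
coordinates already replaced by grid values). -/
theorem SepP.interp {L : ℕ} {f : Pt → ℂ} (hf : SepP L f) (m : ℕ) (u x : Pt) :
    f (app m u x) = ∑ y ∈ range (L ^ m),
      f (app m (fun i => (dg L y i : ℂ)) x) * ∏ i ∈ range m, aeval (u i) (lb L (dg L y i)) := by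
  have hL : 0 < L := by
    obtain ⟨p, hp, _⟩ := hf 0 0
    omega
  have key : ∀ (k : ℕ) (z : Pt), f z = ∑ y ∈ range (L ^ k),
      f (fun i => if i < k then (dg L y i : ℂ) else z i) *
        ∏ i ∈ range k, aeval (z i) (lb L (dg L y i)) := by
    intro k z
    induction k with
    | zero => simp
    | succ k ih =>
      rw [ih, pow_succ, itp_sum_range_mul, sum_comm]
      refine sum_congr rfl fun y hy => ?_
      have hy' := mem_range.1 hy
      obtain ⟨p, hp, hpe⟩ := hf k (fun i => if i < k then (dg L y i : ℂ) else z i)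
      have e0 : (fun i => if i < k then (dg L y i : ℂ) else z i) =
          Function.update (fun i => if i < k then (dg L y i : ℂ) else z i) k (z k) := by
        funext i
        rw [Function.update_apply]
        split_ifs with h1 h2 h2
        · omega
        · rfl
        · rw [h2]
        · rfl
      rw [e0, hpe, interp_eval hp, sum_mul]
      refine sum_congr rfl fun c hc => ?_
      have hc' := mem_range.1 hc
      rw [← hpe, prod_range_succ, itp_dg_top hy' hc', mul_assoc, mul_comm (aeval (z k) (lb L c))]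
      congr 1
      · congr 1
        funext i
        rw [Function.update_apply]
        by_cases h1 : i = k
        · rw [if_pos h1, if_pos (by omega), h1, itp_dg_top hy' hc']
        · rw [if_neg h1]
          by_cases h2 : i < k
          · rw [if_pos h2, if_pos (by omega), itp_dg_low _ _ h2]
          · rw [if_neg h2, if_neg (by omega)]
      · congr 1
        exact prod_congr rfl fun i hi => by rw [itp_dg_low _ _ (mem_range.1 hi)]
  rw [key m]
  refine sum_congr rfl fun y _ => ?_
  congr 1
  · congr 1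
    funext i
    simp only [app]
    split_ifs <;> rfl
  · exact prod_congr rfl fun i hi => by rw [app_lt _ _ (mem_range.1 hi)]

/-- Coefficients of a multivariate polynomial from its values on a grid. -/
theorem interp_coeffM {L m : ℕ} {G : MvPolynomial (Fin m) ℂ} (hG : G.totalDegree < L)
    (e : Fin m → ℕ) :
    G.coeff (Finsupp.equivFunOnFinite.symm e) = ∑ y ∈ range (L ^ m),
      MvPolynomial.eval (fun i : Fin m => (dg L y i : ℂ)) G *
        ∏ i : Fin m, (lc L (dg L y i) (e i) : ℂ) := by
  classical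
  rw [sum_dg L m (fun μ => MvPolynomial.eval (fun i : Fin m => (μ i : ℂ)) G *
    ∏ i : Fin m, (lc L (μ i) (e i) : ℂ))]
  simp only [MvPolynomial.eval_eq', sum_mul]
  rw [sum_comm]
  have key : ∀ d ∈ G.support, ∑ μ ∈ tups m (fun _ => L),
      (G.coeff d * ∏ i : Fin m, (μ i : ℂ) ^ d i) * ∏ i : Fin m, (lc L (μ i) (e i) : ℂ) =
      if d = Finsupp.equivFunOnFinite.symm e then G.coeff d else 0 := by
    intro d hd
    simp only [mul_assoc, ← prod_mul_distrib]
    rw [← mul_sum, tups,
      ← prod_univ_sum (fun _ : Fin m => range L) (fun i c => (c : ℂ) ^ d i * (lc L c (e i) : ℂ))]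
    have h1 : ∀ i : Fin m, ∑ c ∈ range L, (c : ℂ) ^ d i * (lc L c (e i) : ℂ) =
        if d i = e i then 1 else 0 := by
      intro i
      have h2 : d i < L := ((MvPolynomial.monomial_le_degreeOf i hd).trans
        (MvPolynomial.degreeOf_le_totalDegree G i)).trans_lt hG
      have h3 := interp_coeff (L := L) (p := X ^ d i) (by rwa [natDegree_X_pow]) (e i)
      simp only [eval_pow, eval_X, coeff_X_pow] at h3
      rw [← h3]
      simp only [eq_comm]
    simp only [h1]
    split_ifs with hde
    · rw [prod_eq_one, mul_one]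
      intro i _
      rw [if_pos (by rw [hde]; rfl)]
    · have : ∃ i, d i ≠ e i := by
        by_contra hcon
        push Not at hcon
        exact hde (Finsupp.ext fun i => hcon i)
      obtain ⟨i, hi⟩ := this
      rw [prod_eq_zero (mem_univ i) (if_neg hi), mul_zero]
  rw [sum_congr rfl key, sum_ite_eq']
  split_ifs with h
  · rfl
  · exact MvPolynomial.notMem_support_iff.1 h

theorem itp_prod_tri (m : ℕ) (g : ℕ → ℕ → ℂ) :
    ∏ j ∈ range m, ∏ i ∈ range j, g i j = ∏ i : Fin m, ∏ j ∈ Ioi i, g i j := by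
  rw [prod_comm' (t' := univ) (s' := fun j : Fin m => Iio j) (by simp),
    ← Fin.prod_univ_eq_prod_range (fun j => ∏ i ∈ range j, g i j) m]
  refine prod_congr rfl fun j _ => ?_
  rw [← Nat.Iio_eq_range, ← Fin.map_valEmbedding_Iio, prod_map]
  rfl

/-- The determinant as a sum over all maps: the weight `∏_{i < j} (f j - f i) / (j - i)` is the
sign of a permutation and vanishes for the other maps. -/
theorem det_eq_sum_dg (m : ℕ) (A : ℕ → ℕ → ℂ) :
    Matrix.det (Matrix.of fun i j : Fin m => A i j) = ∑ y ∈ range (m ^ m),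
      (∏ j ∈ range m, ∏ i ∈ range j,
        (((((dg m y j : ℚ) - dg m y i) / ((j : ℚ) - i) : ℚ)) : ℂ)) *
          ∏ i ∈ range m, A i (dg m y i) := by
  let V : Matrix (Fin m) (Fin m) ℂ := Matrix.vandermonde fun i : Fin m => ((i : ℕ) : ℂ)
  let M : Matrix (Fin m) (Fin m) ℂ := Matrix.of fun i j : Fin m => A i j
  have hV : V.det ≠ 0 :=
    Matrix.det_vandermonde_ne_zero_iff.2 fun i j h => Fin.ext (Nat.cast_injective h)
  have h1 : (M * V).det = ∑ r : Fin m → Fin m, (∏ i, M i (r i)) * (V.submatrix r id).det := by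
    have e : M * V = fun i => ∑ k, M i k • V k := by
      funext i j
      simp [Matrix.mul_apply]
    have := (Matrix.detRowAlternating (n := Fin m) (R := ℂ)).toMultilinearMap.map_sum
      (fun i k => M i k • V k)
    rw [e]
    refine this.trans (sum_congr rfl fun r _ => ?_)
    exact (Matrix.detRowAlternating (n := Fin m) (R := ℂ)).toMultilinearMap.map_smul_univ
      (fun i => M i (r i)) (fun i => V (r i))
  apply mul_right_cancel₀ hV
  rw [← Matrix.det_mul, h1, sum_mul,
    ← Fin.sum_univ_eq_sum_range (fun y => ((∏ j ∈ range m, ∏ i ∈ range j,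
        (((((dg m y j : ℚ) - dg m y i) / ((j : ℚ) - i) : ℚ)) : ℂ)) *
          ∏ i ∈ range m, A i (dg m y i)) * V.det) (m ^ m)]
  symm
  refine Fintype.sum_equiv finFunctionFinEquiv.symm _ _ fun y => ?_
  have e2 : V.submatrix (finFunctionFinEquiv.symm y) id =
      Matrix.vandermonde fun i : Fin m => ((dg m y i : ℕ) : ℂ) := by
    ext i j
    rfl
  rw [e2, Matrix.det_vandermonde, Matrix.det_vandermonde,
    itp_prod_tri m (fun i j => ((((dg m y j : ℚ) - dg m y i) / ((j : ℚ) - i) : ℚ) : ℂ)),
    mul_right_comm, ← prod_mul_distrib, mul_comm,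
    ← Fin.prod_univ_eq_prod_range (fun i => A i (dg m y i)) m]
  congr 1
  refine prod_congr rfl fun i _ => ?_
  rw [← prod_mul_distrib]
  refine prod_congr rfl fun j hj => ?_
  have hij : ((j : ℕ) : ℂ) - ((i : ℕ) : ℂ) ≠ 0 :=
    sub_ne_zero.2 fun h => (mem_Ioi.1 hj).ne' (Fin.ext (Nat.cast_injective h))
  push_cast
  field_simp

end Crest.Agent.R316
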