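import Crest.Agent.R316.CQ
import Crest.Agent.R316.Interp

/-!
Row 316, task CP: closure properties of `CP` and `CV`.
-/

set_option autoImplicit false
set_option linter.dupNamespace false

namespace Crest.Agent.R316

open Crest.Agent.PT Crest.Agent.QC Crest.Agent.R317 Polynomial Finset

variable {α β : Type} [Enc α] [Enc β]

theorem cp_cast (x : ℕ → ℚ) (P : MvPolynomial ℕ ℚ) :
    MvPolynomial.aeval (fun i => (x i : ℂ)) P = ((MvPolynomial.eval x P : ℚ) : ℂ) := by
  induction P using MvPolynomial.induction_on with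
  | C a => simp
  | add p q hp hq => simp [hp, hq]
  | mul_X p i hp => simp [hp]

theorem cp_vars {P : MvPolynomial ℕ ℚ} {z z' : Pt} (h : ∀ i ∈ P.vars, z i = z' i) :
    MvPolynomial.aeval z P = MvPolynomial.aeval z' P :=
  MvPolynomial.eval₂Hom_congr' rfl (fun i hi _ => h i hi) rfl

theorem CP.congr {F G : α → Pt → ℂ} (hF : CP F) (h : ∀ a z, F a z = G a z) : CP G := by
  obtain ⟨P, d, v, hd, hv, h1, h2, h3, hq⟩ := hF
  exact ⟨P, d, v, hd, hv, h1, h2, fun a z => (h a z).symm.trans (h3 a z), hq⟩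

theorem CP.comp {F : β → Pt → ℂ} {f : α → β} (hF : CP F) (hf : PT f) :
    CP (fun a => F (f a)) := by
  obtain ⟨P, d, v, hd, hv, h1, h2, h3, hq⟩ := hF
  exact ⟨fun a => P (f a), fun a => d (f a), fun a => v (f a), by fun_prop, by fun_prop,
    fun a => h1 _, fun a => h2 _, fun a => h3 _,
    hq.comp (f := fun p : α × Bin × Bin => (f p.1, p.2)) (by fun_prop)⟩

theorem CP.const {c : α → ℚ} (hc : CQ c) : CP (fun a _ => (c a : ℂ)) := by
  exact ⟨fun a => MvPolynomial.C (c a), fun _ => 0, fun _ => 0, by fun_prop, by fun_prop,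
    fun a => by simp, fun a => by simp, fun a z => by simp,
    (hc.comp (f := fun p : α × Bin × Bin => p.1) (by fun_prop)).congr fun p => by simp⟩

theorem CP.nat {c : α → ℕ} (hc : CF c) : CP (fun a _ => (c a : ℂ)) := by
  exact (CP.const (CQ.ofCF hc)).congr fun a z => by simp

theorem CP.natB {c : α → ℕ} (hc : BT c) : CP (fun a _ => (c a : ℂ)) := by
  exact (CP.const (CQ.ofBT hc)).congr fun a z => by simp

theorem CP.rat (c : ℚ) : CP (fun (_ : α) _ => (c : ℂ)) := by
  exact CP.const (CQ.const c)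

theorem CP.zero : CP (fun (_ : α) _ => 0) := by
  exact (CP.rat 0).congr fun a z => by simp

theorem CP.one : CP (fun (_ : α) _ => 1) := by
  exact (CP.rat 1).congr fun a z => by simp

theorem CP.var {i : α → ℕ} (hi : PT i) : CP (fun a z => z (i a)) := by
  exact ⟨fun a => MvPolynomial.X (i a), fun _ => 1, fun a => i a + 1, by fun_prop, by fun_prop,
    fun a => by simp, fun a => by simp, fun a z => by simp,
    (CQ.ofBT (f := fun p : α × Bin × Bin => dg p.2.1.val p.2.2.val (i p.1)) (by fun_prop)).congr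
      fun p => by simp⟩

theorem CP.add {F G : α → Pt → ℂ} (hF : CP F) (hG : CP G) : CP (fun a z => F a z + G a z) := by
  obtain ⟨P, d, v, hd, hv, h1, h2, h3, hq⟩ := hF
  obtain ⟨P', d', v', hd', hv', h1', h2', h3', hq'⟩ := hG
  refine ⟨fun a => P a + P' a, fun a => d a + d' a, fun a => v a + v' a, by fun_prop, by fun_prop,
    fun a => (MvPolynomial.totalDegree_add _ _).trans
      (max_le ((h1 a).trans (Nat.le_add_right _ _)) ((h1' a).trans (Nat.le_add_left _ _))),
    fun a i hi => ?_, fun a z => by simp [h3, h3'], (hq.add hq').congr fun p => by simp⟩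
  rcases Finset.mem_union.1 (MvPolynomial.vars_add_subset _ _ hi) with h | h
  · exact (h2 a i h).trans_le (Nat.le_add_right _ _)
  · exact (h2' a i h).trans_le (Nat.le_add_left _ _)

theorem CP.neg {F : α → Pt → ℂ} (hF : CP F) : CP (fun a z => -F a z) := by
  obtain ⟨P, d, v, hd, hv, h1, h2, h3, hq⟩ := hF
  exact ⟨fun a => -P a, d, v, hd, hv, fun a => by simpa using h1 a, fun a => by simpa using h2 a,
    fun a z => by simp [h3], hq.neg.congr fun p => by simp⟩

theorem CP.sub {F G : α → Pt → ℂ} (hF : CP F) (hG : CP G) : CP (fun a z => F a z - G a z) := by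
  exact (hF.add hG.neg).congr fun a z => (sub_eq_add_neg _ _).symm

theorem CP.mul {F G : α → Pt → ℂ} (hF : CP F) (hG : CP G) : CP (fun a z => F a z * G a z) := by
  obtain ⟨P, d, v, hd, hv, h1, h2, h3, hq⟩ := hF
  obtain ⟨P', d', v', hd', hv', h1', h2', h3', hq'⟩ := hG
  refine ⟨fun a => P a * P' a, fun a => d a + d' a, fun a => v a + v' a, by fun_prop, by fun_prop,
    fun a => (MvPolynomial.totalDegree_mul _ _).trans (add_le_add (h1 a) (h1' a)),
    fun a i hi => ?_, fun a z => by simp [h3, h3'], (hq.mul hq').congr fun p => by simp⟩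
  rcases Finset.mem_union.1 (MvPolynomial.vars_mul _ _ hi) with h | h
  · exact (h2 a i h).trans_le (Nat.le_add_right _ _)
  · exact (h2' a i h).trans_le (Nat.le_add_left _ _)

theorem CP.pow {F : α → Pt → ℂ} {k : α → ℕ} (hF : CP F) (hk : BT k) :
    CP (fun a z => F a z ^ k a) := by
  obtain ⟨P, d, v, hd, hv, h1, h2, h3, hq⟩ := hF
  exact ⟨fun a => P a ^ k a, fun a => k a * d a, v, by fun_prop, hv,
    fun a => (MvPolynomial.totalDegree_pow _ _).trans (Nat.mul_le_mul_left _ (h1 a)),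
    fun a i hi => h2 a i (MvPolynomial.vars_pow _ _ hi), fun a z => by simp [h3],
    (hq.pow (k := fun p => k p.1) (by fun_prop)).congr fun p => by simp⟩

theorem CP.ite {P : α → Prop} [∀ a, Decidable (P a)] {F G : α → Pt → ℂ} (hP : CD P) (hF : CP F)
    (hG : CP G) : CP (fun a z => if P a then F a z else G a z) := by
  obtain ⟨Q, d, v, hd, hv, h1, h2, h3, hq⟩ := hF
  obtain ⟨Q', d', v', hd', hv', h1', h2', h3', hq'⟩ := hG
  refine ⟨fun a => if P a then Q a else Q' a, fun a => d a + d' a, fun a => v a + v' a,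
    by fun_prop, by fun_prop, fun a => ?_, fun a i hi => ?_, fun a z => ?_,
    (CQ.ite (hP.comp (f := fun p : α × Bin × Bin => p.1) (by fun_prop)) hq hq').congr
      fun p => ?_⟩
  · beta_reduce
    split_ifs
    · exact (h1 a).trans (Nat.le_add_right _ _)
    · exact (h1' a).trans (Nat.le_add_left _ _)
  · beta_reduce at hi
    split_ifs at hi
    · exact (h2 a i hi).trans_le (Nat.le_add_right _ _)
    · exact (h2' a i hi).trans_le (Nat.le_add_left _ _)
  · beta_reduce
    split_ifs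
    · exact h3 a z
    · exact h3' a z
  · beta_reduce
    split_ifs <;> rfl

/-- Uniform bounds by `BT.unif`, `PT.unif`. -/
theorem CP.sum {B : α → ℕ} {F : α → ℕ → Pt → ℂ} (hB : BT B)
    (hF : CP (fun p : α × Bin => F p.1 p.2.val)) :
    CP (fun a z => ∑ y ∈ range (B a), F a y z) := by
  obtain ⟨P, d, v, hd, hv, h1, h2, h3, hq⟩ := hF
  obtain ⟨d', hd', e1⟩ := BT.unif (f := fun a y => d (a, ⟨y⟩)) hB hd
  obtain ⟨v', hv', e2⟩ := PT.unif (f := fun a y => v (a, ⟨y⟩)) hB hv
  refine ⟨fun a => ∑ y ∈ range (B a), P (a, ⟨y⟩), d', v', hd', hv',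
    fun a => MvPolynomial.totalDegree_finsetSum_le fun y hy =>
      (h1 _).trans (e1 a y (mem_range.1 hy).le), fun a i hi => ?_, fun a z => ?_,
    (CQ.sum (B := fun p : α × Bin × Bin => B p.1) (f := fun p y =>
      MvPolynomial.eval (fun i => (dg p.2.1.val p.2.2.val i : ℚ)) (P (p.1, ⟨y⟩))) (by fun_prop)
      (hq.comp (f := fun q : (α × Bin × Bin) × Bin => ((q.1.1, q.2), q.1.2))
        (by fun_prop))).congr fun p => (map_sum _ _ _).symm⟩
  · obtain ⟨y, hy, hi⟩ := Finset.mem_biUnion.1 (MvPolynomial.vars_sum_subset _ _ hi)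
    exact (h2 _ i hi).trans_le (e2 a y (mem_range.1 hy).le)
  · rw [map_sum]
    exact Finset.sum_congr rfl fun y _ => h3 (a, ⟨y⟩) z

theorem CP.prod {B : α → ℕ} {F : α → ℕ → Pt → ℂ} (hB : BT B)
    (hF : CP (fun p : α × Bin => F p.1 p.2.val)) :
    CP (fun a z => ∏ y ∈ range (B a), F a y z) := by
  obtain ⟨P, d, v, hd, hv, h1, h2, h3, hq⟩ := hF
  obtain ⟨d', hd', e1⟩ := BT.unif (f := fun a y => d (a, ⟨y⟩)) hB hd
  obtain ⟨v', hv', e2⟩ := PT.unif (f := fun a y => v (a, ⟨y⟩)) hB hv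
  refine ⟨fun a => ∏ y ∈ range (B a), P (a, ⟨y⟩), fun a => B a * d' a, v', by fun_prop, hv',
    fun a => (MvPolynomial.totalDegree_finsetProd _ _).trans ?_, fun a i hi => ?_, fun a z => ?_,
    (CQ.prod (B := fun p : α × Bin × Bin => B p.1) (f := fun p y =>
      MvPolynomial.eval (fun i => (dg p.2.1.val p.2.2.val i : ℚ)) (P (p.1, ⟨y⟩))) (by fun_prop)
      (hq.comp (f := fun q : (α × Bin × Bin) × Bin => ((q.1.1, q.2), q.1.2))
        (by fun_prop))).congr fun p => (map_prod _ _ _).symm⟩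
  · simpa using Finset.sum_le_card_nsmul (range (B a)) _ (d' a) fun y hy =>
      (h1 (a, ⟨y⟩)).trans (e1 a y (mem_range.1 hy).le)
  · obtain ⟨y, hy, hi⟩ := Finset.mem_biUnion.1 (MvPolynomial.vars_prod _ hi)
    exact (h2 _ i hi).trans_le (e2 a y (mem_range.1 hy).le)
  · rw [map_prod]
    exact Finset.prod_congr rfl fun y _ => h3 (a, ⟨y⟩) z

/-- Unary index (compose with `p ↦ (p.1, un (n p.1) p.2.val)`). -/
theorem CP.sumU {n : α → ℕ} {F : α → ℕ → Pt → ℂ} (hn : PT n)
    (hF : CP (fun p : α × ℕ => F p.1 p.2)) : CP (fun a z => ∑ i ∈ range (n a), F a i z) := by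
  exact (CP.sum (B := n) (F := fun a y => F a (un (n a) y)) (BT.ofPT hn)
    (hF.comp (f := fun p : α × Bin => (p.1, un (n p.1) p.2.val)) (by fun_prop))).congr
    fun a z => Finset.sum_congr rfl fun i hi => by rw [un, min_eq_left (mem_range.1 hi).le]

theorem CP.prodU {n : α → ℕ} {F : α → ℕ → Pt → ℂ} (hn : PT n)
    (hF : CP (fun p : α × ℕ => F p.1 p.2)) : CP (fun a z => ∏ i ∈ range (n a), F a i z) := by
  exact (CP.prod (B := n) (F := fun a y => F a (un (n a) y)) (BT.ofPT hn)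
    (hF.comp (f := fun p : α × Bin => (p.1, un (n p.1) p.2.val)) (by fun_prop))).congr
    fun a z => Finset.prod_congr rfl fun i hi => by rw [un, min_eq_left (mem_range.1 hi).le]

/-- Dependence on polynomially many coordinates. -/
theorem CP.vars {F : α → Pt → ℂ} (hF : CP F) :
    ∃ v : α → ℕ, PT v ∧ ∀ a z z', (∀ i < v a, z i = z' i) → F a z = F a z' := by
  obtain ⟨P, d, v, hd, hv, h1, h2, h3, hq⟩ := hF
  exact ⟨v, hv, fun a z z' h => by rw [h3, h3]; exact cp_vars fun i hi => h i (h2 a i hi)⟩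

theorem CP.sepP {F : α → Pt → ℂ} (hF : CP F) : ∃ L : α → ℕ, BT L ∧ ∀ a, SepP (L a) (F a) := by
  obtain ⟨P, d, v, hd, hv, h1, h2, h3, hq⟩ := hF
  refine ⟨fun a => d a + 1, by fun_prop, fun a => ?_⟩
  rw [show F a = fun z => MvPolynomial.aeval z (P a) from funext (h3 a)]
  exact sepP_aeval (Nat.lt_succ_of_le (h1 a))

theorem CP.continuous {F : α → Pt → ℂ} (hF : CP F) (a : α) : Continuous (F a) := by
  obtain ⟨P, d, v, hd, hv, h1, h2, h3, hq⟩ := hF
  rw [show F a = fun z => MvPolynomial.aeval z (P a) from funext (h3 a)]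
  induction P a using MvPolynomial.induction_on with
  | C a => simpa using continuous_const
  | add p q hp hq => simp only [map_add]; exact hp.add hq
  | mul_X p i hp => simp only [map_mul, MvPolynomial.aeval_X]; exact hp.mul (continuous_apply i)

theorem CP.conj {F : α → Pt → ℂ} (hF : CP F) (a : α) (z : Pt) :
    F a (cj z) = (starRingEnd ℂ) (F a z) := by
  obtain ⟨P, d, v, hd, hv, h1, h2, h3, hq⟩ := hF
  rw [h3, h3]
  induction P a using MvPolynomial.induction_on with
  | C a => simp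
  | add p q hp hq => simp [hp, hq]
  | mul_X p i hp => simp [hp, cj]

theorem CP.real {F : α → Pt → ℂ} (hF : CP F) (a : α) (x : ℕ → ℝ) : (F a (rc x)).im = 0 := by
  have h := hF.conj a (rc x)
  rw [cj_rc] at h
  exact Complex.conj_eq_iff_im.1 h.symm

/-- The value at the origin (`dg 1 0 i = 0`). -/
theorem CP.toCQ {F : α → Pt → ℂ} (hF : CP F) : ∃ c : α → ℚ, CQ c ∧ ∀ a, F a 0 = c a := by
  obtain ⟨P, d, v, hd, hv, h1, h2, h3, hq⟩ := hF
  refine ⟨_, hq.comp (f := fun a : α => (a, (⟨1⟩ : Bin), (⟨0⟩ : Bin))) (by fun_prop), fun a => ?_⟩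
  rw [h3, ← cp_cast]
  exact cp_vars fun i _ => by simp [dg]

theorem CP.eq_zero0 {F : α → Pt → ℂ} (hF : CP F) : CD (fun a => F a 0 = 0) := by
  obtain ⟨c, hc, h⟩ := hF.toCQ
  exact hc.eq_zero.congr fun a => by rw [h, Rat.cast_eq_zero]

theorem CP.pos0 {F : α → Pt → ℂ} (hF : CP F) : CD (fun a => 0 < (F a 0).re) := by
  obtain ⟨c, hc, h⟩ := hF.toCQ
  exact hc.pos.congr fun a => by rw [h, Complex.ratCast_re, Rat.cast_pos]

theorem CP.inv0 {F : α → Pt → ℂ} (hF : CP F) : CP (fun a _ => (F a 0)⁻¹) := by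
  obtain ⟨c, hc, h⟩ := hF.toCQ
  exact (CP.const hc.inv).congr fun a _ => by rw [h, Rat.cast_inv]

theorem CP.bound0 {F : α → Pt → ℂ} (hF : CP F) :
    ∃ L : α → ℕ, BT L ∧ ∀ a, ‖F a 0‖ ≤ 2 ^ L a ∧ (F a 0 ≠ 0 → 1 ≤ 2 ^ L a * ‖F a 0‖) := by
  obtain ⟨c, hc, h⟩ := hF.toCQ
  obtain ⟨L, hL, hb⟩ := hc.bound
  refine ⟨L, hL, fun a => ?_⟩
  rw [h, Complex.norm_ratCast, Rat.cast_ne_zero]
  exact ⟨by exact_mod_cast (hb a).1, fun h0 => by exact_mod_cast (hb a).2 h0⟩

/-- Lagrange basis polynomials of a `CP` function (`aeval_lb`). -/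
theorem CP.lb {F : α → Pt → ℂ} {L j : α → ℕ} (hF : CP F) (hL : BT L) (hj : BT j) :
    CP (fun a z => aeval (F a z) (lb (L a) (j a))) := by
  refine CP.congr ?_ fun a z => (aeval_lb _ _ _).symm
  exact CP.prod (F := fun a j' z => if j' = j a then 1 else
      (F a z - j') * ((((j a : ℚ) - j')⁻¹ : ℚ) : ℂ)) hL
    (CP.ite (P := fun p : α × Bin => p.2.val = j p.1) (CD.ofDT (by fun_prop)) CP.one
      (((hF.comp (f := fun p : α × Bin => p.1) (by fun_prop)).sub (CP.natB (by fun_prop))).mul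
        (CP.const ((CQ.ofBT (by fun_prop)).sub (CQ.ofBT (by fun_prop))).inv)))

/-- Substitution. With `L = d + 1`: `F u = F (app v u 0)` and by `SepP.interp` this is
`∑_{y < L^v} F (dg L y) ∏_{i < v} lb L (dg L y i) (u i)`, where `F (dg L y)` is `CQ`. -/
theorem CP.at {F : α → Pt → ℂ} {H : α → Pt → Pt} (hF : CP F) (hH : CV H) :
    CP (fun a z => F a (H a z)) := by
  obtain ⟨P, d, v, hd, hv, h1, h2, h3, hq⟩ := hF
  refine (CP.sum (B := fun a => (d a + 1) ^ v a) (F := fun a y z =>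
    ((MvPolynomial.eval (fun i => (dg (d a + 1) y i : ℚ)) (P a) : ℚ) : ℂ) *
      ∏ i ∈ range (v a), aeval (H a z i) (R316.lb (d a + 1) (dg (d a + 1) y i))) (by fun_prop)
    ((CP.const (hq.comp (f := fun p : α × Bin => (p.1, (⟨d p.1 + 1⟩ : Bin), p.2))
      (by fun_prop))).mul
      (CP.prodU (n := fun p : α × Bin => v p.1) (F := fun p i z =>
        aeval (H p.1 z i) (R316.lb (d p.1 + 1) (dg (d p.1 + 1) p.2.val i))) (by fun_prop)
        (CP.lb (CP.comp hH (f := fun q : (α × Bin) × ℕ => (q.1.1, q.2)) (by fun_prop))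
          (by fun_prop) (by fun_prop))))).congr fun a z => ?_
  have e : ∀ u : Pt, MvPolynomial.aeval (app (v a) u 0) (P a) = MvPolynomial.aeval u (P a) :=
    fun u => cp_vars fun i hi => app_lt _ _ (h2 a i hi)
  have h := (sepP_aeval (Nat.lt_succ_of_le (h1 a))).interp (v a) (H a z) 0
  simp only [e] at h
  rw [h3, h]
  refine Finset.sum_congr rfl fun y _ => ?_
  rw [← cp_cast]
  simp only [Rat.cast_natCast]

theorem CV.congr {H H' : α → Pt → Pt} (hH : CV H) (h : ∀ a z, H a z = H' a z) : CV H' := by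
  exact CP.congr hH fun p z => by rw [h]

theorem CV.comp {H : β → Pt → Pt} {f : α → β} (hH : CV H) (hf : PT f) :
    CV (fun a => H (f a)) := by
  exact CP.comp hH (f := fun p : α × ℕ => (f p.1, p.2)) (by fun_prop)

theorem CV.id : CV (fun (_ : α) z => z) := by
  exact CP.var (i := fun p : α × ℕ => p.2) (by fun_prop)

theorem CV.zero : CV (fun (_ : α) _ => 0) := by
  exact CP.zero

theorem CV.var {H : α → Pt → Pt} {i : α → ℕ} (hH : CV H) (hi : PT i) :
    CP (fun a z => H a z (i a)) := by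
  exact CP.comp hH (f := fun a => (a, i a)) (by fun_prop)

theorem CV.at {H H' : α → Pt → Pt} (hH : CV H) (hH' : CV H') :
    CV (fun a z => H a (H' a z)) := by
  exact CP.at hH (hH'.comp (f := fun p : α × ℕ => p.1) (by fun_prop))

theorem CV.tl {H : α → Pt → Pt} (hH : CV H) : CV (fun a z => tl (H a z)) := by
  exact CP.comp hH (f := fun p : α × ℕ => (p.1, p.2 + 1)) (by fun_prop)

theorem CV.sh {H : α → Pt → Pt} {m : α → ℕ} (hm : PT m) (hH : CV H) :
    CV (fun a z => sh (m a) (H a z)) := by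
  exact CP.comp hH (f := fun p : α × ℕ => (p.1, p.2 + m p.1)) (by fun_prop)

theorem CV.cs {F : α → Pt → ℂ} {H : α → Pt → Pt} (hF : CP F) (hH : CV H) :
    CV (fun a z => cs (F a z) (H a z)) := by
  exact CP.ite (P := fun p : α × ℕ => p.2 = 0) (CD.ofDT (by fun_prop))
    (hF.comp (f := fun p : α × ℕ => p.1) (by fun_prop))
    (CP.comp hH (f := fun p : α × ℕ => (p.1, p.2 - 1)) (by fun_prop))

theorem CV.app {H H' : α → Pt → Pt} {m : α → ℕ} (hm : PT m) (hH : CV H) (hH' : CV H') :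
    CV (fun a z => app (m a) (H a z) (H' a z)) := by
  exact CP.ite (P := fun p : α × ℕ => p.2 < m p.1) (CD.ofDT (by fun_prop)) hH
    (CP.comp hH' (f := fun p : α × ℕ => (p.1, p.2 - m p.1)) (by fun_prop))

theorem CV.update {F : α → Pt → ℂ} {H : α → Pt → Pt} {j : α → ℕ} (hj : PT j) (hH : CV H)
    (hF : CP F) : CV (fun a z => Function.update (H a z) (j a) (F a z)) := by
  exact (CP.ite (P := fun p : α × ℕ => p.2 = j p.1) (CD.ofDT (by fun_prop))
    (hF.comp (f := fun p : α × ℕ => p.1) (by fun_prop)) hH).congr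
    fun p z => (Function.update_apply _ _ _ _).symm

/-- Grid points. -/
theorem CV.dg {L y : α → ℕ} (hL : BT L) (hy : BT y) :
    CV (fun a _ => fun i => (dg (L a) (y a) i : ℂ)) := by
  exact CP.natB (c := fun p : α × ℕ => R316.dg (L p.1) (y p.1) p.2) (by fun_prop)

end Crest.Agent.R316
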