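import Crest.Agent.R316.Sign

/-!
Row 316, task CQ: closure properties of `CQ`.
-/

set_option autoImplicit false
set_option linter.dupNamespace false

namespace Crest.Agent.R316

open Crest.Agent.PT Crest.Agent.QC Crest.Agent.R317 Polynomial Finset

variable {α β : Type} [Enc α] [Enc β]

theorem CQ.congr {f g : α → ℚ} (hf : CQ f) (h : ∀ a, f a = g a) : CQ g := by
  rwa [← show f = g from funext h]

theorem CQ.comp {g : β → ℚ} {f : α → β} (hg : CQ g) (hf : PT f) : CQ (fun a => g (f a)) := by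
  obtain ⟨N, D, hN, hD, h⟩ := hg
  exact ⟨_, _, hN.comp hf, hD.comp hf, fun a => h _⟩

theorem CQ.ofCZ {F : α → ℤ} (hF : CZ F) : CQ (fun a => (F a : ℚ)) := by
  exact ⟨F, fun _ => 1, hF, CZ.const 1, fun a => by simp⟩

theorem CQ.ofCF {f : α → ℕ} (hf : CF f) : CQ (fun a => (f a : ℚ)) := by
  exact (CQ.ofCZ (CZ.ofCF hf)).congr fun a => by simp

theorem CQ.ofBT {f : α → ℕ} (hf : BT f) : CQ (fun a => (f a : ℚ)) := by
  exact CQ.ofCF (CF.ofBT hf)

theorem CQ.const (c : ℚ) : CQ (fun _ : α => c) := by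
  exact ⟨fun _ => c.num, fun _ => c.den, CZ.const _, CZ.const _, fun _ =>
    ⟨Int.natCast_pos.mpr c.den_pos, by simpa using (Rat.num_div_den c).symm⟩⟩

theorem CQ.add {f g : α → ℚ} (hf : CQ f) (hg : CQ g) : CQ (fun a => f a + g a) := by
  obtain ⟨N, D, hN, hD, h⟩ := hf
  obtain ⟨N', D', hN', hD', h'⟩ := hg
  refine ⟨_, _, (hN.mul hD').add (hN'.mul hD), hD.mul hD', fun a => ⟨mul_pos (h a).1 (h' a).1, ?_⟩⟩
  have h1 : (D a : ℚ) ≠ 0 := by exact_mod_cast (h a).1.ne'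
  have h2 : (D' a : ℚ) ≠ 0 := by exact_mod_cast (h' a).1.ne'
  dsimp only
  rw [(h a).2, (h' a).2]
  push_cast
  field_simp

theorem CQ.neg {f : α → ℚ} (hf : CQ f) : CQ (fun a => -f a) := by
  obtain ⟨N, D, hN, hD, h⟩ := hf
  refine ⟨_, _, hN.neg, hD, fun a => ⟨(h a).1, ?_⟩⟩
  dsimp only
  rw [(h a).2]
  push_cast
  ring

theorem CQ.sub {f g : α → ℚ} (hf : CQ f) (hg : CQ g) : CQ (fun a => f a - g a) := by
  exact (hf.add hg.neg).congr fun a => (sub_eq_add_neg _ _).symm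

theorem CQ.mul {f g : α → ℚ} (hf : CQ f) (hg : CQ g) : CQ (fun a => f a * g a) := by
  obtain ⟨N, D, hN, hD, h⟩ := hf
  obtain ⟨N', D', hN', hD', h'⟩ := hg
  refine ⟨_, _, hN.mul hN', hD.mul hD', fun a => ⟨mul_pos (h a).1 (h' a).1, ?_⟩⟩
  dsimp only
  rw [(h a).2, (h' a).2]
  push_cast
  ring

/-- `(N / D)⁻¹ = D N / (if N = 0 then 1 else N²)`. -/
theorem CQ.inv {f : α → ℚ} (hf : CQ f) : CQ (fun a => (f a)⁻¹) := by
  obtain ⟨N, D, hN, hD, h⟩ := hf
  refine ⟨_, fun a => if N a = 0 then 1 else N a * N a, hD.mul hN,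
    CZ.ite hN.eq_zero (CZ.const 1) (hN.mul hN), fun a => ?_⟩
  dsimp only
  rw [(h a).2]
  split_ifs with h0
  · simp [h0]
  · refine ⟨mul_self_pos.mpr h0, ?_⟩
    have h1 : (N a : ℚ) ≠ 0 := by exact_mod_cast h0
    have h2 : (D a : ℚ) ≠ 0 := by exact_mod_cast (h a).1.ne'
    push_cast
    field_simp

theorem CQ.div {f g : α → ℚ} (hf : CQ f) (hg : CQ g) : CQ (fun a => f a / g a) := by
  exact (hf.mul hg.inv).congr fun a => (div_eq_mul_inv _ _).symm

theorem CQ.pow {f : α → ℚ} {k : α → ℕ} (hf : CQ f) (hk : BT k) : CQ (fun a => f a ^ k a) := by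
  obtain ⟨N, D, hN, hD, h⟩ := hf
  refine ⟨_, _, hN.pow hk, hD.pow hk, fun a => ⟨pow_pos (h a).1 _, ?_⟩⟩
  dsimp only
  rw [(h a).2, div_pow]
  push_cast
  rfl

theorem CQ.ite {P : α → Prop} [∀ a, Decidable (P a)] {f g : α → ℚ} (hP : CD P) (hf : CQ f)
    (hg : CQ g) : CQ (fun a => if P a then f a else g a) := by
  obtain ⟨N, D, hN, hD, h⟩ := hf
  obtain ⟨N', D', hN', hD', h'⟩ := hg
  refine ⟨_, _, CZ.ite hP hN hN', CZ.ite hP hD hD', fun a => ?_⟩
  dsimp only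
  split_ifs
  · exact h a
  · exact h' a

/-- `∑ N_y / D_y = (∑_y N_y ∏_{y'} (if y' = y then 1 else D_{y'})) / ∏ D_y`. -/
theorem CQ.sum {B : α → ℕ} {f : α → ℕ → ℚ} (hB : BT B)
    (hf : CQ (fun p : α × Bin => f p.1 p.2.val)) : CQ (fun a => ∑ y ∈ range (B a), f a y) := by
  obtain ⟨N, D, hN, hD, h⟩ := hf
  have h1 : CZ (fun p : α × Bin => ∏ y' ∈ range (B p.1), if y' = p.2.val then 1 else D (p.1, ⟨y'⟩)) :=
    CZ.prod (F := fun (p : α × Bin) y' => if y' = p.2.val then 1 else D (p.1, ⟨y'⟩)) (by fun_prop)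
      (CZ.ite (CD.ofDT (by fun_prop)) (CZ.const 1)
        (hD.comp (f := fun q : (α × Bin) × Bin => (q.1.1, q.2)) (by fun_prop)))
  refine ⟨fun a => ∑ y ∈ range (B a),
      N (a, ⟨y⟩) * ∏ y' ∈ range (B a), if y' = y then 1 else D (a, ⟨y'⟩),
    fun a => ∏ y ∈ range (B a), D (a, ⟨y⟩),
    CZ.sum (F := fun a y => N (a, ⟨y⟩) * ∏ y' ∈ range (B a), if y' = y then 1 else D (a, ⟨y'⟩))
      hB (hN.mul h1),
    CZ.prod (F := fun a y => D (a, ⟨y⟩)) hB hD,
    fun a => ⟨prod_pos fun y _ => (h (a, ⟨y⟩)).1, ?_⟩⟩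
  dsimp only
  push_cast
  rw [sum_div]
  refine sum_congr rfl fun y hy => ?_
  have hne : ∀ y, (D (a, ⟨y⟩) : ℚ) ≠ 0 := fun y => by exact_mod_cast (h (a, ⟨y⟩)).1.ne'
  have e : ∏ y' ∈ range (B a), (D (a, ⟨y'⟩) : ℚ) =
      D (a, ⟨y⟩) * ∏ y' ∈ range (B a), if y' = y then 1 else (D (a, ⟨y'⟩) : ℚ) := by
    rw [← mul_prod_erase _ _ hy, ← mul_prod_erase _ _ hy, if_pos rfl, one_mul]
    congr 1
    exact prod_congr rfl fun y' hy' => by rw [if_neg (ne_of_mem_erase hy')]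
  have hp : (∏ y' ∈ range (B a), if y' = y then 1 else (D (a, ⟨y'⟩) : ℚ)) ≠ 0 :=
    prod_ne_zero_iff.mpr fun y' _ => by
      split_ifs
      · exact one_ne_zero
      · exact hne y'
  rw [e, mul_div_mul_right _ _ hp]
  exact (h (a, ⟨y⟩)).2

theorem CQ.prod {B : α → ℕ} {f : α → ℕ → ℚ} (hB : BT B)
    (hf : CQ (fun p : α × Bin => f p.1 p.2.val)) : CQ (fun a => ∏ y ∈ range (B a), f a y) := by
  obtain ⟨N, D, hN, hD, h⟩ := hf
  refine ⟨fun a => ∏ y ∈ range (B a), N (a, ⟨y⟩), fun a => ∏ y ∈ range (B a), D (a, ⟨y⟩),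
    CZ.prod (F := fun a y => N (a, ⟨y⟩)) hB hN, CZ.prod (F := fun a y => D (a, ⟨y⟩)) hB hD,
    fun a => ⟨prod_pos fun y _ => (h (a, ⟨y⟩)).1, ?_⟩⟩
  dsimp only
  push_cast
  rw [← prod_div_distrib]
  exact prod_congr rfl fun y _ => (h (a, ⟨y⟩)).2

theorem CQ.eq_zero {f : α → ℚ} (hf : CQ f) : CD (fun a => f a = 0) := by
  obtain ⟨N, D, hN, -, h⟩ := hf
  refine hN.eq_zero.congr fun a => ?_
  have h2 : (D a : ℚ) ≠ 0 := by exact_mod_cast (h a).1.ne'
  simp [(h a).2, h2]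

theorem CQ.pos {f : α → ℚ} (hf : CQ f) : CD (fun a => 0 < f a) := by
  obtain ⟨N, D, hN, -, h⟩ := hf
  refine hN.pos.congr fun a => ?_
  have h2 : (0 : ℚ) < D a := by exact_mod_cast (h a).1
  simp [(h a).2, div_pos_iff_of_pos_right h2]

/-- Size and gap bound. -/
theorem CQ.bound {f : α → ℚ} (hf : CQ f) :
    ∃ L : α → ℕ, BT L ∧ ∀ a, |f a| ≤ 2 ^ L a ∧ (f a ≠ 0 → 1 ≤ 2 ^ L a * |f a|) := by
  obtain ⟨N, D, ⟨⟨L, hL, hN⟩, -⟩, ⟨⟨L', hL', hD⟩, -⟩, h⟩ := hf
  refine ⟨fun a => L a + L' a, hL.add hL', fun a => ?_⟩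
  have h1 : (1 : ℚ) ≤ D a := by exact_mod_cast (h a).1
  have h2 : |(N a : ℚ)| ≤ 2 ^ L a := by exact_mod_cast hN a
  have h3 : (D a : ℚ) ≤ 2 ^ L' a := by exact_mod_cast (le_abs_self _).trans (hD a)
  have h4 : (1 : ℚ) ≤ 2 ^ L a := one_le_pow₀ (by norm_num)
  have h5 : (1 : ℚ) ≤ 2 ^ L' a := one_le_pow₀ (by norm_num)
  have h0 : (0 : ℚ) < D a := by linarith
  rw [(h a).2, abs_div, abs_of_pos h0, pow_add]
  refine ⟨?_, fun hne => ?_⟩
  · refine (div_le_self (abs_nonneg _) h1).trans (h2.trans ?_)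
    exact le_mul_of_one_le_right (by positivity) h5
  · have h6 : N a ≠ 0 := by
      rintro h7
      simp [h7] at hne
    have h7 : (1 : ℚ) ≤ |(N a : ℚ)| := by exact_mod_cast Int.one_le_abs h6
    rw [← mul_div_assoc, le_div_iff₀ h0, one_mul]
    calc (D a : ℚ) ≤ 1 * 2 ^ L' a * 1 := by linarith
      _ ≤ _ := by gcongr

private noncomputable def cqP (j n : ℕ) : ℤ[X] :=
  ∏ y ∈ range n, if y = j then 1 else X - C (y : ℤ)

private theorem cqP_deg (j n : ℕ) : (cqP j n).natDegree ≤ n := by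
  refine (natDegree_prod_le _ _).trans ?_
  calc _ ≤ ∑ _y ∈ range n, 1 := sum_le_sum fun y _ => by
        split_ifs
        · simp
        · exact natDegree_X_sub_C_le _
    _ = n := by simp

private theorem cqP_coeff (j L n : ℕ) (hn : n ≤ L) (e : ℕ) :
    |(cqP j n).coeff e| ≤ ((L : ℤ) + 1) ^ n := by
  induction n generalizing e with
  | zero =>
    simp only [cqP, range_zero, prod_empty, coeff_one, pow_zero]
    split_ifs <;> simp
  | succ n ih =>
    have ih' := ih (by omega)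
    have hL : (n : ℤ) ≤ L := by exact_mod_cast (by omega : n ≤ L)
    have hn0 : (0 : ℤ) ≤ n := Int.natCast_nonneg n
    have hp : (0 : ℤ) ≤ ((L : ℤ) + 1) ^ n := by positivity
    have e1 : cqP j (n + 1) = cqP j n * if n = j then 1 else X - C (n : ℤ) := prod_range_succ _ _
    rw [e1, pow_succ]
    split_ifs
    · rw [mul_one]
      nlinarith [ih' e]
    · cases e with
      | zero =>
        rw [mul_coeff_zero, abs_mul]
        simp only [coeff_sub, coeff_X_zero, coeff_C_zero, zero_sub, abs_neg, abs_of_nonneg hn0]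
        nlinarith [ih' 0, abs_nonneg ((cqP j n).coeff 0)]
      | succ e =>
        rw [coeff_mul_X_sub_C]
        refine (abs_sub _ _).trans ?_
        rw [abs_mul, abs_of_nonneg hn0]
        nlinarith [ih' e, ih' (e + 1), abs_nonneg ((cqP j n).coeff (e + 1))]

/-- Coefficients of the Lagrange basis: `lb L j = ∏_{j' ∈ (range L).erase j} C (j - j')⁻¹ (X - C j')`,
so `lc L j e = (∏ (j - j')⁻¹) * coeff e (∏_{j' < L} if j' = j then 1 else (X - C j'))`; the integer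
coefficient is `CZ` by `Res.coeff` (threshold `L + 1`, `Res.prod`) and the bound
`|coeff| ≤ (L+1)^L ≤ 2^(L * L)` (induction on the product with the sum of the absolute values of
the coefficients, or a cruder coefficientwise bound). -/
theorem CQ.lc {L j e : α → ℕ} (hL : BT L) (hj : BT j) (he : BT e) :
    CQ (fun a => lc (L a) (j a) (e a)) := by
  have h1 : CQ (fun a => ∏ y ∈ range (L a), if y = j a then (1 : ℚ) else ((j a : ℚ) - y)⁻¹) :=
    CQ.prod (f := fun a y => if y = j a then (1 : ℚ) else ((j a : ℚ) - y)⁻¹) hL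
      (CQ.ite (CD.ofDT (by fun_prop)) (CQ.const 1)
        ((CQ.ofBT (by fun_prop)).sub (CQ.ofBT (f := fun p : α × Bin => p.2.val) (by fun_prop))).inv)
  have h2 : CZ (fun a => (cqP (j a) (L a)).coeff (e a)) := by
    refine ⟨⟨fun a => L a * L a, hL.mul hL, fun a => ?_⟩, fun a => L a + 1, by fun_prop, ?_⟩
    · refine (cqP_coeff _ _ _ le_rfl _).trans ?_
      rw [pow_mul]
      refine pow_le_pow_left₀ (by positivity) ?_ _
      exact_mod_cast Nat.lt_two_pow_self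
    · refine Res.coeff he (fun a => Nat.lt_succ_of_le (cqP_deg _ _)) ?_
      refine (Res.prod (t := fun p : α × Bin => L p.1 + 1) (B := fun p => L p.1)
        (F := fun p y => if y = j p.1 then 1 else (p.2.val : ℤ) - y) (by fun_prop)
        (Res.ite (CD.ofDT (by fun_prop)) (Res.ofCF _ (CF.ofBT (BT.const 1)))
          ((Res.ofCF _ (CF.ofBT (f := fun q : (α × Bin) × Bin => q.1.2.val) (by fun_prop))).sub
            (Res.ofCF _ (CF.ofBT (f := fun q : (α × Bin) × Bin => q.2.val) (by fun_prop)))))).congr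
        fun p => ?_
      simp only [cqP, eval_prod]
      refine prod_congr rfl fun y _ => ?_
      split_ifs <;> simp
  refine (h1.mul (CQ.ofCZ h2)).congr fun a => ?_
  have e1 : lb (L a) (j a) = C (∏ y ∈ range (L a), if y = j a then (1 : ℚ) else ((j a : ℚ) - y)⁻¹) *
      (cqP (j a) (L a)).map (Int.castRingHom ℚ) := by
    rw [lb, Lagrange.basis, cqP, Polynomial.map_prod, map_prod, ← prod_mul_distrib,
      ← prod_erase (a := j a) (range (L a)) (by simp)]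
    refine prod_congr rfl fun y hy => ?_
    simp [ne_of_mem_erase hy, Lagrange.basisDivisor]
  rw [R316.lc, e1, coeff_C_mul, coeff_map]
  rfl

end Crest.Agent.R316
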