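import Crest.Agent.R316.CP

/-!
Row 316, task CX: univariate slices, coefficients, derivatives, determinants.
-/

set_option autoImplicit false
set_option linter.dupNamespace false

namespace Crest.Agent.R316

open Crest.Agent.PT Crest.Agent.QC Crest.Agent.R317 Polynomial Finset

variable {α β : Type} [Enc α] [Enc β]

theorem cx_update (s t : ℂ) (x : Pt) : Function.update (cs s x) 0 t = cs t x := by
  funext i; cases i <;> simp

theorem cx_totalDegree {σ : Type} (f : ℕ → MvPolynomial σ ℂ) (hf : ∀ i, (f i).totalDegree ≤ 1)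
    (P : MvPolynomial ℕ ℚ) : (MvPolynomial.aeval f P).totalDegree ≤ P.totalDegree := by
  conv_lhs => rw [P.as_sum, map_sum]
  refine MvPolynomial.totalDegree_finsetSum_le fun s hs => ?_
  rw [MvPolynomial.aeval_monomial]
  refine (MvPolynomial.totalDegree_mul _ _).trans ?_
  have h0 : (algebraMap ℚ (MvPolynomial σ ℂ) (P.coeff s)).totalDegree = 0 := by
    rw [IsScalarTower.algebraMap_apply ℚ ℂ, MvPolynomial.algebraMap_eq, MvPolynomial.totalDegree_C]
  rw [h0, zero_add]
  refine le_trans ?_ (MvPolynomial.le_totalDegree hs)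
  refine (MvPolynomial.totalDegree_finsetProd _ _).trans (sum_le_sum fun i _ => ?_)
  exact (MvPolynomial.totalDegree_pow _ _).trans (by simpa using Nat.mul_le_mul_left (s i) (hf i))

theorem cx_hasDerivAt {m : ℕ} (G : MvPolynomial (Fin m) ℂ) (u : Fin m → ℂ) (j : Fin m) (t : ℂ) :
    HasDerivAt (fun t => MvPolynomial.eval (Function.update u j t) G)
      (MvPolynomial.eval (Function.update u j t) (MvPolynomial.pderiv j G)) t := by
  induction G using MvPolynomial.induction_on with
  | C c => simpa using hasDerivAt_const t c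
  | add p q hp hq =>
    simp only [map_add]
    exact hp.add hq
  | mul_X p i hp =>
    have h : HasDerivAt (fun t => Function.update u j t i) (if i = j then 1 else 0) t := by
      by_cases hi : i = j
      · subst hi; simpa using hasDerivAt_id' t
      · simpa [hi] using hasDerivAt_const t (u i)
    have := hp.mul h
    simp only [map_mul, MvPolynomial.eval_X]
    refine this.congr_deriv ?_
    by_cases hi : i = j
    · subst hi; simp; ring
    · simp [hi, MvPolynomial.pderiv_X_of_ne hi]; ring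

theorem CX.of {F : α → Pt → ℂ} {G : α → Pt → ℂ[X]} (hF : CP F)
    (h : ∀ a x t, (G a x).eval t = F a (cs t x)) : CX G := by
  exact hF.congr fun a z => by rw [h, cs_tl]

theorem CX.congr {G G' : α → Pt → ℂ[X]} (hG : CX G) (h : ∀ a x, G a x = G' a x) : CX G' := by
  exact CP.congr hG fun a z => by rw [h]

theorem CX.comp {G : β → Pt → ℂ[X]} {f : α → β} (hG : CX G) (hf : PT f) :
    CX (fun a => G (f a)) := by
  exact CP.comp hG hf

theorem CX.eval {G : α → Pt → ℂ[X]} {F : α → Pt → ℂ} {H : α → Pt → Pt} (hG : CX G) (hF : CP F)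
    (hH : CV H) : CP (fun a z => (G a (H a z)).eval (F a z)) := by
  exact CP.at hG (CV.cs hF hH)

theorem CX.at {G : α → Pt → ℂ[X]} {H : α → Pt → Pt} (hG : CX G) (hH : CV H) :
    CX (fun a z => G a (H a z)) := by
  exact hG.eval (CP.var (PT.const 0)) (hH.at CV.id.tl)

/-- A `CP` function as a polynomial in its first coordinate (`CP.sepP`). -/
theorem CX.slice {F : α → Pt → ℂ} (hF : CP F) :
    ∃ G : α → Pt → ℂ[X], CX G ∧ ∀ a x t, (G a x).eval t = F a (cs t x) := by
  obtain ⟨L, -, h⟩ := hF.sepP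
  choose G _ hG using fun a x => h a 0 (cs 0 x)
  have h' : ∀ a x t, (G a x).eval t = F a (cs t x) := fun a x t => by rw [← hG, cx_update]
  exact ⟨G, CX.of hF h', h'⟩

theorem CX.deg {G : α → Pt → ℂ[X]} (hG : CX G) :
    ∃ d : α → ℕ, BT d ∧ ∀ a x, (G a x).natDegree < d a := by
  obtain ⟨L, hL, h⟩ := CP.sepP hG
  refine ⟨L, hL, fun a x => ?_⟩
  obtain ⟨p, hp, hp'⟩ := h a 0 (cs 0 x)
  have : G a x = p := Polynomial.funext fun t => by
    rw [← hp', cx_update]; rfl
  rwa [this]

/-- `interp_coeff`. -/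
theorem CX.coeff {G : α → Pt → ℂ[X]} {e : α → ℕ} (hG : CX G) (he : BT e) :
    CP (fun a x => (G a x).coeff (e a)) := by
  obtain ⟨d, hd, h⟩ := hG.deg
  have h1 : CP (fun (p : α × Bin) x => (G p.1 x).eval (p.2.val : ℂ)) :=
    (hG.comp (f := fun p : α × Bin => p.1) (by fun_prop)).eval (CP.natB (by fun_prop)) CV.id
  have h2 : CP (fun (p : α × Bin) (_ : Pt) => (lc (d p.1) p.2.val (e p.1) : ℂ)) :=
    CP.const (CQ.lc (by fun_prop) (by fun_prop) (by fun_prop))
  exact (CP.sum (F := fun a j x => (G a x).eval (j : ℂ) * (lc (d a) j (e a) : ℂ)) hd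
    (h1.mul h2)).congr fun a x => (interp_coeff (h a x) (e a)).symm

theorem CX.real {G : α → Pt → ℂ[X]} (hG : CX G) (a : α) (x : ℕ → ℝ) (e : ℕ) :
    ((G a (rc x)).coeff e).im = 0 := by
  exact (hG.coeff (BT.const e)).real a x

theorem CX.ne_zero0 {G : α → Pt → ℂ[X]} (hG : CX G) : CD (fun a => G a 0 ≠ 0) := by
  obtain ⟨d, hd, h⟩ := hG.deg
  have h1 : CP (fun (p : α × Bin) x => (G p.1 x).coeff p.2.val) :=
    (hG.comp (f := fun p : α × Bin => p.1) (by fun_prop)).coeff (by fun_prop)
  refine (CD.ex (P := fun a e => ¬ (G a 0).coeff e = 0) hd h1.eq_zero0.not).congr fun a => ?_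
  constructor
  · rintro ⟨e, -, he⟩ h0
    exact he (by rw [h0, coeff_zero])
  · intro h0
    exact ⟨_, h a 0, leadingCoeff_ne_zero.2 h0⟩

/-- `coeff j (derivative^[k] G) = descFactorial (j + k) k * coeff (j + k) G`
(`Polynomial.coeff_iterate_derivative`), the factor being `∏ i ∈ range k, (j + k - i)`. -/
theorem CX.iterDeriv {G : α → Pt → ℂ[X]} {k : α → ℕ} (hG : CX G) (hk : BT k) :
    CX (fun a x => derivative^[k a] (G a x)) := by
  obtain ⟨d, hd, h⟩ := hG.deg
  have h1 : CP (fun (p : α × Bin) x => (G p.1 x).coeff (p.2.val + k p.1)) :=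
    (hG.comp (f := fun p : α × Bin => p.1) (by fun_prop)).coeff (by fun_prop)
  have h2 : CP (fun (p : α × Bin) (_ : Pt) =>
      ∏ i ∈ range (k p.1), ((p.2.val + k p.1 - i : ℕ) : ℂ)) :=
    CP.prod (B := fun p : α × Bin => k p.1) (F := fun p i _ => ((p.2.val + k p.1 - i : ℕ) : ℂ))
      (by fun_prop) (CP.natB (by fun_prop))
  have h3 : CP (fun (p : α × Bin) (z : Pt) => z 0 ^ p.2.val) :=
    (CP.var (PT.const 0)).pow (by fun_prop)
  refine (CP.sum (F := fun a j z => (∏ i ∈ range (k a), ((j + k a - i : ℕ) : ℂ)) *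
    (G a (tl z)).coeff (j + k a) * z 0 ^ j) hd ((h2.mul (h1.at CV.id.tl)).mul h3)).congr fun a z => ?_
  rw [eval_eq_sum_range' ((natDegree_iterate_derivative _ _).trans_lt
    ((Nat.sub_le _ _).trans_lt (h a (tl z))))]
  refine sum_congr rfl fun j _ => ?_
  rw [coeff_iterate_derivative, Nat.descFactorial_eq_prod_range, nsmul_eq_mul, Nat.cast_prod]

theorem CX.mon {G : α → Pt → ℂ[X]} {e : α → ℕ} {c : α → Pt → ℂ} (hG : CX G) (he : BT e)
    (hc : CP c) : CX (fun a x => mon (e a) (G a x) (c a x)) := by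
  have h1 : CP (fun (p : α × Bin) x => (G p.1 x).coeff p.2.val) :=
    (hG.comp (f := fun p : α × Bin => p.1) (by fun_prop)).coeff (by fun_prop)
  have h2 : CP (fun (p : α × Bin) x => c p.1 x) := hc.comp (f := fun p : α × Bin => p.1) (by fun_prop)
  have h3 : CP (fun (p : α × Bin) (z : Pt) => z 0 ^ p.2.val) :=
    (CP.var (PT.const 0)).pow (by fun_prop)
  refine (((CP.var (PT.const 0)).pow he).add (CP.sum (F := fun a j z =>
    c a (tl z) * (G a (tl z)).coeff j * z 0 ^ j) he (((h2.mul h1).at CV.id.tl).mul h3))).congr fun a z => ?_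
  simp [R316.mon, eval_finsetSum]

theorem SepP.hasDerivAt {L : ℕ} {f : Pt → ℂ} (hf : SepP L f) (j : ℕ) (z : Pt) :
    HasDerivAt (fun t => f (Function.update z j t)) (D j f z) (z j) := by
  obtain ⟨p, -, hp⟩ := hf j z
  apply DifferentiableAt.hasDerivAt
  simp only [hp]
  exact p.differentiableAt

/-- `D j F z` is coefficient `1` of the slice of `z' ↦ F (update (tl z') j (tl z' j + z' 0))`. -/
theorem CP.D {F : α → Pt → ℂ} {j : α → ℕ} (hF : CP F) (hj : PT j) :
    CP (fun a z => D (j a) (F a) z) := by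
  obtain ⟨G, hG, h⟩ := CX.slice (hF.at (CV.update hj CV.id.tl
    ((CV.id.tl.var hj).add (CP.var (PT.const 0)))))
  refine (hG.coeff (BT.const 1)).congr fun a z => ?_
  have e : (fun t => (G a z).eval t) =
      fun t => (fun s => F a (Function.update z (j a) s)) (z (j a) + t) := funext fun t => h a z t
  have e2 : (G a z).coeff 1 = deriv (fun t => (G a z).eval t) 0 := by
    rw [Polynomial.deriv, ← coeff_zero_eq_eval_zero, coeff_derivative]; simp
  rw [e2, e, deriv_comp_const_add (fun s => F a (Function.update z (j a) s)), add_zero]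
  rfl

/-- `det_eq_sum_dg`. -/
theorem CP.det {A : α → ℕ → ℕ → Pt → ℂ} {m : α → ℕ} (hm : PT m)
    (hA : CP (fun p : α × ℕ × ℕ => A p.1 p.2.1 p.2.2)) :
    CP (fun a z => Matrix.det (Matrix.of fun i j : Fin (m a) => A a i j z)) := by
  have h1 : CP (fun (p : α × Bin) (_ : Pt) => ∏ j ∈ range (m p.1), ∏ i ∈ range j,
      (((((dg (m p.1) p.2.val j : ℚ) - dg (m p.1) p.2.val i) / ((j : ℚ) - i) : ℚ)) : ℂ)) := by
    refine CP.prodU (n := fun p : α × Bin => m p.1) (F := fun p j _ => ∏ i ∈ range j,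
      (((((dg (m p.1) p.2.val j : ℚ) - dg (m p.1) p.2.val i) / ((j : ℚ) - i) : ℚ)) : ℂ)) (by fun_prop) ?_
    refine CP.prodU (n := fun q : (α × Bin) × ℕ => q.2) (F := fun q i _ =>
      (((((dg (m q.1.1) q.1.2.val q.2 : ℚ) - dg (m q.1.1) q.1.2.val i) / ((q.2 : ℚ) - i) : ℚ)) : ℂ))
      (by fun_prop) ?_
    exact CP.const (((CQ.ofBT (by fun_prop)).sub (CQ.ofBT (by fun_prop))).div
      ((CQ.ofBT (by fun_prop)).sub (CQ.ofBT (by fun_prop))))
  have h2 : CP (fun (p : α × Bin) (z : Pt) => ∏ i ∈ range (m p.1),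
      A p.1 i (un (m p.1) (dg (m p.1) p.2.val i)) z) :=
    CP.prodU (n := fun p : α × Bin => m p.1)
      (F := fun p i z => A p.1 i (un (m p.1) (dg (m p.1) p.2.val i)) z) (by fun_prop)
      (hA.comp (f := fun q : (α × Bin) × ℕ =>
        (q.1.1, q.2, un (m q.1.1) (dg (m q.1.1) q.1.2.val q.2))) (by fun_prop))
  refine (CP.sum (B := fun a => m a ^ m a) (F := fun a y z => (∏ j ∈ range (m a), ∏ i ∈ range j,
      (((((dg (m a) y j : ℚ) - dg (m a) y i) / ((j : ℚ) - i) : ℚ)) : ℂ)) *
      ∏ i ∈ range (m a), A a i (un (m a) (dg (m a) y i)) z) (by fun_prop) (h1.mul h2)).congr fun a z => ?_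
  rw [det_eq_sum_dg (m a) (fun i j => A a i j z)]
  refine sum_congr rfl fun y _ => ?_
  congr 1
  refine prod_congr rfl fun i hi => ?_
  rw [un, min_eq_left (dg_lt (by have := mem_range.1 hi; omega) _ _).le]

/-- A `CP` function as a polynomial in its first `m` coordinates. -/
theorem CP.mslice {F : α → Pt → ℂ} (m : α → ℕ) (hF : CP F) :
    ∃ (G : ∀ a, Pt → MvPolynomial (Fin (m a)) ℂ) (d : α → ℕ), BT d ∧
      (∀ a x, (G a x).totalDegree < d a) ∧
      ∀ a x (y : Pt), MvPolynomial.eval (fun i : Fin (m a) => y i) (G a x) =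
        F a (app (m a) y x) := by
  obtain ⟨P, d, v, hd, -, h1, -, h2, -⟩ := hF
  refine ⟨fun a x => MvPolynomial.aeval (fun i => if h : i < m a then
    (MvPolynomial.X ⟨i, h⟩ : MvPolynomial (Fin (m a)) ℂ) else MvPolynomial.C (x (i - m a))) (P a),
    fun a => d a + 1, by fun_prop, fun a x => ?_, fun a x y => ?_⟩
  · refine Nat.lt_succ_of_le ((cx_totalDegree _ (fun i => ?_) _).trans (h1 a))
    split_ifs
    · simp
    · simp
  · rw [h2]
    beta_reduce
    generalize P a = Q
    induction Q using MvPolynomial.induction_on with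
    | C c => simp
    | add p q hp hq => simp only [map_add, hp, hq]
    | mul_X p i hp =>
      simp only [map_mul, hp, MvPolynomial.aeval_X]
      congr 1
      by_cases hi : i < m a <;> simp [hi, app]

/-- Its coefficients (`CP.mslice`, `MvPolynomial.funext`, `interp_coeffM`). -/
theorem CP.coeffM {F : α → Pt → ℂ} {m : α → ℕ} {G : ∀ a, Pt → MvPolynomial (Fin (m a)) ℂ}
    {e : α → ℕ → ℕ} (hm : PT m) (hF : CP F)
    (h : ∀ a x (y : Pt), MvPolynomial.eval (fun i : Fin (m a) => y i) (G a x) =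
      F a (app (m a) y x))
    (he : BT (fun p : α × ℕ => e p.1 p.2)) :
    CP (fun a x => (G a x).coeff (Finsupp.equivFunOnFinite.symm fun i : Fin (m a) => e a i)) := by
  obtain ⟨G', d, hd, h1, h2⟩ := hF.mslice m
  have hG : ∀ a x, G a x = G' a x := fun a x => MvPolynomial.funext fun u => by
    obtain ⟨y, rfl⟩ : ∃ y : Pt, u = fun i : Fin (m a) => y i :=
      ⟨fun i : ℕ => if h : i < m a then u ⟨i, h⟩ else 0, by funext i; simp⟩
    rw [h, h2]
  have k1 : CP (fun (p : α × Bin) x => F p.1 (app (m p.1) (fun i => (dg (d p.1) p.2.val i : ℂ)) x)) :=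
    (hF.comp (f := fun p : α × Bin => p.1) (by fun_prop)).at
      (CV.app (by fun_prop) (CV.dg (by fun_prop) (by fun_prop)) CV.id)
  have he' : BT (fun q : (α × Bin) × ℕ => e q.1.1 q.2) :=
    he.comp (f := fun q : (α × Bin) × ℕ => (q.1.1, q.2)) (by fun_prop)
  have k2 : CP (fun (p : α × Bin) (_ : Pt) => ∏ i ∈ range (m p.1),
      (lc (d p.1) (dg (d p.1) p.2.val i) (e p.1 i) : ℂ)) :=
    CP.prodU (n := fun p : α × Bin => m p.1)
      (F := fun p i _ => (lc (d p.1) (dg (d p.1) p.2.val i) (e p.1 i) : ℂ)) (by fun_prop)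
      (CP.const (CQ.lc (by fun_prop) (by fun_prop) he'))
  refine (CP.sum (B := fun a => d a ^ m a) (F := fun a y x =>
    F a (app (m a) (fun i => (dg (d a) y i : ℂ)) x) *
      ∏ i ∈ range (m a), (lc (d a) (dg (d a) y i) (e a i) : ℂ)) (by fun_prop) (k1.mul k2)).congr
    fun a x => ?_
  rw [hG, interp_coeffM (h1 a x)]
  refine sum_congr rfl fun y _ => ?_
  rw [← h2, Fin.prod_univ_eq_prod_range (fun i => (lc (d a) (dg (d a) y i) (e a i) : ℂ))]

/-- Formal and analytic partial derivatives agree. -/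
theorem eval_pderiv {m : ℕ} {G : MvPolynomial (Fin m) ℂ} {f : Pt → ℂ} {x : Pt}
    (h : ∀ y : Pt, MvPolynomial.eval (fun i : Fin m => y i) G = f (app m y x)) (j : Fin m)
    (y : Pt) :
    MvPolynomial.eval (fun i : Fin m => y i) (MvPolynomial.pderiv j G) = D j f (app m y x) := by
  have h1 := cx_hasDerivAt G (fun i : Fin m => y i) j (y j)
  rw [Function.update_eq_self] at h1
  have e : (fun t => f (Function.update (app m y x) j t)) =
      fun t => MvPolynomial.eval (Function.update (fun i : Fin m => y i) j t) G := by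
    funext t
    have e1 : Function.update (app m y x) j t = app m (Function.update y j t) x := by
      funext i
      by_cases hi : i = j
      · subst hi; simp
      · simp [hi, app]
    have e2 : Function.update (fun i : Fin m => y i) j t =
        fun i : Fin m => Function.update y j t i := by
      funext i
      by_cases hi : i = j
      · subst hi; simp
      · simp [hi, Fin.val_ne_of_ne hi]
    rw [e1, e2, h]
  rw [D, e, app_fin, h1.deriv]

end Crest.Agent.R316
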