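import Crest.Agent.R316.CF

/-!
Row 316, task RES: residues modulo primes above a fixed threshold; closure of `CZ`.
-/

set_option autoImplicit false
set_option linter.dupNamespace false

namespace Crest.Agent.R316

open Crest.Agent.PT Crest.Agent.QC Crest.Agent.R317 Polynomial Finset

variable {α β : Type} [Enc α] [Enc β]

theorem cz_iff (q : ℕ) (F : ℤ) (r : ℕ) : (q : ℤ) ∣ F - r ↔ (F : ZMod q) = (r : ZMod q) := by
  rw [← ZMod.intCast_eq_intCast_iff_dvd_sub, eq_comm, Int.cast_natCast]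

theorem cz_pm {q : ℕ} (hq : q.Prime) (b h : ℕ) : ((pm b h q : ℕ) : ZMod q) = (b : ZMod q) ^ h := by
  rw [pm, max_eq_left hq.one_lt.le, ZMod.natCast_mod, Nat.cast_pow]

theorem cz_pred {q : ℕ} (hq : q.Prime) : ((q - 1 : ℕ) : ZMod q) = -1 := by
  rw [Nat.cast_sub hq.one_lt.le]; simp

theorem cz_q : CF (fun p : α × Bin => p.2.val) := CF.ofBT (by fun_prop)

/-- a generator modulo `q` -/
@[irreducible] noncomputable def czG (q : ℕ) : ℕ := lst q (fun g => ∀ x < q, x ≠ 0 → ∃ e < q, pm g e q = x)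

/-- discrete logarithm -/
@[irreducible] noncomputable def czL (q x : ℕ) : ℕ := lst q (fun e => pm (czG q) e q = x % q)

theorem czG_cf : CF (fun b : Bin => czG b.val) := by
  unfold czG
  refine CF.lst (B := fun b : Bin => b.val)
    (P := fun b g => ∀ x < b.val, x ≠ 0 → ∃ e < b.val, pm g e b.val = x) (by fun_prop) ?_
  refine CD.all (B := fun p : Bin × Bin => p.1.val)
    (P := fun p x => x ≠ 0 → ∃ e < p.1.val, pm p.2.val e p.1.val = x) (by fun_prop) ?_
  refine CD.imp (CD.ofDT (by fun_prop)) ?_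
  exact CD.ex (B := fun p : (Bin × Bin) × Bin => p.1.1.val)
    (P := fun p e => pm p.1.2.val e p.1.1.val = p.2.val) (by fun_prop) (CD.ofDT (by fun_prop))

theorem czL_cf : CF (fun p : Bin × Bin => czL p.1.val p.2.val) := by
  unfold czL
  refine CF.lst (B := fun p : Bin × Bin => p.1.val)
    (P := fun p e => pm (czG p.1.val) e p.1.val = p.2.val % p.1.val) (by fun_prop) ?_
  have h1 : CF (fun p : (Bin × Bin) × Bin => czG p.1.1.val) :=
    CF.comp (g := fun b : Bin => czG b.val) (f := fun p : (Bin × Bin) × Bin => p.1.1) czG_cf (by fun_prop)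
  have h2 : CF (fun p : (Bin × Bin) × Bin => pm (czG p.1.1.val) p.2.val p.1.1.val) :=
    CF.pm h1 (CF.ofBT (by fun_prop)) (CF.ofBT (by fun_prop))
  have h3 : CF (fun p : (Bin × Bin) × Bin => p.1.2.val % p.1.1.val) := CF.ofBT (by fun_prop)
  exact CF.eq h2 h3

theorem czG_spec {q : ℕ} (hq : q.Prime) : ∀ x < q, x ≠ 0 → ∃ e < q, pm (czG q) e q = x := by
  have := Fact.mk hq
  unfold czG
  refine (lst_spec (B := q) (p := fun g => ∀ x < q, x ≠ 0 → ∃ e < q, pm g e q = x) ?_).2.1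
  obtain ⟨u, hu⟩ := IsCyclic.exists_monoid_generator (α := (ZMod q)ˣ)
  refine ⟨(u : ZMod q).val, ZMod.val_lt _, fun x hx hx0 => ?_⟩
  have hx' : (x : ZMod q) ≠ 0 := by
    rw [Ne, ZMod.natCast_eq_zero_iff]
    exact Nat.not_dvd_of_pos_of_lt (Nat.pos_of_ne_zero hx0) hx
  obtain ⟨n, hn⟩ := hu (Units.mk0 _ hx')
  refine ⟨n % orderOf u, ?_, ?_⟩
  · have h1 : n % orderOf u < orderOf u := Nat.mod_lt _ (orderOf_pos u)
    have h2 : orderOf u ≤ Fintype.card (ZMod q)ˣ := orderOf_le_card_univ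
    rw [ZMod.card_units] at h2
    omega
  · have h1 : ((pm (u : ZMod q).val (n % orderOf u) q : ℕ) : ZMod q) = (x : ZMod q) := by
      rw [cz_pm hq, ZMod.natCast_zmod_val, ← Units.val_pow_eq_pow_val, pow_mod_orderOf]
      simpa using congrArg Units.val hn
    have h2 : pm (u : ZMod q).val (n % orderOf u) q < q := by
      rw [pm, max_eq_left hq.one_lt.le]; exact Nat.mod_lt _ hq.pos
    have := congrArg ZMod.val h1
    rwa [ZMod.val_cast_of_lt h2, ZMod.val_cast_of_lt hx] at this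

theorem czL_spec {q : ℕ} (hq : q.Prime) {x : ℕ} (hx : x % q ≠ 0) :
    (czG q : ZMod q) ^ czL q x = (x : ZMod q) := by
  have h := (lst_spec (B := q) (p := fun e => pm (czG q) e q = x % q)
    (czG_spec hq _ (Nat.mod_lt _ hq.pos) hx)).2.1
  rw [← cz_pm hq, czL, h, ZMod.natCast_mod]

theorem cz_sum_range {q : ℕ} [NeZero q] (f : ZMod q → ZMod q) :
    ∑ x ∈ range q, f (x : ZMod q) = ∑ x : ZMod q, f x := by
  refine Finset.sum_nbij (fun x : ℕ => (x : ZMod q)) (fun _ _ => mem_univ _) ?_ ?_ (fun _ _ => rfl)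
  · intro x hx y hy h
    have := congrArg ZMod.val h
    rwa [ZMod.val_cast_of_lt (by simpa using hx), ZMod.val_cast_of_lt (by simpa using hy)] at this
  · intro x _
    exact ⟨x.val, by simpa using ZMod.val_lt x, ZMod.natCast_zmod_val x⟩

theorem cz_sum_pow {q : ℕ} [Fact q.Prime] {k : ℕ} (hk : k ≠ 0) :
    ∑ x : ZMod q, x ^ k = if q - 1 ∣ k then -1 else 0 := by
  let φ : (ZMod q)ˣ ↪ ZMod q := ⟨fun x => x, Units.val_injective⟩
  have h : univ.map φ = univ \ {0} := by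
    ext x
    simp only [mem_map, mem_univ, Function.Embedding.coeFn_mk, true_and, mem_sdiff,
      mem_singleton, φ]
    exact isUnit_iff_ne_zero
  have h2 := FiniteField.sum_pow_units (ZMod q) k
  rw [ZMod.card] at h2
  rw [← h2]
  calc ∑ x : ZMod q, x ^ k = ∑ x ∈ univ \ {(0 : ZMod q)}, x ^ k := by
        rw [← sum_sdiff ({0} : Finset (ZMod q)).subset_univ, sum_singleton, zero_pow hk, add_zero]
    _ = _ := by rw [← h, univ.sum_map φ]; rfl

theorem cz_coeff {q : ℕ} [Fact q.Prime] (P : (ZMod q)[X]) (hP : P.natDegree < q - 1) {e : ℕ}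
    (he : e < q - 1) : P.coeff e = -∑ x : ZMod q, P.eval x * x ^ (q - 1 - e) := by
  have h : ∀ x : ZMod q, P.eval x * x ^ (q - 1 - e) =
      ∑ i ∈ range (q - 1), P.coeff i * x ^ (i + (q - 1 - e)) := by
    intro x
    rw [eval_eq_sum_range' hP, sum_mul]
    exact sum_congr rfl fun i _ => by rw [pow_add, mul_assoc]
  simp only [h]
  rw [sum_comm, sum_eq_single e]
  · rw [← mul_sum, cz_sum_pow (by omega), if_pos (by rw [show e + (q - 1 - e) = q - 1 by omega])]
    ring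
  · intro i hi hie
    have hi' : i < q - 1 := by simpa using hi
    rw [← mul_sum, cz_sum_pow (by omega), if_neg, mul_zero]
    rintro ⟨c, hc⟩
    rcases c with _ | _ | c
    · omega
    · omega
    · have : (q - 1) * (c + 1 + 1) = (q - 1) * c + 2 * (q - 1) := by ring
      omega
  · intro h; exact absurd (mem_range.2 he) h

theorem Res.congr {t : α → ℕ} {F G : α → ℤ} (hF : Res t F) (h : ∀ a, F a = G a) : Res t G := by
  rwa [← funext h]

theorem Res.mono {t t' : α → ℕ} {F : α → ℤ} (hF : Res t F) (h : ∀ a, t a ≤ t' a) :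
    Res t' F := by
  obtain ⟨r, hr, h'⟩ := hF
  exact ⟨r, hr, fun a q hq ht => h' a q hq ((h a).trans_lt ht)⟩

theorem Res.comp {t : β → ℕ} {F : β → ℤ} {f : α → β} (hF : Res t F) (hf : PT f) :
    Res (fun a => t (f a)) (fun a => F (f a)) := by
  obtain ⟨r, hr, h⟩ := hF
  exact ⟨fun a => r (f a), hr.comp (f := fun p : α × Bin => (f p.1, p.2)) (by fun_prop),
    fun a => h (f a)⟩

theorem Res.ofCF (t : α → ℕ) {f : α → ℕ} (hf : CF f) : Res t (fun a => (f a : ℤ)) := by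
  exact ⟨fun a _ => f a, hf.comp (f := fun p : α × Bin => p.1) (by fun_prop), fun a q _ _ => by simp⟩

theorem Res.add {t : α → ℕ} {F G : α → ℤ} (hF : Res t F) (hG : Res t G) :
    Res t (fun a => F a + G a) := by
  obtain ⟨r, hr, h⟩ := hF
  obtain ⟨r', hr', h'⟩ := hG
  refine ⟨fun a q => r a q + r' a q, hr.add hr', fun a q hq ht => ?_⟩
  have := h a q hq ht
  have := h' a q hq ht
  simp only [cz_iff] at *
  push_cast
  simp [*]

/-- Residue `(q - 1) * r`. -/
theorem Res.neg {t : α → ℕ} {F : α → ℤ} (hF : Res t F) : Res t (fun a => -F a) := by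
  obtain ⟨r, hr, h⟩ := hF
  refine ⟨fun a q => (q - 1) * r a q, (CF.ofBT (by fun_prop)).mul hr, fun a q hq ht => ?_⟩
  have := h a q hq ht
  rw [cz_iff] at *
  rw [Nat.cast_mul, cz_pred hq, Int.cast_neg, this]
  ring

theorem Res.sub {t : α → ℕ} {F G : α → ℤ} (hF : Res t F) (hG : Res t G) :
    Res t (fun a => F a - G a) := by
  exact (hF.add hG.neg).congr fun a => by ring

theorem Res.mul {t : α → ℕ} {F G : α → ℤ} (hF : Res t F) (hG : Res t G) :
    Res t (fun a => F a * G a) := by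
  obtain ⟨r, hr, h⟩ := hF
  obtain ⟨r', hr', h'⟩ := hG
  refine ⟨fun a q => r a q * r' a q, hr.mul hr', fun a q hq ht => ?_⟩
  have := h a q hq ht
  have := h' a q hq ht
  simp only [cz_iff] at *
  push_cast
  simp [*]

/-- Residue `pm r k q`. -/
theorem Res.pow {t k : α → ℕ} {F : α → ℤ} (hF : Res t F) (hk : BT k) :
    Res t (fun a => F a ^ k a) := by
  obtain ⟨r, hr, h⟩ := hF
  refine ⟨fun a q => pm (r a q) (k a) q, hr.pm (CF.ofBT (by fun_prop)) cz_q, fun a q hq ht => ?_⟩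
  have := h a q hq ht
  rw [cz_iff] at *
  rw [cz_pm hq, Int.cast_pow, this]

theorem Res.ite {t : α → ℕ} {P : α → Prop} [∀ a, Decidable (P a)] {F G : α → ℤ} (hP : CD P)
    (hF : Res t F) (hG : Res t G) : Res t (fun a => if P a then F a else G a) := by
  obtain ⟨r, hr, h⟩ := hF
  obtain ⟨r', hr', h'⟩ := hG
  refine ⟨fun a q => if P a then r a q else r' a q,
    CF.ite (hP.comp (f := fun p : α × Bin => p.1) (by fun_prop)) hr hr', fun a q hq ht => ?_⟩
  by_cases hp : P a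
  · simpa [hp] using h a q hq ht
  · simpa [hp] using h' a q hq ht

theorem Res.sum {t B : α → ℕ} {F : α → ℕ → ℤ} (hB : BT B)
    (hF : Res (fun p : α × Bin => t p.1) (fun p => F p.1 p.2.val)) :
    Res t (fun a => ∑ y ∈ range (B a), F a y) := by
  obtain ⟨r, hr, h⟩ := hF
  refine ⟨fun a q => ∑ y ∈ range (B a), r (a, ⟨y⟩) q,
    CF.sum (B := fun p : α × Bin => B p.1) (f := fun p y => r (p.1, ⟨y⟩) p.2.val) (by fun_prop)
      (hr.comp (f := fun p : (α × Bin) × Bin => ((p.1.1, p.2), p.1.2)) (by fun_prop)),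
    fun a q hq ht => ?_⟩
  rw [cz_iff]
  push_cast
  exact sum_congr rfl fun y _ => (cz_iff _ _ _).1 (h (a, ⟨y⟩) q hq ht)

/-- Exponential products by discrete logarithms. For a prime `q` let
`g = lst q (fun g => ∀ x < q, x ≠ 0 → ∃ e < q, pm g e q = x)` (a generator exists since
`(ZMod q)ˣ` is cyclic), `dl x = lst q (fun e => pm g e q = x % q)`; the residue is `0` if some
`r a y q % q = 0` and `pm g (∑ y, dl (r a y q)) q` otherwise. -/
theorem Res.prod {t B : α → ℕ} {F : α → ℕ → ℤ} (hB : BT B)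
    (hF : Res (fun p : α × Bin => t p.1) (fun p => F p.1 p.2.val)) :
    Res t (fun a => ∏ y ∈ range (B a), F a y) := by
  classical
  obtain ⟨r, hr, h⟩ := hF
  have hr' : CF (fun p : (α × Bin) × Bin => r (p.1.1, ⟨p.2.val⟩) p.1.2.val) :=
    hr.comp (f := fun p : (α × Bin) × Bin => ((p.1.1, p.2), p.1.2)) (by fun_prop)
  refine ⟨fun a q => if ∃ y < B a, r (a, ⟨y⟩) q % q = 0 then 0 else
    pm (czG q) (∑ y ∈ range (B a), czL q (r (a, ⟨y⟩) q)) q, CF.ite ?_ (CF.ofBT (by fun_prop)) ?_,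
    fun a q hq ht => ?_⟩
  · exact CD.ex (B := fun p : α × Bin => B p.1)
      (P := fun p y => r (p.1, ⟨y⟩) p.2.val % p.2.val = 0) (by fun_prop)
      ((hr'.mod (CF.ofBT (by fun_prop))).eq (CF.ofBT (by fun_prop)))
  · have h1 : CF (fun p : α × Bin => czG p.2.val) :=
      CF.comp (g := fun b : Bin => czG b.val) (f := fun p : α × Bin => p.2) czG_cf (by fun_prop)
    have h2 : CF (fun p : ((α × Bin) × Bin) × Bin => czL p.1.1.2.val p.2.val) :=
      CF.comp (g := fun p : Bin × Bin => czL p.1.val p.2.val)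
        (f := fun p : ((α × Bin) × Bin) × Bin => (p.1.1.2, p.2)) czL_cf (by fun_prop)
    have h3 : CF (fun p : (α × Bin) × Bin => czL p.1.2.val (r (p.1.1, ⟨p.2.val⟩) p.1.2.val)) :=
      CF.subst (g := fun (p : (α × Bin) × Bin) x => czL p.1.2.val x) h2 hr'
    have h4 : CF (fun p : α × Bin => ∑ y ∈ range (B p.1), czL p.2.val (r (p.1, ⟨y⟩) p.2.val)) :=
      CF.sum (B := fun p : α × Bin => B p.1)
        (f := fun p y => czL p.2.val (r (p.1, ⟨y⟩) p.2.val)) (by fun_prop) h3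
    exact CF.pm h1 h4 cz_q
  · rw [cz_iff]
    beta_reduce
    have h1 : ∀ y, (F a y : ZMod q) = (r (a, ⟨y⟩) q : ZMod q) := fun y =>
      (cz_iff _ _ _).1 (h (a, ⟨y⟩) q hq ht)
    rw [Int.cast_prod]
    simp only [h1]
    split_ifs with hc
    · obtain ⟨y, hy, h0⟩ := hc
      rw [Nat.cast_zero]
      refine prod_eq_zero (mem_range.2 hy) ?_
      rw [← ZMod.natCast_mod, h0, Nat.cast_zero]
    · push Not at hc
      rw [cz_pm hq, ← prod_pow_eq_pow_sum]
      exact prod_congr rfl fun y hy => (czL_spec hq (hc y (mem_range.1 hy))).symm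

/-- Coefficient extraction: for a prime `q` with `natDegree P < q - 1` and `e < q - 1`,
`coeff e P ≡ - ∑_{x = 1}^{q-1} P(x) x^(q-1-e)` modulo `q` (`FiniteField.sum_pow_units`); for
`e ≥ q - 1` the coefficient is `0`. -/
theorem Res.coeff {t e : α → ℕ} {P : α → ℤ[X]} (he : BT e) (hd : ∀ a, (P a).natDegree < t a)
    (hF : Res (fun p : α × Bin => t p.1) (fun p => (P p.1).eval (p.2.val : ℤ))) :
    Res t (fun a => (P a).coeff (e a)) := by
  obtain ⟨r, hr, h⟩ := hF
  have hr' : CF (fun p : (α × Bin) × Bin => r (p.1.1, ⟨p.2.val⟩) p.1.2.val) :=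
    hr.comp (f := fun p : (α × Bin) × Bin => ((p.1.1, p.2), p.1.2)) (by fun_prop)
  refine ⟨fun a q => if e a < q - 1 then
    (q - 1) * ∑ x ∈ range q, r (a, ⟨x⟩) q * pm x (q - 1 - e a) q else 0,
    CF.ite (CD.ofDT (by fun_prop)) ((CF.ofBT (by fun_prop)).mul ?_) (CF.ofBT (by fun_prop)),
    fun a q hq ht => ?_⟩
  · exact CF.sum (B := fun p : α × Bin => p.2.val)
      (f := fun p x => r (p.1, ⟨x⟩) p.2.val * pm x (p.2.val - 1 - e p.1) p.2.val) (by fun_prop)
      (hr'.mul (CF.ofBT (by fun_prop)))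
  · have := Fact.mk hq
    have hd' := hd a
    rw [cz_iff]
    beta_reduce
    have h1 : ∀ y : ℕ, (((P a).eval (y : ℤ) : ℤ) : ZMod q) = (r (a, ⟨y⟩) q : ZMod q) := fun y =>
      (cz_iff _ _ _).1 (h (a, ⟨y⟩) q hq ht)
    split_ifs with hc
    · have h2 := cz_coeff ((P a).map (Int.castRingHom (ZMod q)))
        (natDegree_map_le.trans_lt (by omega)) hc
      rw [coeff_map, eq_intCast] at h2
      rw [h2, Nat.cast_mul, cz_pred hq, neg_one_mul, ← cz_sum_range, Nat.cast_sum]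
      congr 1
      refine sum_congr rfl fun x _ => ?_
      rw [Nat.cast_mul, cz_pm hq, ← h1]
      congr 1
      rw [← Int.cast_natCast (R := ZMod q) x, eval_intCast_map]
      simp
    · rw [coeff_eq_zero_of_natDegree_lt (by omega)]
      simp

/-- Divisibility test (`r a (q a) % q a = 0`). -/
theorem Res.dvd {t q : α → ℕ} {F : α → ℤ} (hF : Res t F) (ht : BT t) (hq : BT q) :
    CD (fun a => (q a).Prime ∧ t a < q a ∧ (q a : ℤ) ∣ F a) := by
  obtain ⟨r, hr, h⟩ := hF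
  have h1 : CF (fun a => r a (q a)) := hr.comp (f := fun a => (a, (⟨q a⟩ : Bin))) (by fun_prop)
  refine ((CD.prime hq).and ((CD.ofDT (DT.lt ht hq)).and
    ((h1.mod (CF.ofBT hq)).eq (CF.ofBT (BT.const 0))))).congr fun a => ?_
  refine and_congr_right fun h2 => and_congr_right fun h3 => ?_
  have := (cz_iff _ _ _).1 (h a _ h2 h3)
  rw [← ZMod.intCast_zmod_eq_zero_iff_dvd, this, ZMod.natCast_eq_zero_iff, Nat.dvd_iff_mod_eq_zero]

theorem CZ.congr {F G : α → ℤ} (hF : CZ F) (h : ∀ a, F a = G a) : CZ G := by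
  rwa [← funext h]

theorem CZ.comp {F : β → ℤ} {f : α → β} (hF : CZ F) (hf : PT f) : CZ (fun a => F (f a)) := by
  obtain ⟨⟨L, hL, h⟩, t, ht, hr⟩ := hF
  exact ⟨⟨fun a => L (f a), hL.comp hf, fun a => h _⟩, fun a => t (f a), ht.comp hf, hr.comp hf⟩

theorem CZ.ofCF {f : α → ℕ} (hf : CF f) : CZ (fun a => (f a : ℤ)) := by
  refine ⟨?_, fun _ => 0, BT.const 0, Res.ofCF _ hf⟩
  obtain ⟨⟨B, hB, h⟩, -⟩ := hf
  refine ⟨B, hB, fun a => ?_⟩
  beta_reduce
  rw [abs_of_nonneg (by positivity)]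
  exact_mod_cast (h a).trans Nat.lt_two_pow_self.le

theorem CZ.ofBT {f : α → ℕ} (hf : BT f) : CZ (fun a => (f a : ℤ)) := by
  exact CZ.ofCF (CF.ofBT hf)

theorem CZ.const (c : ℤ) : CZ (fun _ : α => c) := by
  have h : CZ (fun _ : α => (c.natAbs : ℤ)) := CZ.ofBT (BT.const c.natAbs)
  rcases Int.natAbs_eq c with hc | hc
  · exact h.congr fun _ => hc.symm
  · obtain ⟨⟨L, hL, h⟩, t, ht, hr⟩ := h
    exact ⟨⟨L, hL, fun a => by rw [hc, abs_neg]; exact h a⟩, t, ht, hr.neg.congr fun _ => hc.symm⟩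

theorem CZ.add {F G : α → ℤ} (hF : CZ F) (hG : CZ G) : CZ (fun a => F a + G a) := by
  obtain ⟨⟨L, hL, h⟩, t, ht, hr⟩ := hF
  obtain ⟨⟨L', hL', h'⟩, t', ht', hr'⟩ := hG
  refine ⟨⟨fun a => L a + L' a + 1, by fun_prop, fun a => ?_⟩, fun a => t a + t' a, by fun_prop,
    (hr.mono fun a => by omega).add (hr'.mono fun a => by omega)⟩
  have h1 : (2 : ℤ) ^ L a ≤ 2 ^ (L a + L' a) := pow_le_pow_right₀ (by norm_num) (by omega)
  have h2 : (2 : ℤ) ^ L' a ≤ 2 ^ (L a + L' a) := pow_le_pow_right₀ (by norm_num) (by omega)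
  have := abs_add_le (F a) (G a)
  rw [pow_succ]
  linarith [h a, h' a]

theorem CZ.neg {F : α → ℤ} (hF : CZ F) : CZ (fun a => -F a) := by
  obtain ⟨⟨L, hL, h⟩, t, ht, hr⟩ := hF
  exact ⟨⟨L, hL, fun a => by rw [abs_neg]; exact h a⟩, t, ht, hr.neg⟩

theorem CZ.sub {F G : α → ℤ} (hF : CZ F) (hG : CZ G) : CZ (fun a => F a - G a) := by
  exact (hF.add hG.neg).congr fun a => by ring

theorem CZ.mul {F G : α → ℤ} (hF : CZ F) (hG : CZ G) : CZ (fun a => F a * G a) := by
  obtain ⟨⟨L, hL, h⟩, t, ht, hr⟩ := hF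
  obtain ⟨⟨L', hL', h'⟩, t', ht', hr'⟩ := hG
  refine ⟨⟨fun a => L a + L' a, by fun_prop, fun a => ?_⟩, fun a => t a + t' a, by fun_prop,
    (hr.mono fun a => by omega).mul (hr'.mono fun a => by omega)⟩
  rw [abs_mul, pow_add]
  exact mul_le_mul (h a) (h' a) (abs_nonneg _) (by positivity)

theorem CZ.pow {F : α → ℤ} {k : α → ℕ} (hF : CZ F) (hk : BT k) : CZ (fun a => F a ^ k a) := by
  obtain ⟨⟨L, hL, h⟩, t, ht, hr⟩ := hF
  refine ⟨⟨fun a => L a * k a, by fun_prop, fun a => ?_⟩, t, ht, hr.pow hk⟩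
  rw [abs_pow, pow_mul]
  exact pow_le_pow_left₀ (abs_nonneg _) (h a) _

theorem CZ.ite {P : α → Prop} [∀ a, Decidable (P a)] {F G : α → ℤ} (hP : CD P) (hF : CZ F)
    (hG : CZ G) : CZ (fun a => if P a then F a else G a) := by
  obtain ⟨⟨L, hL, h⟩, t, ht, hr⟩ := hF
  obtain ⟨⟨L', hL', h'⟩, t', ht', hr'⟩ := hG
  refine ⟨⟨fun a => L a + L' a, by fun_prop, fun a => ?_⟩, fun a => t a + t' a, by fun_prop,
    Res.ite hP (hr.mono fun a => by omega) (hr'.mono fun a => by omega)⟩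
  beta_reduce
  split_ifs
  · exact (h a).trans (pow_le_pow_right₀ (by norm_num) (by omega))
  · exact (h' a).trans (pow_le_pow_right₀ (by norm_num) (by omega))

/-- Uniform bounds and thresholds over a binary range. -/
theorem cz_unif {B : α → ℕ} {F : α → ℕ → ℤ} (hB : BT B)
    (hF : CZ (fun p : α × Bin => F p.1 p.2.val)) :
    (∃ L : α → ℕ, BT L ∧ ∀ a y, y < B a → |F a y| ≤ 2 ^ L a) ∧ ∃ t : α → ℕ, BT t ∧
      Res (fun p : α × Bin => t p.1) (fun p => if p.2.val < B p.1 then F p.1 p.2.val else 0) := by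
  obtain ⟨⟨L, hL, h⟩, t, ht, r, hr, h'⟩ := hF
  obtain ⟨L', hL', b⟩ := BT.unif (f := fun a y => L (a, ⟨y⟩)) hB hL
  obtain ⟨t', ht', b'⟩ := BT.unif (f := fun a y => t (a, ⟨y⟩)) hB ht
  refine ⟨⟨L', hL', fun a y hy => (h (a, ⟨y⟩)).trans
    (pow_le_pow_right₀ (by norm_num) (b a y hy.le))⟩, t', ht',
    fun p q => if p.2.val < B p.1 then r p q else 0,
    CF.ite (CD.ofDT (by fun_prop)) hr (CF.ofBT (by fun_prop)), fun p q hq hq' => ?_⟩
  by_cases hp : p.2.val < B p.1
  · simp only [if_pos hp]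
    exact h' p q hq ((b' p.1 p.2.val hp.le).trans_lt hq')
  · simp [hp]

/-- Make the thresholds and the size bounds uniform over `y ≤ B a` with `BT.unif`; to get
`Res (fun p => t p.1)` replace `F a y` by `if y < B a then F a y else 0` and argue directly with the
definition of `Res` (or prove a variant of `Res.mono` for it). -/
theorem CZ.sum {B : α → ℕ} {F : α → ℕ → ℤ} (hB : BT B)
    (hF : CZ (fun p : α × Bin => F p.1 p.2.val)) : CZ (fun a => ∑ y ∈ range (B a), F a y) := by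
  obtain ⟨⟨L, hL, h⟩, t, ht, hr⟩ := cz_unif hB hF
  refine ⟨⟨fun a => B a + L a, by fun_prop, fun a => ?_⟩, t, ht,
    (Res.sum (F := fun a y => if y < B a then F a y else 0) hB hr).congr fun a =>
      sum_congr rfl fun y hy => if_pos (mem_range.1 hy)⟩
  calc |∑ y ∈ range (B a), F a y| ≤ ∑ y ∈ range (B a), |F a y| := abs_sum_le_sum_abs _ _
    _ ≤ ∑ _y ∈ range (B a), (2 : ℤ) ^ L a := sum_le_sum fun y hy => h a y (mem_range.1 hy)
    _ = B a * 2 ^ L a := by simp
    _ ≤ 2 ^ B a * 2 ^ L a := by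
      gcongr
      exact_mod_cast Nat.lt_two_pow_self.le
    _ = _ := by rw [pow_add]

theorem CZ.prod {B : α → ℕ} {F : α → ℕ → ℤ} (hB : BT B)
    (hF : CZ (fun p : α × Bin => F p.1 p.2.val)) : CZ (fun a => ∏ y ∈ range (B a), F a y) := by
  obtain ⟨⟨L, hL, h⟩, t, ht, hr⟩ := cz_unif hB hF
  refine ⟨⟨fun a => L a * B a, by fun_prop, fun a => ?_⟩, t, ht,
    (Res.prod (F := fun a y => if y < B a then F a y else 0) hB hr).congr fun a =>
      prod_congr rfl fun y hy => if_pos (mem_range.1 hy)⟩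
  calc |∏ y ∈ range (B a), F a y| = ∏ y ∈ range (B a), |F a y| := abs_prod _ _
    _ ≤ ∏ _y ∈ range (B a), (2 : ℤ) ^ L a :=
      prod_le_prod (fun _ _ => abs_nonneg _) fun y hy => h a y (mem_range.1 hy)
    _ = _ := by simp [pow_mul]

end Crest.Agent.R316
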