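import Crest.Agent.R316.Lv

/-!
Row 316, task PARSE: tokens, gate positions, unique readability.
-/

set_option autoImplicit false
set_option linter.dupNamespace false

namespace Crest.Agent.R316

open Crest.Agent.PT Crest.Agent.QC Crest.Agent.R317 Finset Crest.RealEA

variable {α β : Type} [Enc α] [Enc β]

theorem bt_tk {w : α → Raw} {i : α → ℕ} (hw : PT w) (hi : PT i) :
    BT (fun a => tk (w a) (i a)) :=
  bt_rdNat (pt_iterShrink (pt_skip PT.id') length_skip hi hw)

theorem ps_gw_le (x : ℕ) : gw x ≤ 3 := by
  unfold gw; split_ifs <;> omega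

theorem gp_le (w : Raw) (k t : ℕ) : gp w k t ≤ k + 2 + 3 * t := by
  induction t with
  | zero => exact le_rfl
  | succ t ih =>
    show gp w k t + gw _ ≤ _
    have := ps_gw_le (tk w (gp w k t))
    omega

/-- `PT.natRec` with the bound `gp_le`. -/
theorem pt_gp {w : α → Raw} {k t : α → ℕ} (hw : PT w) (hk : PT k) (ht : PT t) :
    PT (fun a => gp (w a) (k a) (t a)) := by
  have h1 : BT (fun p : α × ℕ × ℕ => tk (w p.1) p.2.2) := bt_tk (by fun_prop) (by fun_prop)
  have h2 : PT (fun p : α × ℕ × ℕ => gw (tk (w p.1) p.2.2)) :=
    PT.iteD (DT.or (DT.eq h1 (BT.const 1)) (DT.eq h1 (BT.const 2))) (PT.const 2) (PT.const 3)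
  refine (PT.natRec_add (z := fun a => k a + 2) (s := fun a _ b => b + gw (tk (w a) b)) ht
    (by fun_prop) (PT.add (by fun_prop) h2) (PB.const 3) (fun a i b => ?_)).congr (fun a => ?_)
  · have := ps_gw_le (tk (w a) b)
    simp only [sz_nat]; omega
  · induction t a with
    | zero => rfl
    | succ n ih => simp only [ih]; rfl

theorem pt_rawlen {w : α → Raw} (hw : PT w) : PT (fun a => (w a).val.length) := PT.len hw

/-- `ix w A = ∑ i < |w|, if All (i + 1) (fun i' => tk w i' ≠ A) then 1 else 0`. -/
theorem pt_ix {w : α → Raw} {A : α → ℕ} (hw : PT w) (hA : BT A) :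
    PT (fun a => ix (w a) (A a)) := by
  classical
  have h1 : BT (fun p : (α × ℕ) × ℕ => tk (w p.1.1) p.2) := bt_tk (by fun_prop) (by fun_prop)
  have h2 : DT (fun p : α × ℕ => All (p.2 + 1) (fun i' => tk (w p.1) i' ≠ A p.1)) :=
    DT.all (p := fun (p : α × ℕ) i' => tk (w p.1) i' ≠ A p.1) (by fun_prop) (DT.ne h1 (by fun_prop))
  refine (PT.sumNat (f := fun a i =>
      if All (i + 1) (fun i' => tk (w a) i' ≠ A a) then (1 : ℕ) else 0) (pt_rawlen hw)
    (PT.iteD h2 (PT.const 1) (PT.const 0))).congr (fun a => ?_)
  rw [ix, lst, cnt, Finset.card_filter]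
  refine Finset.sum_congr rfl (fun i _ => ?_)
  have h3 : All (i + 1) (fun i' => tk (w a) i' ≠ A a) ↔ ∀ y' ≤ i, ¬ tk (w a) y' = A a := by
    simp only [All, Nat.lt_succ_iff, ne_eq]
  split_ifs with h4 h5 h5
  · rfl
  · exact absurd (h3.1 h4) h5
  · exact absurd (h3.2 h5) h4
  · rfl

theorem ix_le (w : Raw) (A : ℕ) : ix w A ≤ w.val.length := lst_le _ _

theorem ps_natBits (k : ℕ) : natBits k = Crest.Enc.natCode k := rfl

/-- `natBits` is `Crest.Enc.natCode`; use `natCode_eq`, `valR_bits`. -/
theorem tk_flat (l : List ℕ) (i : ℕ) : tk ⟨l.flatMap natBits⟩ i = l.getD i 0 := by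
  induction i generalizing l with
  | zero =>
    cases l with
    | nil => rfl
    | cons a l => simp only [tk, List.flatMap_cons, ps_natBits, Function.iterate_zero, id,
        rdNat_code, List.getD_cons_zero]
  | succ i ih =>
    cases l with
    | nil => exact ih []
    | cons a l =>
      rw [List.getD_cons_succ, ← ih l]
      simp only [tk, List.flatMap_cons, Function.iterate_succ_apply]
      rw [ps_natBits a, skip_code]

theorem length_le_flat (l : List ℕ) : l.length ≤ (l.flatMap natBits).length := by
  induction l with
  | nil => simp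
  | cons a l ih =>
    rw [List.flatMap_cons, List.length_append, ps_natBits, length_natCode, List.length_cons]
    omega

theorem flat_injective {l l' : List ℕ} (h : l.flatMap natBits = l'.flatMap natBits) : l = l' := by
  induction l generalizing l' with
  | nil =>
    have := length_le_flat l'
    rw [← h] at this
    exact (List.length_eq_zero_iff.1 (by simpa using this)).symm
  | cons a l ih =>
    cases l' with
    | nil =>
      have := length_le_flat (a :: l)
      rw [h] at this
      simp at this
    | cons b l' =>
      have h1 := tk_flat (a :: l) 0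
      rw [h, tk_flat] at h1
      simp only [List.getD_cons_zero] at h1
      subst h1
      rw [List.flatMap_cons, List.flatMap_cons, List.append_cancel_left_eq] at h
      rw [ih h]

theorem ps_valR_inj {x y : List Bool} (hl : x.length = y.length) (h : valR x = valR y) : x = y := by
  induction x generalizing y with
  | nil => exact (List.length_eq_zero_iff.1 hl.symm).symm
  | cons a x ih =>
    cases y with
    | nil => simp at hl
    | cons b y =>
      have hl' : x.length = y.length := by simpa using hl
      rw [valR_cons, valR_cons, hl'] at h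
      have h1 := valR_lt x
      have h2 := valR_lt y
      rw [hl'] at h1
      cases a <;> cases b <;> simp only [Bool.toNat_true, Bool.toNat_false] at h
      · rw [ih hl' (by omega)]
      · omega
      · omega
      · rw [ih hl' (by omega)]

theorem ps_dt_raweq {x y : α → Raw} (hx : PT x) (hy : PT y) :
    DT (fun a => (x a).val = (y a).val) :=
  (DT.and (DT.eq (BT.ofPT (pt_rawlen hx)) (BT.ofPT (pt_rawlen hy)))
    (DT.eq (f := fun a => valR (x a).val) (g := fun a => valR (y a).val) (PT.ofRev hx)
      (PT.ofRev hy))).congr (fun _ => ⟨fun h => ps_valR_inj h.1 h.2, fun h => by rw [h]; simp⟩)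

/-- The test that the string is the code of its first `T` tokens (`PT.concat`, `Bin.code`, and
equality of strings through `valR (true :: x)`). -/
theorem dt_reencode {w : α → Raw} {T : α → ℕ} (hw : PT w) (hT : PT T) :
    DT (fun a => ((List.range (T a)).map (tk (w a))).flatMap natBits = (w a).val) := by
  have h1 : BT (fun p : α × ℕ => tk (w p.1) p.2) := bt_tk (by fun_prop) (by fun_prop)
  have h2 : PT (fun a => Raw.concat (T a) (fun i => Bin.code ⟨tk (w a) i⟩)) :=
    PT.concat (f := fun a i => Bin.code ⟨tk (w a) i⟩) hT (PT.binCode h1)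
  refine (ps_dt_raweq h2 hw).congr (fun a => ?_)
  rw [List.flatMap_map]
  rfl

theorem gate_length (g : AGate) : g.toNats.length = gw (g.toNats.getD 0 0) := by
  cases g <;> rfl

theorem gate_prefix_inj {g g' : AGate} {r r' : List ℕ} (h : g.toNats ++ r = g'.toNats ++ r') :
    g = g' := by
  cases g <;> cases g' <;>
    simp only [AGate.toNats, List.cons_append, List.cons.injEq, List.nil_append] at h <;>
    first
    | omega
    | (congr 1 <;> omega)
    | (obtain ⟨-, h1, h2, -⟩ := h
       congr 1
       split_ifs at h1 <;> omega)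

theorem ps_gates_inj {c c' : List AGate} {r r' : List ℕ} (hl : c.length = c'.length)
    (h : c.flatMap AGate.toNats ++ r = c'.flatMap AGate.toNats ++ r') : c = c' := by
  induction c generalizing c' with
  | nil => exact (List.length_eq_zero_iff.1 hl.symm).symm
  | cons a c ih =>
    cases c' with
    | nil => simp at hl
    | cons b c' =>
      rw [List.flatMap_cons, List.flatMap_cons, List.append_assoc, List.append_assoc] at h
      obtain rfl := gate_prefix_inj h
      rw [ih (by simpa using hl) (List.append_cancel_left h)]

theorem form_prefix_inj {φ ψ : Form} {r r' : List ℕ} (h : φ.toNats ++ r = ψ.toNats ++ r') :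
    φ = ψ := by
  induction φ generalizing ψ r r' with
  | eqZero c =>
    cases ψ <;> simp only [Form.toNats, circuitToNats, List.cons_append, List.cons.injEq] at h <;>
      first | omega | rw [ps_gates_inj h.2.1 h.2.2]
  | pos c =>
    cases ψ <;> simp only [Form.toNats, circuitToNats, List.cons_append, List.cons.injEq] at h <;>
      first | omega | rw [ps_gates_inj h.2.1 h.2.2]
  | and φ₁ φ₂ ih₁ ih₂ =>
    cases ψ <;> simp only [Form.toNats, List.cons_append, List.cons.injEq, List.append_assoc] at h <;>
      first
      | omega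
      | (obtain rfl := ih₁ h.2
         rw [ih₂ (List.append_cancel_left h.2)])
  | or φ₁ φ₂ ih₁ ih₂ =>
    cases ψ <;> simp only [Form.toNats, List.cons_append, List.cons.injEq, List.append_assoc] at h <;>
      first
      | omega
      | (obtain rfl := ih₁ h.2
         rw [ih₂ (List.append_cancel_left h.2)])
  | not φ ih =>
    cases ψ <;> simp only [Form.toNats, List.cons_append, List.cons.injEq, List.append_assoc] at h <;>
      first
      | omega
      | rw [ih h.2]

theorem encode_injective {S S' : Sentence} (h : S.encode = S'.encode) : S = S' := by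
  obtain ⟨r, s, φ⟩ := S
  obtain ⟨r', s', φ'⟩ := S'
  have h1 := flat_injective h
  simp only [Sentence.toNats, List.cons.injEq] at h1
  obtain ⟨rfl, rfl, h2⟩ := h1
  rw [form_prefix_inj (φ := φ) (ψ := φ') (r := []) (r' := []) (by rw [h2])]

/-- Gate positions in a token list `l` that has the circuit `c` at position `k + 1`. -/
theorem gp_spec {l r : List ℕ} {k : ℕ} {c : List AGate} (h : l.drop (k + 1) = circuitToNats c ++ r)
    {t : ℕ} (ht : t ≤ c.length) :
    l.drop (gp ⟨l.flatMap natBits⟩ k t) = (c.drop t).flatMap AGate.toNats ++ r ∧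
      gp ⟨l.flatMap natBits⟩ k t = k + 2 + ((c.take t).flatMap AGate.toNats).length := by
  induction t with
  | zero =>
    refine ⟨?_, rfl⟩
    show l.drop (k + 1 + 1) = _
    rw [← List.drop_drop, h]
    rfl
  | succ t ih =>
    obtain ⟨h1, h2⟩ := ih (by omega)
    have ht' : t < c.length := ht
    rw [List.drop_eq_getElem_cons ht', List.flatMap_cons, List.append_assoc] at h1
    have h3 : gw (tk ⟨l.flatMap natBits⟩ (gp ⟨l.flatMap natBits⟩ k t)) =
        (getElem c t ht').toNats.length := by
      rw [gate_length, tk_flat]
      congr 1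
      have h4 : l.getD (gp ⟨l.flatMap natBits⟩ k t) 0 =
          (l.drop (gp ⟨l.flatMap natBits⟩ k t)).getD 0 0 := by
        simp [List.getD_eq_getElem?_getD]
      rw [h4, h1]
      cases (getElem c t ht') <;> rfl
    have h5 : gp ⟨l.flatMap natBits⟩ k (t + 1) =
        gp ⟨l.flatMap natBits⟩ k t + (getElem c t ht').toNats.length := by rw [← h3]; rfl
    refine ⟨?_, ?_⟩
    · rw [h5, ← List.drop_drop, h1, List.drop_left]
    · rw [h5, h2, List.take_succ_eq_append_getElem ht', List.flatMap_append, List.length_append]
      simp [add_assoc]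

end Crest.Agent.R316
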