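import Crest.Agent.R316.CP
import Crest.Agent.R316.Parse

/-!
Row 316, task CIRC: the values of the circuits are `CP`.

Plan. `P (w, k) = atom w k MvPolynomial.X`. Ring homomorphisms commute with `gvs` (`gvs_map`), so
`atom w k z = aeval z P` and `eval (dg L y) P = ((atom w k (fun i => (dg L y i : ℤ)) : ℤ) : ℚ)`. All
entries of `gvs w k X t` have total degree `≤ 2^t` and variables `< 2|w| + 1` (`ix_le`). The integer
entries of `gvs w k (dg L y) t` are at most `2^((c + 1) 2^t - 1)` in absolute value where `2^c` bounds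
`y` and all tokens (`tk w i < 2^|w|`). Residues (threshold `0`): with `q' = max q 2` the number
`Y t = ∑_{s < t} (value of gate s mod q') * q'^s` is computed by `BT.rec` (state bound `q'^T`); a
reference `A` to an earlier gate reads `if A < t then dg q' Y (un T A) else 0`.
-/

set_option autoImplicit false
set_option linter.dupNamespace false

namespace Crest.Agent.R316

open Crest.Agent.PT Crest.Agent.QC Crest.Agent.R317 Polynomial Finset

variable {α β : Type} [Enc α] [Enc β]

theorem gvs_length {R : Type} [CommRing R] (w : Raw) (k : ℕ) (z : ℕ → R) (t : ℕ) :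
    (gvs w k z t).length = t := by
  induction t with
  | zero => rfl
  | succ t ih =>
    show (gvs w k z t ++ [_]).length = _
    rw [List.length_append, ih]; rfl

theorem cr_getD_map {R S : Type} [CommRing R] [CommRing S] (φ : R →+* S) (l : List R) (i : ℕ) :
    (l.map φ).getD i 0 = φ (l.getD i 0) := by
  conv_lhs => rw [← map_zero φ]
  exact List.getD_map _ _ _

theorem cr_gval_map {R S : Type} [CommRing R] [CommRing S] (φ : R →+* S) (w : Raw) (z : ℕ → R)
    (g : ℕ) (l : List R) : φ (gval w z g l) = gval w (fun i => φ (z i)) g (l.map φ) := by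
  unfold gval
  simp only [cr_getD_map]
  split_ifs <;> simp only [map_natCast, map_neg, map_add, map_sub, map_mul]

theorem gvs_map {R S : Type} [CommRing R] [CommRing S] (φ : R →+* S) (w : Raw) (k : ℕ)
    (z : ℕ → R) (t : ℕ) : (gvs w k z t).map φ = gvs w k (fun i => φ (z i)) t := by
  induction t with
  | zero => rfl
  | succ t ih =>
    show (gvs w k z t ++ [_]).map φ = gvs w k _ t ++ [_]
    rw [List.map_append, ih, List.map_singleton, cr_gval_map, ih]

theorem cr_getLastD {R : Type} (l : List R) (d : R) : l.getLastD d = l.getD (l.length - 1) d := by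
  rw [List.getLastD_eq_getLast?, List.getLast?_eq_getElem?, List.getD_eq_getElem?_getD]

theorem atom_map {R S : Type} [CommRing R] [CommRing S] (φ : R →+* S) (w : Raw) (k : ℕ)
    (z : ℕ → R) : φ (atom w k z) = atom w k (fun i => φ (z i)) := by
  unfold atom
  rw [← gvs_map, cr_getLastD, cr_getLastD, cr_getD_map, List.length_map]

/-- Invariants of the gate values. -/
theorem cr_inv {R : Type} [CommRing R] (Q : ℕ → R → Prop) (w : Raw) (k : ℕ) (z : ℕ → R)
    (hm : ∀ t x, Q t x → Q (t + 1) x) (h0 : Q 0 0) (hc : ∀ i, Q 0 (tk w i) ∧ Q 0 (-tk w i))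
    (hz : ∀ i ≤ 2 * w.val.length, Q 0 (z i))
    (ho : ∀ t a b, Q t a → Q t b → Q (t + 1) (a + b) ∧ Q (t + 1) (a - b) ∧ Q (t + 1) (a * b)) :
    Q w.val.length (atom w k z) := by
  have hm' : ∀ s t x, s ≤ t → Q s x → Q t x := by
    intro s t x h hx
    induction h with
    | refl => exact hx
    | step _ ih => exact hm _ _ ih
  have key : ∀ t A, Q t ((gvs w k z t).getD A 0) := by
    intro t
    induction t with
    | zero => intro A; exact h0
    | succ t ih =>
      intro A
      show Q (t + 1) ((gvs w k z t ++ [gval w z (gp w k t) (gvs w k z t)]).getD A 0)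
      rcases lt_trichotomy A (gvs w k z t).length with h | h | h
      · rw [List.getD_append _ _ _ _ h]
        exact hm _ _ (ih A)
      · rw [List.getD_append_right _ _ _ _ h.ge, h, Nat.sub_self, List.getD_cons_zero]
        have h1 := ix_le w (tk w (gp w k t + 1))
        unfold gval
        split_ifs
        · exact hm' 0 _ _ (by omega) (hc _).1
        · exact hm' 0 _ _ (by omega) (hc _).2
        · exact hm' 0 _ _ (by omega) (hz _ (by omega))
        · exact hm' 0 _ _ (by omega) (hz _ (by omega))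
        · exact (ho _ _ _ (ih _) (ih _)).1
        · exact (ho _ _ _ (ih _) (ih _)).2.1
        · exact (ho _ _ _ (ih _) (ih _)).2.2
      · rw [List.getD_eq_default _ _ (by simp; omega)]
        exact hm' 0 _ _ (by omega) h0
  unfold atom
  rw [cr_getLastD]
  exact hm' _ _ _ (min_le_right _ _) (key _ _)

theorem cr_length_fstL (x : List Bool) : (fstL x).length ≤ x.length := by
  fun_induction fstL x with
  | case1 b x ih => simp only [List.length_cons]; omega
  | case2 => simp

theorem cr_tk_lt (w : Raw) (i : ℕ) : tk w i < 2 ^ w.val.length := by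
  have h1 : (skip^[i] w).val.length ≤ w.val.length := by
    induction i with
    | zero => exact le_rfl
    | succ i ih => rw [Function.iterate_succ_apply']; exact (length_skip _).trans ih
  refine (valR_lt _).trans_le (Nat.pow_le_pow_right (by omega) ?_)
  rw [List.length_reverse]
  exact (cr_length_fstL _).trans h1

theorem cr_deg (w : Raw) (k : ℕ) :
    (atom w k (MvPolynomial.X : ℕ → MvPolynomial ℕ ℚ)).totalDegree ≤ 2 ^ w.val.length := by
  refine cr_inv (fun t (P : MvPolynomial ℕ ℚ) => P.totalDegree ≤ 2 ^ t) w k _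
    (fun t x h => ?_) (by simp)
    (fun i => ?_) (fun i _ => by simp) (fun t a b ha hb => ⟨?_, ?_, ?_⟩)
  · rw [pow_succ]; omega
  · rw [MvPolynomial.totalDegree_neg, ← map_natCast MvPolynomial.C, MvPolynomial.totalDegree_C]
    simp
  · have := MvPolynomial.totalDegree_add a b
    rw [pow_succ]; omega
  · have := MvPolynomial.totalDegree_sub a b
    rw [pow_succ]; omega
  · have := MvPolynomial.totalDegree_mul a b
    rw [pow_succ]; omega

theorem cr_vars (w : Raw) (k : ℕ) :
    ∀ i ∈ (atom w k (MvPolynomial.X : ℕ → MvPolynomial ℕ ℚ)).vars, i < 2 * w.val.length + 1 := by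
  refine cr_inv (fun _ (P : MvPolynomial ℕ ℚ) => ∀ i ∈ P.vars, i < 2 * w.val.length + 1) w k _
    (fun t x h => h)
    (by simp) (fun i => ?_) (fun i hi => by simp; omega) (fun t a b ha hb => ⟨?_, ?_, ?_⟩)
  · rw [MvPolynomial.vars_neg, ← map_natCast MvPolynomial.C, MvPolynomial.vars_C]
    simp
  · intro i hi
    rcases Finset.mem_union.1 (MvPolynomial.vars_add_subset a b hi) with h | h
    exacts [ha i h, hb i h]
  · intro i hi
    rcases Finset.mem_union.1 (MvPolynomial.vars_sub_subset a hi) with h | h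
    exacts [ha i h, hb i h]
  · intro i hi
    rcases Finset.mem_union.1 (MvPolynomial.vars_mul a b hi) with h | h
    exacts [ha i h, hb i h]

theorem cr_size (w : Raw) (k L y : ℕ) :
    |atom w k (fun i => (dg L y i : ℤ))| ≤ 2 ^ ((w.val.length + y.size + 1) * 2 ^ w.val.length) := by
  set c := w.val.length + y.size with hc
  have hM : ∀ t : ℕ, (2 : ℤ) ≤ 2 ^ ((c + 1) * 2 ^ t) := by
    intro t
    conv_lhs => rw [← pow_one 2]
    exact pow_le_pow_right₀ (by norm_num) (Nat.mul_pos (by omega) (by positivity))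
  have hs : ∀ t : ℕ, (2 : ℤ) ^ ((c + 1) * 2 ^ (t + 1)) =
      2 ^ ((c + 1) * 2 ^ t) * 2 ^ ((c + 1) * 2 ^ t) := by
    intro t; rw [← pow_add]; congr 1; ring
  have hb : ∀ x : ℕ, x < 2 ^ c → 2 * |(x : ℤ)| ≤ 2 ^ ((c + 1) * 2 ^ 0) := by
    intro x hx
    rw [pow_zero, mul_one, pow_succ, Nat.abs_cast]
    have : (x : ℤ) < 2 ^ c := by exact_mod_cast hx
    omega
  have key := cr_inv (fun t x => 2 * |x| ≤ 2 ^ ((c + 1) * 2 ^ t)) w k (fun i => (dg L y i : ℤ))
    (fun t x h => ?_) (by simp) (fun i => ?_) (fun i _ => hb _ ?_) (fun t a b ha hb => ⟨?_, ?_, ?_⟩)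
  · have := abs_nonneg (atom w k (fun i => (dg L y i : ℤ)))
    omega
  · rw [hs]; nlinarith [hM t]
  · rw [abs_neg, and_self]
    exact hb _ ((cr_tk_lt w i).trans_le (Nat.pow_le_pow_right (by omega) (by omega)))
  · exact ((Nat.mod_le _ _).trans (Nat.div_le_self _ _)).trans_lt
      ((Nat.lt_size_self y).trans_le (Nat.pow_le_pow_right (by omega) (by omega)))
  · have := abs_add_le a b
    rw [hs]; nlinarith [hM t]
  · have := abs_sub a b
    rw [hs]; nlinarith [hM t]
  · rw [hs, abs_mul]
    have h1 := abs_nonneg a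
    have h2 := abs_nonneg b
    have h3 := mul_le_mul ha hb (by positivity) (by positivity)
    nlinarith [mul_nonneg h1 h2]

/-- Reading the residue of an earlier gate. -/
def cr_rd (m Y t A : ℕ) : ℕ := if A < t then dg m Y (un t A) else 0

/-- The residue of a gate. -/
noncomputable def cr_g (w : Raw) (L y m Y g t : ℕ) : ℕ :=
  (if tk w g = 0 then (if tk w (g + 1) = 0 then tk w (g + 2) else (m - 1) * tk w (g + 2))
  else if tk w g = 1 then dg L y (w.val.length + ix w (tk w (g + 1)))
  else if tk w g = 2 then dg L y (ix w (tk w (g + 1)))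
  else if tk w g = 3 then cr_rd m Y t (tk w (g + 1)) + cr_rd m Y t (tk w (g + 2))
  else if tk w g = 4 then cr_rd m Y t (tk w (g + 1)) + (m - 1) * cr_rd m Y t (tk w (g + 2))
  else cr_rd m Y t (tk w (g + 1)) * cr_rd m Y t (tk w (g + 2))) % m

/-- The residues of the first gates. -/
noncomputable def cr_Y (w : Raw) (k L y m t : ℕ) : ℕ :=
  Nat.rec 0 (fun t Y => Y + cr_g w L y m Y (gp w k t) t * m ^ t) t

theorem cr_Y_lt (w : Raw) (k L y : ℕ) {m : ℕ} (hm : 0 < m) (t : ℕ) : cr_Y w k L y m t < m ^ t := by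
  induction t with
  | zero => simp [cr_Y]
  | succ t ih =>
    show cr_Y w k L y m t + cr_g w L y m (cr_Y w k L y m t) (gp w k t) t * m ^ t < _
    have h : cr_g w L y m (cr_Y w k L y m t) (gp w k t) t + 1 ≤ m := Nat.mod_lt _ hm
    have := Nat.mul_le_mul_right (m ^ t) h
    rw [pow_succ]; nlinarith

theorem cr_g_spec (w : Raw) (L y : ℕ) {m : ℕ} (hm : 0 < m) (Y g t : ℕ) (l : List (ZMod m))
    (h : ∀ A, (cr_rd m Y t A : ZMod m) = l.getD A 0) :
    (cr_g w L y m Y g t : ZMod m) = gval w (fun i => (dg L y i : ZMod m)) g l := by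
  have h1 : ((m - 1 : ℕ) : ZMod m) = -1 := by
    rw [Nat.cast_sub hm, ZMod.natCast_self]; simp
  unfold cr_g gval
  rw [ZMod.natCast_mod]
  split_ifs <;> simp only [Nat.cast_add, Nat.cast_mul, h, h1] <;> ring

theorem cr_Y_spec (w : Raw) (k L y : ℕ) {m : ℕ} (hm : 0 < m) (t A : ℕ) :
    (cr_rd m (cr_Y w k L y m t) t A : ZMod m) =
      (gvs w k (fun i => (dg L y i : ZMod m)) t).getD A 0 := by
  induction t generalizing A with
  | zero => simp [cr_rd, gvs]
  | succ t ih =>
    have h1 := cr_Y_lt w k L y hm t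
    have h2 := cr_g_spec w L y hm _ (gp w k t) t _ ih
    have h3 := gvs_length w k (fun i => (dg L y i : ZMod m)) t
    show (cr_rd m (cr_Y w k L y m t + cr_g w L y m (cr_Y w k L y m t) (gp w k t) t * m ^ t)
      (t + 1) A : ZMod m) = (gvs w k _ t ++ [gval w _ (gp w k t) (gvs w k _ t)]).getD A 0
    rw [← h2]
    generalize cr_g w L y m (cr_Y w k L y m t) (gp w k t) t = g
    rcases lt_trichotomy A t with h | h | h
    · rw [List.getD_append _ _ _ _ (by omega), ← ih A]
      unfold cr_rd un dg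
      rw [if_pos h, if_pos (by omega), min_eq_left h.le, min_eq_left (by omega)]
      obtain ⟨e, rfl⟩ : ∃ e, t = A + (e + 1) := ⟨t - A - 1, by omega⟩
      rw [pow_add, mul_comm (m ^ A), ← mul_assoc, Nat.add_mul_div_right _ _ (by positivity),
        pow_succ, ← mul_assoc, Nat.add_mul_mod_self_right]
    · subst h
      rw [List.getD_append_right _ _ _ _ h3.le, h3, Nat.sub_self, List.getD_cons_zero]
      unfold cr_rd un dg
      rw [if_pos (by omega), min_eq_left (by omega), Nat.add_mul_div_right _ _ (by positivity),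
        Nat.div_eq_of_lt h1, zero_add, ZMod.natCast_mod]
    · rw [List.getD_eq_default _ _ (by simp; omega)]
      unfold cr_rd
      rw [if_neg (by omega), Nat.cast_zero]

attribute [local fun_prop] bt_tk pt_gp pt_rawlen pt_ix

@[fun_prop] theorem cr_bt_rd {m Y t A : α → ℕ} (hm : BT m) (hY : BT Y) (ht : PT t) (hA : BT A) :
    BT (fun a => cr_rd (m a) (Y a) (t a) (A a)) := by
  unfold cr_rd; fun_prop

@[fun_prop] theorem cr_bt_g {w : α → Raw} {L y m Y g t : α → ℕ} (hw : PT w) (hL : BT L)
    (hy : BT y) (hm : BT m) (hY : BT Y) (hg : PT g) (ht : PT t) :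
    BT (fun a => cr_g (w a) (L a) (y a) (m a) (Y a) (g a) (t a)) := by
  unfold cr_g; fun_prop

@[fun_prop] theorem cr_bt_Y {w : α → Raw} {k L y m t : α → ℕ} (hw : PT w) (hk : PT k) (hL : BT L)
    (hy : BT y) (hm : BT m) (ht : PT t) :
    BT (fun a => cr_Y (w a) (k a) (L a) (y a) (max (m a) 1) (t a)) := by
  refine BT.rec (z := fun _ => 0) (s := fun a t Y =>
      Y + cr_g (w a) (L a) (y a) (max (m a) 1) Y (gp (w a) (k a) t) t * max (m a) 1 ^ t) ht
    (BT.const 0) (by fun_prop) (B := fun a => max (m a) 1 ^ t a) (by fun_prop) (fun a i hi => ?_)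
  exact (cr_Y_lt (w a) (k a) (L a) (y a) (by omega) i).le.trans
    (Nat.pow_le_pow_right (by omega) hi)

theorem cr_cz : CZ (fun p : (Raw × ℕ) × Bin × Bin =>
    atom p.1.1 p.1.2 (fun i => (dg p.2.1.val p.2.2.val i : ℤ))) := by
  refine ⟨⟨_, ?_, fun p => cr_size _ _ _ _⟩, fun _ => 0, BT.const 0,
    fun p q => cr_rd q (cr_Y p.1.1 p.1.2 p.2.1.val p.2.2.val (max q 1)
      (un p.1.1.val.length (tk p.1.1 (p.1.2 + 1)))) (un p.1.1.val.length (tk p.1.1 (p.1.2 + 1)))
      (un p.1.1.val.length (tk p.1.1 (p.1.2 + 1)) - 1), CF.ofBT ?_, fun p q hq _ => ?_⟩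
  · have : PT (fun p : (Raw × ℕ) × Bin × Bin => p.2.2.val.size) := BT.size (by fun_prop)
    fun_prop
  · have h1 : PT (fun p : ((Raw × ℕ) × Bin × Bin) × Bin =>
        un p.1.1.1.val.length (tk p.1.1.1 (p.1.1.2 + 1))) := by fun_prop
    exact cr_bt_rd (by fun_prop) (cr_bt_Y (by fun_prop) (by fun_prop) (by fun_prop) (by fun_prop)
      (by fun_prop) h1) h1 (BT.ofPT (PT.sub h1 (PT.const 1)))
  · beta_reduce
    rw [max_eq_left hq.one_le, ← ZMod.intCast_zmod_eq_zero_iff_dvd, Int.cast_sub, Int.cast_natCast,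
      cr_Y_spec _ _ _ _ hq.pos, sub_eq_zero]
    have := atom_map (Int.castRingHom (ZMod q)) p.1.1 p.1.2
      (fun i => (dg p.2.1.val p.2.2.val i : ℤ))
    simp only [eq_intCast, Int.cast_natCast] at this
    rw [this, atom, cr_getLastD, gvs_length]

theorem cp_atom : CP (fun p : Raw × ℕ => fun z : Pt => atom p.1 p.2 z) := by
  refine ⟨fun p => atom p.1 p.2 MvPolynomial.X, fun p => 2 ^ p.1.val.length,
    fun p => 2 * p.1.val.length + 1, by fun_prop, by fun_prop, fun p => cr_deg _ _,
    fun p => cr_vars _ _, fun p z => ?_, (CQ.ofCZ cr_cz).congr (fun p => ?_)⟩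
  · have := atom_map (MvPolynomial.aeval z : MvPolynomial ℕ ℚ →ₐ[ℚ] ℂ).toRingHom p.1 p.2
      MvPolynomial.X
    simpa using this.symm
  · have h1 := atom_map (Int.castRingHom ℚ) p.1.1 p.1.2 (fun i => (dg p.2.1.val p.2.2.val i : ℤ))
    have h2 := atom_map (MvPolynomial.eval (fun i => (dg p.2.1.val p.2.2.val i : ℚ))) p.1.1 p.1.2
      MvPolynomial.X
    simp only [eq_intCast, Int.cast_natCast, MvPolynomial.eval_X] at h1 h2
    rw [h1, h2]

end Crest.Agent.R316
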