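import Crest.Agent.R317.Lib
import Crest.Prelude.Def_CountHier
import Crest.Prelude.Def_RealEA

/-!
Row 316 (the existential-universal theory of the reals lies in the counting hierarchy):
definitions shared by all files.

* `CD` : predicates in some level of the counting hierarchy; `CF` : polynomial-size numbers with a
  `CD` graph; `CZ`, `CQ` : exponentially long integers and rationals, given by their residues
  modulo primes; `CP` : rational polynomials in polynomially many variables of exponential degree,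
  given by their values at grid points.
* Binary parameters are of type `Bin`, unary parameters of type `ℕ`.
-/

set_option autoImplicit false
set_option linter.dupNamespace false

namespace Crest.Agent.R316

open Crest.Agent.PT Crest.Agent.QC Crest.Agent.R317 Polynomial Finset Crest.RealEA

open Classical in
/-- Number of `y < B` with `p y`. -/
noncomputable def cnt (B : ℕ) (p : ℕ → Prop) : ℕ := ((range B).filter p).card

/-- Least `y < B` with `p y` (and `B` if there is none). -/
noncomputable def lst (B : ℕ) (p : ℕ → Prop) : ℕ := cnt B (fun y => ∀ y' ≤ y, ¬ p y')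

/-- Typed levels of the counting hierarchy. -/
def Lv : ℕ → (α : Type) → [Enc α] → (α → Prop) → Prop
  | 0, _, _, P => DT P
  | j + 1, α, _, P => ∃ (Q : α → ℕ → Prop) (m : α → ℕ),
      Lv j (α × Bin) (fun p => Q p.1 p.2.val) ∧ PT m ∧
        ∀ a, P a ↔ 2 ^ m a < 2 * cnt (2 ^ m a) (Q a)

theorem Lv_zero {α : Type} [Enc α] (P : α → Prop) : Lv 0 α P ↔ DT P := Iff.rfl

theorem Lv_succ {α : Type} [Enc α] (j : ℕ) (P : α → Prop) :
    Lv (j + 1) α P ↔ ∃ (Q : α → ℕ → Prop) (m : α → ℕ),
      Lv j (α × Bin) (fun p => Q p.1 p.2.val) ∧ PT m ∧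
        ∀ a, P a ↔ 2 ^ m a < 2 * cnt (2 ^ m a) (Q a) := Iff.rfl

theorem Lv_anchor : True := by
  have := @Lv.eq_def
  have := @Lv.eq_1
  have := @Lv.eq_2
  trivial

variable {α : Type} [Enc α]

/-- Predicates of the counting hierarchy. -/
def CD (P : α → Prop) : Prop := ∃ j, Lv j α P

/-- Natural numbers of polynomial length whose graph is in the counting hierarchy. -/
def CF (f : α → ℕ) : Prop :=
  (∃ B : α → ℕ, BT B ∧ ∀ a, f a ≤ B a) ∧ CD (fun p : α × Bin => p.2.val = f p.1)

/-- Residues of `F a` modulo the primes above `t a` are computable. -/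
def Res (t : α → ℕ) (F : α → ℤ) : Prop :=
  ∃ r : α → ℕ → ℕ, CF (fun p : α × Bin => r p.1 p.2.val) ∧
    ∀ a q, q.Prime → t a < q → (q : ℤ) ∣ F a - r a q

/-- Integers of exponential length with computable residues. -/
def CZ (F : α → ℤ) : Prop :=
  (∃ L : α → ℕ, BT L ∧ ∀ a, |F a| ≤ 2 ^ L a) ∧ ∃ t : α → ℕ, BT t ∧ Res t F

/-- Quotients of such integers. -/
def CQ (f : α → ℚ) : Prop :=
  ∃ N D : α → ℤ, CZ N ∧ CZ D ∧ ∀ a, 0 < D a ∧ f a = N a / D a

/-- Digit `i` of `y` in base `L`. -/
def dg (L y i : ℕ) : ℕ := y / L ^ i % L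

/-- Points. -/
abbrev Pt : Type := ℕ → ℂ

/-- Prepend a coordinate. -/
def cs {β : Type} (t : β) (x : ℕ → β) : ℕ → β := fun i => if i = 0 then t else x (i - 1)

/-- Drop the first coordinate. -/
def tl {β : Type} (z : ℕ → β) : ℕ → β := fun i => z (i + 1)

/-- The first `m` coordinates of `y` followed by `x`. -/
def app {β : Type} (m : ℕ) (y x : ℕ → β) : ℕ → β := fun i => if i < m then y i else x (i - m)

/-- Drop the first `m` coordinates. -/
def sh {β : Type} (m : ℕ) (z : ℕ → β) : ℕ → β := fun i => z (i + m)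

/-- A real point as a complex point. -/
def rc (x : ℕ → ℝ) : Pt := fun i => (x i : ℂ)

/-- The conjugate point. -/
noncomputable def cj (z : Pt) : Pt := fun i => (starRingEnd ℂ) (z i)

/-- Families of polynomial functions with rational coefficients, exponential degree and
polynomially many variables whose values at grid points are computable. -/
def CP (F : α → Pt → ℂ) : Prop :=
  ∃ (P : α → MvPolynomial ℕ ℚ) (d v : α → ℕ), BT d ∧ PT v ∧
    (∀ a, (P a).totalDegree ≤ d a) ∧ (∀ a, ∀ i ∈ (P a).vars, i < v a) ∧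
    (∀ a z, F a z = MvPolynomial.aeval z (P a)) ∧
    CQ (fun p : α × Bin × Bin =>
      MvPolynomial.eval (fun i => (dg p.2.1.val p.2.2.val i : ℚ)) (P p.1))

/-- Polynomial maps of points (the coordinate index is unary). -/
def CV (H : α → Pt → Pt) : Prop := CP (fun p : α × ℕ => fun z => H p.1 z p.2)

/-- Univariate polynomials depending polynomially on a point. -/
def CX (G : α → Pt → ℂ[X]) : Prop := CP (fun a z => (G a (tl z)).eval (z 0))

/-- Root families: `ρ a x 0, …, ρ a x (N a - 1)` are the roots of a computable monic polynomial. -/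
def RF (N : α → ℕ) (ρ : α → Pt → ℕ → ℂ) : Prop :=
  BT N ∧ CP (fun a z => ∏ k ∈ range (N a), (z 0 - ρ a (tl z) k))

/-- Functions that are polynomial of degree `< L` in each coordinate separately. -/
def SepP (L : ℕ) (f : Pt → ℂ) : Prop :=
  ∀ j z, ∃ p : ℂ[X], p.natDegree < L ∧ ∀ t, f (Function.update z j t) = p.eval t

/-- Partial derivative. -/
noncomputable def D (j : ℕ) (f : Pt → ℂ) (z : Pt) : ℂ :=
  deriv (fun t => f (Function.update z j t)) (z j)

/-- Lagrange basis polynomial for the nodes `0, …, L - 1`. -/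
noncomputable def lb (L j : ℕ) : ℚ[X] := Lagrange.basis (range L) (fun i : ℕ => (i : ℚ)) j

/-- Its coefficients. -/
noncomputable def lc (L j e : ℕ) : ℚ := (lb L j).coeff e

/-- Index tuples `ι i < N i` for `i < m`. -/
def tups (m : ℕ) (N : ℕ → ℕ) : Finset (Fin m → ℕ) := Fintype.piFinset (fun i => range (N i))

/-- The point with coordinates `ρ i (ι i)` for `i < m` and `0` beyond. -/
def tp {m : ℕ} (ρ : ℕ → ℕ → ℂ) (ι : Fin m → ℕ) : Pt :=
  fun i => if h : i < m then ρ i (ι ⟨i, h⟩) else 0

open Classical in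
/-- An enumeration of the complex roots (with multiplicity) of a monic polynomial. -/
noncomputable def rt (p : ℂ[X]) : ℕ → ℂ :=
  if h : ∃ ρ : ℕ → ℂ, ∀ t, p.eval t = ∏ k ∈ range p.natDegree, (t - ρ k) then h.choose else 0

/-- The monic polynomial of degree `e` whose lower coefficients are `c` times those of `p`. -/
noncomputable def mon (e : ℕ) (p : ℂ[X]) (c : ℂ) : ℂ[X] :=
  X ^ e + ∑ j ∈ range e, C (c * p.coeff j) * X ^ j

/-- The (truncated) residue functional of the system `X j ^ d + h j`. -/
noncomputable def tau {m : ℕ} (d : ℕ) (h : Fin m → MvPolynomial (Fin m) ℂ) (B : ℕ)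
    (w : MvPolynomial (Fin m) ℂ) : ℂ :=
  ∑ μ ∈ tups m (fun _ => B),
    MvPolynomial.coeff (Finsupp.equivFunOnFinite.symm fun j => d * μ j + (d - 1))
      (w * ∏ j, (-h j) ^ μ j)

/-- The Jacobian determinant of the system `X j ^ d + h j`. -/
noncomputable def jac {m : ℕ} (d : ℕ) (h : Fin m → MvPolynomial (Fin m) ℂ) :
    MvPolynomial (Fin m) ℂ :=
  Matrix.det (Matrix.of fun i j => MvPolynomial.pderiv j (MvPolynomial.X i ^ d + h i))

/-- The sign vector of a family of functions at a real point. -/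
noncomputable def sg (p : ℕ → Pt → ℂ) (x : ℕ → ℝ) : ℕ → SignType :=
  fun k => SignType.sign (p k (rc x)).re

/-- The sign vector coded by two numbers. -/
def sv (bp bm : ℕ) : ℕ → SignType :=
  fun k => if dg 2 bp k = 1 then 1 else if dg 2 bm k = 1 then -1 else 0

/-- `t` is a root of a nonzero member of the family `V 0, …, V (K - 1)`. -/
def Rt (V : ℕ → ℂ[X]) (K : ℕ) (t : ℝ) : Prop := ∃ κ < K, V κ ≠ 0 ∧ (V κ).eval (t : ℂ) = 0

/-- The sign vector `σ` is realised at a tuple of real roots of `χ`. -/
def RS (q : ℕ → Pt → ℂ) (s n : ℕ) (χ : ℂ[X]) (x : ℕ → ℝ) (σ : ℕ → SignType) : Prop :=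
  ∃ y : ℕ → ℝ, (∀ i < n, χ.eval (y i : ℂ) = 0) ∧ ∀ k < s, sg q (app n y x) k = σ k

open Classical in
/-- Number of coincidences among the roots of `χ`. -/
noncomputable def zc1 (e : ℕ) (χ : ℂ[X]) : ℕ :=
  ((tups 2 (fun _ => e)).filter fun ι => rt χ (ι 0) - rt χ (ι 1) = 0).card

open Classical in
/-- Number of zeros of the functions `q k` at the tuples of roots of `χ`. -/
noncomputable def zc2 (q : ℕ → Pt → ℂ) (s n e : ℕ) (χ : ℂ[X]) (x : Pt) : ℕ :=
  ((range s ×ˢ tups n (fun _ => e)).filter
    fun κ => q κ.1 (app n (tp (fun _ => rt χ) κ.2) x) = 0).card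

/-! ### Parsing -/

/-- Token `i` of the string. -/
def tk (w : Raw) (i : ℕ) : ℕ := rdNat (skip^[i] w)

/-- Number of tokens of a gate with the given tag. -/
def gw (tag : ℕ) : ℕ := if tag = 1 ∨ tag = 2 then 2 else 3

/-- Position of gate `t` of the atom whose tag is at position `k`. -/
def gp (w : Raw) (k : ℕ) : ℕ → ℕ
  | 0 => k + 2
  | t + 1 => gp w k t + gw (tk w (gp w k t))

theorem gp_anchor : True := by
  have := @gp.eq_def
  have := @gp.eq_1
  have := @gp.eq_2
  trivial

/-- First position of a token with value `A`. -/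
noncomputable def ix (w : Raw) (A : ℕ) : ℕ := lst w.val.length (fun i => tk w i = A)

/-- Value of the gate at position `g`, given the values `prev` of the earlier gates. The
universal variable `A` is coordinate `ix w A`, the existential one coordinate `|w| + ix w A`. -/
noncomputable def gval {R : Type} [CommRing R] (w : Raw) (z : ℕ → R) (g : ℕ) (prev : List R) : R :=
  if tk w g = 0 then (if tk w (g + 1) = 0 then (tk w (g + 2) : R) else -(tk w (g + 2) : R))
  else if tk w g = 1 then z (w.val.length + ix w (tk w (g + 1)))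
  else if tk w g = 2 then z (ix w (tk w (g + 1)))
  else if tk w g = 3 then prev.getD (tk w (g + 1)) 0 + prev.getD (tk w (g + 2)) 0
  else if tk w g = 4 then prev.getD (tk w (g + 1)) 0 - prev.getD (tk w (g + 2)) 0
  else prev.getD (tk w (g + 1)) 0 * prev.getD (tk w (g + 2)) 0

/-- Values of the first `t` gates of the atom at position `k`. -/
noncomputable def gvs {R : Type} [CommRing R] (w : Raw) (k : ℕ) (z : ℕ → R) : ℕ → List R
  | 0 => []
  | t + 1 => gvs w k z t ++ [gval w z (gp w k t) (gvs w k z t)]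

theorem gvs_anchor : True := by
  have := @gvs.eq_def
  have := @gvs.eq_1
  have := @gvs.eq_2
  trivial

/-- Value of the circuit of the atom at position `k`. -/
noncomputable def atom {R : Type} [CommRing R] (w : Raw) (k : ℕ) (z : ℕ → R) : R :=
  (gvs w k z (un w.val.length (tk w (k + 1)))).getLastD 0

/-- Truth of a formula whose tag is at position `k`, given the signs of its atoms (indexed by
their positions). -/
def HA (σ : ℕ → SignType) : Form → ℕ → Prop
  | Form.eqZero _, k => σ k = 0
  | Form.pos _, k => σ k = 1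
  | Form.and φ ψ, k => HA σ φ (k + 1) ∧ HA σ ψ (k + 1 + φ.toNats.length)
  | Form.or φ ψ, k => HA σ φ (k + 1) ∨ HA σ ψ (k + 1 + φ.toNats.length)
  | Form.not φ, k => ¬ HA σ φ (k + 1)

theorem HA_anchor : True := by
  have := @HA.eq_def
  have := @HA.eq_1
  have := @HA.eq_2
  have := @HA.eq_3
  have := @HA.eq_4
  have := @HA.eq_5
  have := @Form.toNats.eq_def
  have := @Form.WF.eq_def
  have := @Form.Holds.eq_def
  have := @AGate.toNats.eq_def
  have := @AGate.WF.eq_def
  have := @AGate.value.eq_def
  trivial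

/-- The string codes a well-formed sentence whose condition holds for the given atom signs. -/
def Phi (w : Raw) (σ : ℕ → SignType) : Prop :=
  ∃ S : Sentence, S.WF ∧ S.encode = w.val ∧ HA σ S.body 2

/-! ### Small facts about points -/

section pts
variable {β : Type}

@[simp] theorem cs_zero (t : β) (x : ℕ → β) : cs t x 0 = t := rfl
@[simp] theorem cs_succ (t : β) (x : ℕ → β) (i : ℕ) : cs t x (i + 1) = x i := rfl
@[simp] theorem tl_cs (t : β) (x : ℕ → β) : tl (cs t x) = x := rfl
theorem tl_apply (z : ℕ → β) (i : ℕ) : tl z i = z (i + 1) := rfl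
@[simp] theorem cs_tl (z : ℕ → β) : cs (z 0) (tl z) = z := by
  funext i; cases i <;> rfl
theorem app_lt {m i : ℕ} (y x : ℕ → β) (h : i < m) : app m y x i = y i := if_pos h
theorem app_ge {m i : ℕ} (y x : ℕ → β) (h : m ≤ i) : app m y x i = x (i - m) :=
  if_neg (by omega)
@[simp] theorem app_fin {m : ℕ} (y x : ℕ → β) (i : Fin m) : app m y x i = y i := if_pos i.2
@[simp] theorem app_add (m i : ℕ) (y x : ℕ → β) : app m y x (m + i) = x i := by
  rw [app_ge _ _ (by omega)]; simp
@[simp] theorem app_zero (y x : ℕ → β) : app 0 y x = x := by funext i; simp [app]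
@[simp] theorem sh_app (m : ℕ) (y x : ℕ → β) : sh m (app m y x) = x := by
  funext i; simp [sh, app]
@[simp] theorem app_app (m : ℕ) (y x x' : ℕ → β) : app m (app m y x) x' = app m y x' := by
  funext i; simp only [app]; split_ifs <;> rfl
@[simp] theorem app_sh (m : ℕ) (z : ℕ → β) : app m z (sh m z) = z := by
  funext i; simp only [app, sh]; split_ifs with h
  · rfl
  · congr 1; omega
theorem tl_app (m : ℕ) (y x : ℕ → β) : tl (app (m + 1) y x) = app m (tl y) x := by
  funext i; simp only [app, tl]; split_ifs <;> first | rfl | omega | (congr 1; omega)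
theorem app_cs (m : ℕ) (t : β) (y x : ℕ → β) : app (m + 1) (cs t y) x = cs t (app m y x) := by
  funext i; cases i with
  | zero => simp [app]
  | succ i => simp [app]
theorem app_congr {m : ℕ} {y y' : ℕ → β} (x : ℕ → β) (h : ∀ i < m, y i = y' i) :
    app m y x = app m y' x := by
  funext i; simp only [app]; split_ifs with hi
  · exact h i hi
  · rfl

theorem rc_apply (x : ℕ → ℝ) (i : ℕ) : rc x i = x i := rfl
@[simp] theorem rc_zero : rc 0 = 0 := by funext i; simp [rc]
theorem rc_cs (t : ℝ) (x : ℕ → ℝ) : rc (cs t x) = cs (t : ℂ) (rc x) := by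
  funext i; cases i <;> rfl
theorem rc_tl (x : ℕ → ℝ) : rc (tl x) = tl (rc x) := rfl
theorem rc_sh (m : ℕ) (x : ℕ → ℝ) : rc (sh m x) = sh m (rc x) := rfl
theorem rc_app (m : ℕ) (y x : ℕ → ℝ) : rc (app m y x) = app m (rc y) (rc x) := by
  funext i; simp only [rc, app]; split_ifs <;> rfl
@[simp] theorem cj_rc (x : ℕ → ℝ) : cj (rc x) = rc x := by funext i; simp [cj, rc]
@[simp] theorem cj_zero : cj 0 = 0 := by funext i; simp [cj]
theorem cj_cs (t : ℂ) (x : Pt) : cj (cs t x) = cs ((starRingEnd ℂ) t) (cj x) := by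
  funext i; cases i <;> rfl
theorem cj_app (m : ℕ) (y x : Pt) : cj (app m y x) = app m (cj y) (cj x) := by
  funext i; simp only [cj, app]; split_ifs <;> rfl
@[simp] theorem tp_fin {m : ℕ} (ρ : ℕ → ℕ → ℂ) (ι : Fin m → ℕ) (i : Fin m) :
    tp ρ ι i = ρ i (ι i) := dif_pos i.2
@[simp] theorem app_tp_zero {m : ℕ} (ρ : ℕ → ℕ → ℂ) (ι : Fin m → ℕ) :
    app m (tp ρ ι) 0 = tp ρ ι := by
  funext i; simp only [app, tp]; split_ifs <;> rfl
theorem mem_tups {m : ℕ} {N : ℕ → ℕ} {ι : Fin m → ℕ} : ι ∈ tups m N ↔ ∀ i, ι i < N i := by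
  simp [tups]

end pts

@[fun_prop] theorem bt_dg {L y i : α → ℕ} (hL : BT L) (hy : BT y) (hi : PT i) :
    BT (fun a => dg (L a) (y a) (i a)) := by
  unfold dg; fun_prop

end Crest.Agent.R316
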