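import Crest.Agent.R316.Defs

/-!
Row 316, task TRACE: the residue trace formula (pure algebra).

Let `f i = X i ^ d + h i` with `totalDegree (h i) < d`, and `τ w = tau d h (totalDegree w + 1) w`.
1. The term `μ` of `tau` vanishes when `totalDegree w < |μ| + m (d-1)` (compare degrees:
   `deg w + (d-1)|μ| < d|μ| + m(d-1)`), so `tau d h B w` does not depend on `B > totalDegree w`;
   `τ` is linear, `τ (monomial b) = 0` for `|b| < m(d-1)`, `τ (∏ X j ^ (d-1)) = 1`, and
   `τ (f j * w) = 0` (telescoping in `μ j`).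
2. Divided differences. In `R[y]`, `R = ℂ[x]` (type `MvPolynomial (Fin m) (MvPolynomial (Fin m) ℂ)`),
   every `p` of total degree `≤ n + 1` has `Δ j` with `p(x) - p(y) = ∑ j, Δ j * (x j - y j)`,
   `Δ j (x, x) = pderiv j p`, degree in `y` at most `n`, coefficients of degree at most `n` (and
   `Δ = 0` for constants): induction on monomials with
   `Δ j (X i * p) = x i * Δ j p + (if i = j then p(y) else 0)`. For `f i` take
   `Δ i j = (if i = j then ∑_{s < d} x i ^ s * y i ^ (d-1-s) else 0) + Δ j (h i)` and `Δ = det`.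
   Then `Δ(x, x) = jac`, `Δ = ∏ y j ^ (d-1) +` terms of degree `< m(d-1)` in `y`, and by the adjugate
   `Δ * (x j - y j)`, hence `Δ * (w(x) - w(y))`, lies in the ideal spanned by the `f i (x)`, `f i (y)`.
3. Write `Δ = ∑_{a ∈ S} x^a b_a(y)`, `S = tups m (fun _ => m d + 1)`. For every linear functional `ℓ`
   on `ℂ[x]` killing the multiples of the `f i`: `ℓ w = ∑_a ℓ (x^a) τ (w * b_a)` (apply `ℓ ⊗ τ`).
4. The matrices `M g a b = τ (g * x^b * b_a)` satisfy `M g * M g' = M (g g')` (take
   `ℓ = τ (g b_a ·)`), `trace (M g) = τ (g * jac)`, and for a solution `z` the nonzero row vector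
   `(z^a)_a` is a left eigenvector of `M g` with eigenvalue `g z` (take `ℓ = eval z`).
5. Let `g` enumerate the roots of the characteristic polynomial of `M u`; then
   `∑ g i ^ k = trace ((M u) ^ k)` (`sum_pow_roots`).
-/

set_option autoImplicit false
set_option linter.dupNamespace false

namespace Crest.Agent.R316

namespace TraceAux

open MvPolynomial Finset

section low
variable {σ : Type} {R : Type} [CommRing R]

/-- polynomials all of whose monomials have degree `< n` -/
def Low (R : Type) [CommRing R] (σ : Type) (n : ℕ) : Submodule R (MvPolynomial σ R) where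
  carrier := {p | ∀ b : σ →₀ ℕ, n ≤ b.degree → coeff b p = 0}
  add_mem' := fun {p q} hp hq b hb => by rw [coeff_add, hp b hb, hq b hb, add_zero]
  zero_mem' := fun b _ => coeff_zero b
  smul_mem' := fun c p hp b hb => by rw [coeff_smul, hp b hb, smul_zero]

lemma mem_Low {n : ℕ} {p : MvPolynomial σ R} :
    p ∈ Low R σ n ↔ ∀ b : σ →₀ ℕ, n ≤ b.degree → coeff b p = 0 := Iff.rfl

lemma Low_mono {n k : ℕ} (h : n ≤ k) {p : MvPolynomial σ R} (hp : p ∈ Low R σ n) : p ∈ Low R σ k :=
  fun b hb => hp b (h.trans hb)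

lemma Low_of_deg {n : ℕ} {p : MvPolynomial σ R} (h : p.totalDegree < n) : p ∈ Low R σ n :=
  fun _ hb => coeff_eq_zero_of_totalDegree_lt (h.trans_le hb)

lemma deg_of_Low {n : ℕ} {p : MvPolynomial σ R} (h : p ∈ Low R σ (n + 1)) : p.totalDegree ≤ n := by
  rw [totalDegree, Finset.sup_le_iff]
  intro b hb
  by_contra hc
  exact (mem_support_iff.mp hb) (h b (not_le.mp hc))

lemma Low_mul {n k : ℕ} {p q : MvPolynomial σ R} (hp : p ∈ Low R σ (n + 1)) (hq : q ∈ Low R σ k) :
    p * q ∈ Low R σ (n + k) := by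
  classical
  intro b hb
  rw [coeff_mul]
  refine Finset.sum_eq_zero fun x hx => ?_
  have hx' := congrArg Finsupp.degree (mem_antidiagonal.mp hx)
  rw [map_add] at hx'
  by_cases h1 : n + 1 ≤ x.1.degree
  · rw [hp _ h1, zero_mul]
  · rw [hq _ (by omega), mul_zero]

lemma Low_monomial {n : ℕ} {b : σ →₀ ℕ} (h : b.degree < n) (c : R) : monomial b c ∈ Low R σ n := by
  classical
  intro b' hb'
  rw [coeff_monomial, if_neg]
  rintro rfl
  omega

lemma Low_C (c : R) : (C c : MvPolynomial σ R) ∈ Low R σ 1 := Low_monomial (by simp) c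

lemma Low_C_mul {n : ℕ} (c : R) {p : MvPolynomial σ R} (hp : p ∈ Low R σ n) : C c * p ∈ Low R σ n := by
  rw [C_mul']; exact (Low R σ n).smul_mem c hp

lemma Low_X_pow {n k : ℕ} (i : σ) (h : k < n) : (X i ^ k : MvPolynomial σ R) ∈ Low R σ n := by
  rw [X_pow_eq_monomial]; exact Low_monomial (by simpa using h) 1

lemma Low_prod {ι : Type} (s : Finset ι) (n : ι → ℕ) (p : ι → MvPolynomial σ R)
    (hp : ∀ i ∈ s, p i ∈ Low R σ (n i + 1)) : ∏ i ∈ s, p i ∈ Low R σ (∑ i ∈ s, n i + 1) := by
  classical
  induction s using Finset.induction_on with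
  | empty => simpa using Low_C (σ := σ) (1 : R)
  | insert a s ha ih =>
    rw [prod_insert ha, sum_insert ha, add_assoc]
    exact Low_mul (hp a (mem_insert_self _ _)) (ih fun i hi => hp i (mem_insert_of_mem hi))

lemma Low_pow {n : ℕ} {p : MvPolynomial σ R} (hp : p ∈ Low R σ (n + 1)) (k : ℕ) :
    p ^ k ∈ Low R σ (n * k + 1) := by
  have := Low_prod (range k) (fun _ => n) (fun _ => p) (fun _ _ => hp)
  simpa [mul_comm] using this

lemma Low_prod_sub {ι : Type} (s : Finset ι) (n : ℕ) (D L : ι → MvPolynomial σ R)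
    (hD : ∀ i, D i ∈ Low R σ (n + 1)) (hL : ∀ i, L i ∈ Low R σ n) :
    ∏ i ∈ s, (D i + L i) - ∏ i ∈ s, D i ∈ Low R σ (#s * n) := by
  classical
  induction s using Finset.induction_on with
  | empty => simp
  | insert a s ha ih =>
    rw [prod_insert ha, prod_insert ha, card_insert_of_notMem ha]
    have e : (D a + L a) * ∏ i ∈ s, (D i + L i) - D a * ∏ i ∈ s, D i =
        D a * (∏ i ∈ s, (D i + L i) - ∏ i ∈ s, D i) + (∏ i ∈ s, (D i + L i)) * L a := by ring
    rw [e]
    refine add_mem ?_ ?_
    · exact Low_mono (by ring_nf; exact le_rfl) (Low_mul (hD a) ih)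
    · have h1 := Low_prod s (fun _ => n) (fun i => D i + L i)
        (fun i _ => add_mem (hD i) (Low_mono (Nat.le_succ n) (hL i)))
      refine Low_mono ?_ (Low_mul h1 (hL a))
      simp only [sum_const, smul_eq_mul]
      ring_nf
      exact le_rfl

lemma Low_det_sub {ι : Type} [Fintype ι] [DecidableEq ι] (n : ℕ) (D L : Matrix ι ι (MvPolynomial σ R))
    (hD : ∀ i j, D i j ∈ Low R σ (n + 1)) (hL : ∀ i j, L i j ∈ Low R σ n) :
    (D + L).det - D.det ∈ Low R σ (Fintype.card ι * n) := by
  rw [Matrix.det_apply, Matrix.det_apply, ← sum_sub_distrib]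
  refine sum_mem fun π _ => ?_
  rw [← smul_sub, Units.smul_def]
  exact zsmul_mem (Low_prod_sub univ n (fun i => D (π i) i) (fun i => L (π i) i)
    (fun _ => hD _ _) (fun _ => hL _ _)) _

lemma Low_det {ι : Type} [Fintype ι] [DecidableEq ι] (n : ℕ) (D : Matrix ι ι (MvPolynomial σ R))
    (hD : ∀ i j, D i j ∈ Low R σ (n + 1)) : D.det ∈ Low R σ (Fintype.card ι * n + 1) := by
  rw [Matrix.det_apply]
  refine sum_mem fun π _ => ?_
  rw [Units.smul_def]
  have := Low_prod univ (fun _ => n) (fun i => D (π i) i) (fun _ _ => hD _ _)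
  simp only [sum_const, smul_eq_mul, card_univ] at this
  exact zsmul_mem this _

lemma Low_pderiv {n : ℕ} {p : MvPolynomial σ R} (hp : p ∈ Low R σ n) (j : σ) :
    pderiv j p ∈ Low R σ n := by
  intro b hb
  rw [coeff_pderiv, hp _ (by rw [map_add]; omega), zero_mul]

lemma Low_map {S : Type} [CommRing S] (φ : R →+* S) {n : ℕ} {p : MvPolynomial σ R}
    (hp : p ∈ Low R σ n) : map φ p ∈ Low S σ n := by
  intro b hb
  rw [coeff_map, hp b hb, map_zero]

/-- divided differences -/
def DD (R : Type) [CommRing R] (σ : Type) [Fintype σ] (n : ℕ) : Submodule R (MvPolynomial σ R) where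
  carrier := {p | ∃ Δ : σ → MvPolynomial σ (MvPolynomial σ R),
    C p - map C p = ∑ j, Δ j * (C (X j) - X j) ∧ (∀ j, eval X (Δ j) = pderiv j p) ∧
      ∀ j, Δ j ∈ Low (MvPolynomial σ R) σ n}
  add_mem' := by
    rintro p q ⟨Δ, h1, h2, h3⟩ ⟨Δ', h1', h2', h3'⟩
    refine ⟨fun j => Δ j + Δ' j, ?_, fun j => by rw [map_add, map_add, h2, h2'],
      fun j => add_mem (h3 j) (h3' j)⟩
    simp only [add_mul, sum_add_distrib, ← h1, ← h1', map_add]
    ring
  zero_mem' := ⟨0, by simp, by simp, fun _ => zero_mem _⟩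
  smul_mem' := by
    rintro c p ⟨Δ, h1, h2, h3⟩
    refine ⟨fun j => C (C c) * Δ j, ?_, fun j => ?_, fun j => Low_C_mul _ (h3 j)⟩
    · simp only [mul_assoc, ← mul_sum, ← h1, ← C_mul', map_mul, map_C]
      ring
    · rw [map_mul, eval_C, h2, ← C_mul', pderiv_C_mul]

variable [Fintype σ]

lemma DD_monomial (n : ℕ) : ∀ b : σ →₀ ℕ, b.degree ≤ n → monomial b (1 : R) ∈ DD R σ n := by
  classical
  induction n with
  | zero =>
    intro b hb
    have : b = 0 := (Finsupp.degree_eq_zero_iff b).mp (by omega)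
    subst this
    exact ⟨0, by simp, by simp, fun _ => zero_mem _⟩
  | succ n ih =>
    intro b hb
    by_cases h0 : b = 0
    · subst h0
      exact ⟨0, by simp, by simp, fun _ => zero_mem _⟩
    obtain ⟨i, hi⟩ : ∃ i, b i ≠ 0 := by
      by_contra hc
      push Not at hc
      exact h0 (Finsupp.ext hc)
    obtain ⟨b', rfl⟩ : ∃ b', b = Finsupp.single i 1 + b' :=
      exists_add_of_le (Finsupp.single_le_iff.mpr (by omega))
    have hb' : b'.degree ≤ n := by
      rw [map_add, Finsupp.degree_single] at hb; omega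
    obtain ⟨Δ, h1, h2, h3⟩ := ih b' hb'
    have e : monomial (Finsupp.single i 1 + b') (1 : R) = X i * monomial b' 1 := by
      rw [X, monomial_mul, one_mul]
    rw [e]
    set p : MvPolynomial σ R := monomial b' 1 with hp
    refine ⟨fun j => C (X i) * Δ j + if j = i then map C p else 0, ?_, fun j => ?_, fun j => ?_⟩
    · simp only [add_mul, sum_add_distrib, mul_assoc, ← mul_sum, ← h1, ite_mul, zero_mul,
        sum_ite_eq', mem_univ, if_true, map_mul, map_X]
      ring
    · have e2 : eval X (map C p) = p := by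
        rw [eval_map]; exact eval₂_eta p
      rw [map_add, map_mul, eval_C, h2, Derivation.leibniz, smul_eq_mul, smul_eq_mul, pderiv_X]
      by_cases hj : j = i
      · subst hj; simp [e2]
      · simp [hj, Pi.single_eq_of_ne (Ne.symm hj)]
    · refine add_mem (Low_C_mul _ (Low_mono (Nat.le_succ n) (h3 j))) ?_
      split_ifs
      · exact Low_map _ (Low_monomial (by omega) _)
      · exact zero_mem _

lemma DD_of_Low {n : ℕ} {p : MvPolynomial σ R} (hp : p ∈ Low R σ (n + 1)) : p ∈ DD R σ n := by
  rw [p.as_sum]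
  refine sum_mem fun b hb => ?_
  have e : monomial b (coeff b p) = coeff b p • monomial b (1 : R) := by
    rw [smul_monomial, smul_eq_mul, mul_one]
  rw [e]
  refine Submodule.smul_mem _ _ (DD_monomial n b ?_)
  by_contra hc
  exact (mem_support_iff.mp hb) (hp b (not_le.mp hc))

end low

section res
variable {m : ℕ} (d : ℕ) (h : Fin m → MvPolynomial (Fin m) ℂ)

/-- exponent of the term `μ` -/
noncomputable def ex (μ : Fin m → ℕ) : Fin m →₀ ℕ :=
  Finsupp.equivFunOnFinite.symm fun j => d * μ j + (d - 1)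

/-- the term `μ` of `tau` -/
noncomputable def term (μ : Fin m → ℕ) (w : MvPolynomial (Fin m) ℂ) : ℂ :=
  coeff (ex d μ) (w * ∏ j, (-h j) ^ μ j)

lemma tau_eq (B : ℕ) (w : MvPolynomial (Fin m) ℂ) :
    tau d h B w = ∑ μ ∈ tups m (fun _ => B), term d h μ w := rfl

variable {d h}

lemma term_zero (hh : ∀ j, (h j).totalDegree < d) {n : ℕ} {w : MvPolynomial (Fin m) ℂ}
    (hw : w ∈ Low ℂ (Fin m) n) {μ : Fin m → ℕ} (hμ : n ≤ ∑ j, μ j + m * (d - 1)) :
    term d h μ w = 0 := by
  have h1 : ∏ j, (-h j) ^ μ j ∈ Low ℂ (Fin m) (∑ j, (d - 1) * μ j + 1) :=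
    Low_prod univ (fun j => (d - 1) * μ j) _ fun j _ =>
      Low_pow (neg_mem (Low_of_deg (by have := hh j; omega))) _
  have h2 := Low_mul h1 hw
  rw [term, mul_comm]
  refine h2 _ ?_
  have e : (ex d μ).degree = ∑ j, (d - 1) * μ j + (∑ j, μ j + m * (d - 1)) := by
    have e1 : m * (d - 1) = ∑ _j : Fin m, (d - 1) := by simp
    rw [Finsupp.degree_eq_sum, e1, ← sum_add_distrib, ← sum_add_distrib]
    refine sum_congr rfl fun j _ => ?_
    have := hh j
    obtain ⟨e, rfl⟩ : ∃ e, d = e + 1 := ⟨d - 1, by omega⟩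
    simp only [ex, Finsupp.coe_equivFunOnFinite_symm, Nat.add_sub_cancel]
    ring
  omega

lemma term_zero' (hh : ∀ j, (h j).totalDegree < d) {B : ℕ} {w : MvPolynomial (Fin m) ℂ}
    (hw : w.totalDegree < B) {μ : Fin m → ℕ} (hμ : μ ∉ tups m (fun _ => B)) : term d h μ w = 0 := by
  refine term_zero hh (Low_of_deg hw) ?_
  rw [mem_tups] at hμ
  push Not at hμ
  obtain ⟨j, hj⟩ := hμ
  have := single_le_sum (f := μ) (fun i _ => Nat.zero_le _) (mem_univ j)
  omega

lemma tau_indep (hh : ∀ j, (h j).totalDegree < d) {B B' : ℕ} {w : MvPolynomial (Fin m) ℂ}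
    (hw : w.totalDegree < B) (hw' : w.totalDegree < B') : tau d h B w = tau d h B' w := by
  have key : ∀ {B B' : ℕ}, w.totalDegree < B → B ≤ B' → tau d h B w = tau d h B' w := by
    intro B B' hB hBB
    rw [tau_eq, tau_eq]
    refine sum_subset (fun μ hμ => ?_) fun μ _ hμ => term_zero' hh hB hμ
    rw [mem_tups] at hμ ⊢
    exact fun i => (hμ i).trans_le hBB
  rcases le_total B B' with h1 | h1
  · exact key hw h1
  · exact (key hw' h1).symm

lemma tau_add (B : ℕ) (w w' : MvPolynomial (Fin m) ℂ) :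
    tau d h B (w + w') = tau d h B w + tau d h B w' := by
  simp only [tau_eq, term, add_mul, coeff_add, sum_add_distrib]

lemma tau_smul (B : ℕ) (c : ℂ) (w : MvPolynomial (Fin m) ℂ) :
    tau d h B (c • w) = c * tau d h B w := by
  simp only [tau_eq, term, smul_mul_assoc, coeff_smul, smul_eq_mul, mul_sum]

/-- the residue functional -/
noncomputable def τ (hh : ∀ j, (h j).totalDegree < d) : MvPolynomial (Fin m) ℂ →ₗ[ℂ] ℂ where
  toFun w := tau d h (w.totalDegree + 1) w
  map_add' w w' := by
    have h1 := totalDegree_add w w'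
    have h2 := le_max_left w.totalDegree w'.totalDegree
    have h3 := le_max_right w.totalDegree w'.totalDegree
    rw [tau_indep hh (Nat.lt_succ_self _) (Nat.lt_succ_of_le h1), tau_add,
      tau_indep hh (Nat.lt_succ_self _) (Nat.lt_succ_of_le h2),
      tau_indep hh (Nat.lt_succ_self _) (Nat.lt_succ_of_le h3)]
  map_smul' c w := by
    have h1 := totalDegree_smul_le c w
    rw [tau_indep hh (Nat.lt_succ_self _) (Nat.lt_succ_of_le h1), tau_smul]
    rfl

lemma τ_eq (hh : ∀ j, (h j).totalDegree < d) {B : ℕ} {w : MvPolynomial (Fin m) ℂ}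
    (hw : w.totalDegree < B) : τ hh w = tau d h B w :=
  tau_indep hh (Nat.lt_succ_self _) hw

lemma τ_low (hh : ∀ j, (h j).totalDegree < d) {w : MvPolynomial (Fin m) ℂ}
    (hw : w ∈ Low ℂ (Fin m) (m * (d - 1))) : τ hh w = 0 := by
  rw [τ_eq hh (Nat.lt_succ_self _), tau_eq]
  exact sum_eq_zero fun μ _ => term_zero hh hw (Nat.le_add_left _ _)

lemma τ_top (hh : ∀ j, (h j).totalDegree < d) : τ hh (∏ j, X j ^ (d - 1)) = 1 := by
  rw [τ_eq hh (Nat.lt_succ_self _), tau_eq, sum_eq_single 0]
  · have e : (∏ j, X j ^ (d - 1) : MvPolynomial (Fin m) ℂ) = monomial (ex d 0) 1 := by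
      rw [monomial_eq, C_1, one_mul, Finsupp.prod_fintype _ _ (by simp)]
      simp [ex]
    simp [term, e]
  · intro μ _ hμ
    have h1 := Low_prod (R := ℂ) univ (fun _ : Fin m => d - 1) (fun j => X j ^ (d - 1))
      (fun j _ => Low_X_pow j (Nat.lt_succ_self _))
    refine term_zero hh h1 ?_
    obtain ⟨j, hj⟩ := Function.ne_iff.mp hμ
    have := single_le_sum (f := μ) (fun i _ => Nat.zero_le _) (mem_univ j)
    simp only [sum_const, card_univ, Fintype.card_fin, smul_eq_mul]
    have hj' : μ j ≠ 0 := hj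
    omega
  · intro h0
    refine absurd ?_ h0
    rw [mem_tups]
    exact fun _ => Nat.succ_pos _

lemma term_step (j : Fin m) (μ : Fin m → ℕ) (w : MvPolynomial (Fin m) ℂ) :
    term d h (μ + Pi.single j 1) (X j ^ d * w) = -term d h μ (h j * w) := by
  have e1 : ex d (μ + Pi.single j 1) = Finsupp.single j d + ex d μ := by
    ext i
    simp only [ex, Finsupp.coe_equivFunOnFinite_symm, Pi.add_apply, Finsupp.coe_add]
    by_cases hi : i = j
    · subst hi; simp; ring
    · simp [hi]
  have e2 : ∏ i, (-h i) ^ (μ + Pi.single j 1 : Fin m → ℕ) i = -h j * ∏ i, (-h i) ^ μ i := by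
    simp only [Pi.add_apply, pow_add, prod_mul_distrib]
    rw [mul_comm, prod_eq_single j (fun i _ hi => by simp [hi]) (by simp)]
    simp
  rw [term, term, e1, e2, X_pow_eq_monomial, mul_assoc, coeff_monomial_mul, one_mul, ← coeff_neg]
  congr 1
  ring

lemma τ_f (hh : ∀ j, (h j).totalDegree < d) (j : Fin m) (w : MvPolynomial (Fin m) ℂ) :
    τ hh ((X j ^ d + h j) * w) = 0 := by
  classical
  set B := max (X j ^ d * w).totalDegree (h j * w).totalDegree + 1 with hB
  have b1 : (X j ^ d * w).totalDegree < B + 1 := by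
    have := le_max_left (X j ^ d * w).totalDegree (h j * w).totalDegree; omega
  have b2 : (h j * w).totalDegree < B := Nat.lt_succ_of_le (le_max_right _ _)
  rw [add_mul, map_add, τ_eq hh b1, τ_eq hh b2, tau_eq, tau_eq, add_eq_zero_iff_eq_neg,
    ← sum_neg_distrib]
  symm
  refine sum_of_injOn (fun μ => μ + Pi.single j 1) (fun _ _ _ _ h => add_right_cancel h) ?_ ?_
    fun μ _ => (term_step j μ w).symm
  · intro μ hμ
    rw [mem_coe, mem_tups] at hμ ⊢
    intro i
    have := hμ i
    have h1 : (Pi.single j 1 : Fin m → ℕ) i ≤ 1 := by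
      by_cases hi : i = j
      · subst hi; simp
      · simp [hi]
    simp only [Pi.add_apply] at this ⊢
    omega
  · intro ν _ hν
    by_cases h0 : ν j = 0
    · rw [term, X_pow_eq_monomial, mul_assoc, coeff_monomial_mul', if_neg]
      rw [Finsupp.single_le_iff]
      have := hh j
      simp only [ex, Finsupp.coe_equivFunOnFinite_symm, h0]
      omega
    · obtain ⟨μ, rfl⟩ : ∃ μ : Fin m → ℕ, ν = μ + Pi.single j 1 := by
        refine ⟨fun i => ν i - (Pi.single j 1 : Fin m → ℕ) i, ?_⟩
        funext i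
        by_cases hi : i = j
        · subst hi; simp; omega
        · simp [hi]
      rw [term_step, term_zero' hh b2, neg_zero]
      intro hμ
      exact hν ⟨μ, hμ, rfl⟩

/-- the extension of `τ` to polynomials with polynomial coefficients -/
noncomputable def T (hh : ∀ j, (h j).totalDegree < d) :
    MvPolynomial (Fin m) (MvPolynomial (Fin m) ℂ) →ₗ[MvPolynomial (Fin m) ℂ] MvPolynomial (Fin m) ℂ :=
  (basisMonomials (Fin m) (MvPolynomial (Fin m) ℂ)).constr (MvPolynomial (Fin m) ℂ)
    fun b => C (τ hh (monomial b 1))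

lemma T_monomial (hh : ∀ j, (h j).totalDegree < d) (b : Fin m →₀ ℕ) (c : MvPolynomial (Fin m) ℂ) :
    T hh (monomial b c) = c * C (τ hh (monomial b 1)) := by
  have e : monomial b c = c • basisMonomials (Fin m) (MvPolynomial (Fin m) ℂ) b := by
    simp [smul_monomial]
  rw [e, map_smul, T, Module.Basis.constr_basis, smul_eq_mul]

lemma T_map (hh : ∀ j, (h j).totalDegree < d) (q : MvPolynomial (Fin m) ℂ) :
    T hh (map C q) = C (τ hh q) := by
  induction q using MvPolynomial.induction_on' with
  | monomial b c =>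
    have e : monomial b c = c • monomial b (1 : ℂ) := by simp [smul_monomial]
    rw [map_monomial, T_monomial, e, map_smul, smul_eq_mul, map_mul]
  | add p q hp hq => simp only [map_add, hp, hq]

lemma T_monomial_mul (hh : ∀ j, (h j).totalDegree < d) (b : Fin m →₀ ℕ)
    (c w : MvPolynomial (Fin m) ℂ) :
    T hh (monomial b c * map C w) = c * C (τ hh (monomial b 1 * w)) := by
  have e : monomial b c * map C w = c • map C (monomial b 1 * w) := by
    rw [map_mul, map_monomial, map_one, ← smul_mul_assoc, smul_monomial, smul_eq_mul, mul_one]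
  rw [e, map_smul, T_map, smul_eq_mul]

lemma T_f (hh : ∀ j, (h j).totalDegree < d) (j : Fin m)
    (G : MvPolynomial (Fin m) (MvPolynomial (Fin m) ℂ)) : T hh (G * map C (X j ^ d + h j)) = 0 := by
  induction G using MvPolynomial.induction_on' with
  | monomial b c => rw [T_monomial_mul, mul_comm (monomial b 1), τ_f, map_zero, mul_zero]
  | add p q hp hq => rw [add_mul, map_add, hp, hq, add_zero]

lemma T_low (hh : ∀ j, (h j).totalDegree < d) {G : MvPolynomial (Fin m) (MvPolynomial (Fin m) ℂ)}
    (hG : G ∈ Low _ (Fin m) (m * (d - 1))) : T hh G = 0 := by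
  rw [G.as_sum, map_sum]
  refine sum_eq_zero fun b hb => ?_
  rw [T_monomial, τ_low hh (Low_monomial ?_ _), map_zero, mul_zero]
  by_contra hc
  exact (mem_support_iff.mp hb) (hG b (not_lt.mp hc))

lemma exists_bez (hh : ∀ j, (h j).totalDegree < d) :
    ∃ Δ : MvPolynomial (Fin m) (MvPolynomial (Fin m) ℂ), Δ ∈ Low _ (Fin m) (m * d + 1) ∧
      eval X Δ = jac d h ∧
      ∀ w : MvPolynomial (Fin m) ℂ, ∃ G : Fin m → MvPolynomial (Fin m) ℂ,
        w = T hh (Δ * map C w) + ∑ i, (X i ^ d + h i) * G i := by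
  classical
  have hDD : ∀ i, h i ∈ DD ℂ (Fin m) (d - 1) := fun i =>
    DD_of_Low (Low_of_deg (by have := hh i; omega))
  choose Δ h1 h2 h3 using hDD
  let D : Matrix (Fin m) (Fin m) (MvPolynomial (Fin m) (MvPolynomial (Fin m) ℂ)) :=
    Matrix.diagonal fun i => X i ^ (d - 1)
  let g : Fin m → MvPolynomial (Fin m) (MvPolynomial (Fin m) ℂ) := fun i =>
    ∑ s ∈ range d, C (X i) ^ s * X i ^ (d - 1 - s)
  let L : Matrix (Fin m) (Fin m) (MvPolynomial (Fin m) (MvPolynomial (Fin m) ℂ)) :=
    Matrix.of fun i j => (if i = j then g i - X i ^ (d - 1) else 0) + Δ i j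
  have hDL : ∀ i j, (D + L) i j = (if i = j then g i else 0) + Δ i j := by
    intro i j
    simp only [D, L, Matrix.add_apply, Matrix.diagonal_apply, Matrix.of_apply]
    split_ifs <;> ring
  have hD : ∀ i j, D i j ∈ Low _ (Fin m) (d - 1 + 1) := by
    intro i j
    simp only [D, Matrix.diagonal_apply]
    split_ifs
    · exact Low_X_pow _ (Nat.lt_succ_self _)
    · exact zero_mem _
  have hL : ∀ i j, L i j ∈ Low _ (Fin m) (d - 1) := by
    intro i j
    refine add_mem ?_ (h3 i j)
    split_ifs
    · have := hh i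
      obtain ⟨e, rfl⟩ : ∃ e, d = e + 1 := ⟨d - 1, by omega⟩
      simp only [g, sum_range_succ', pow_zero, one_mul, Nat.add_sub_cancel, Nat.sub_zero,
        add_sub_cancel_right]
      refine sum_mem fun s hs => ?_
      rw [← map_pow]
      have := mem_range.mp hs
      exact Low_C_mul _ (Low_X_pow _ (by omega))
    · exact zero_mem _
  have hsub := Low_det_sub (d - 1) D L hD hL
  rw [Fintype.card_fin] at hsub
  have hT : T hh (D + L).det = 1 := by
    have e : (D + L).det = map C (∏ j, X j ^ (d - 1)) + ((D + L).det - D.det) := by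
      simp [D]
    rw [e, map_add, T_low hh hsub, T_map, τ_top, add_zero, C_1]
  refine ⟨(D + L).det, ?_, ?_, ?_⟩
  · have := Low_det (d - 1) (D + L)
      (fun i j => add_mem (hD i j) (Low_mono (Nat.le_succ _) (hL i j)))
    rw [Fintype.card_fin] at this
    exact Low_mono (Nat.succ_le_succ (Nat.mul_le_mul_left _ (Nat.sub_le _ _))) this
  · rw [RingHom.map_det, jac]
    congr 1
    ext1 i j
    rw [RingHom.mapMatrix_apply, Matrix.map_apply, hDL, map_add, h2, Matrix.of_apply, map_add]
    congr 1
    rw [pderiv_pow, pderiv_X]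
    by_cases hij : i = j
    · subst hij
      simp only [if_true, g, map_sum, map_mul, map_pow, eval_C, eval_X, Pi.single_eq_same, mul_one]
      exact geom_sum₂_self _ _
    · simp [hij]
  · intro w
    obtain ⟨Δw, hw, -⟩ : w ∈ DD ℂ (Fin m) w.totalDegree := DD_of_Low (Low_of_deg (Nat.lt_succ_self _))
    let v : Fin m → MvPolynomial (Fin m) (MvPolynomial (Fin m) ℂ) := fun j => C (X j) - X j
    let F : Fin m → MvPolynomial (Fin m) (MvPolynomial (Fin m) ℂ) := fun i =>
      C (X i ^ d + h i) - map C (X i ^ d + h i)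
    have hMv : (D + L).mulVec v = F := by
      funext i
      simp only [Matrix.mulVec, dotProduct, hDL, add_mul, sum_add_distrib, ite_mul, zero_mul,
        sum_ite_eq, mem_univ, if_true, v, F, ← h1, g, geom_sum₂_mul, map_add, map_pow, map_X]
      ring
    have hadj : ∀ j, (D + L).det * v j = ∑ i, (D + L).adjugate j i * F i := by
      intro j
      have := congrFun (congrArg (D + L).adjugate.mulVec hMv) j
      rw [Matrix.mulVec_mulVec, Matrix.adjugate_mul, Matrix.smul_mulVec, Matrix.one_mulVec] at this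
      exact this
    have key : (D + L).det * (C w - map C w) =
        ∑ i, (∑ j, Δw j * (D + L).adjugate j i) * F i := by
      rw [hw, mul_sum]
      simp only [sum_mul]
      rw [sum_comm]
      refine sum_congr rfl fun j _ => ?_
      rw [mul_left_comm]
      change Δw j * ((D + L).det * v j) = _
      rw [hadj, mul_sum]
      exact sum_congr rfl fun i _ => by ring
    refine ⟨fun i => T hh (∑ j, Δw j * (D + L).adjugate j i), ?_⟩
    have h5 := congrArg (T hh) key
    have hC : ∀ (G : MvPolynomial (Fin m) (MvPolynomial (Fin m) ℂ)) (c : MvPolynomial (Fin m) ℂ),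
        T hh (G * C c) = c * T hh G := by
      intro G c
      rw [mul_comm, C_mul', map_smul, smul_eq_mul]
    rw [mul_sub, map_sub, hC, hT, mul_one, map_sum] at h5
    simp only [F, mul_sub, map_sub, hC, T_f, sub_zero] at h5
    rw [← h5]
    ring

lemma exists_dual (hh : ∀ j, (h j).totalDegree < d) :
    ∃ (x c : ↥(tups m (fun _ => m * d + 1)) → MvPolynomial (Fin m) ℂ),
      ∑ a, c a * x a = jac d h ∧
      ∀ ℓ : MvPolynomial (Fin m) ℂ →ₗ[ℂ] ℂ, (∀ i G, ℓ ((X i ^ d + h i) * G) = 0) →
        ∀ w, ℓ w = ∑ a, ℓ (c a) * τ hh (x a * w) := by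
  classical
  obtain ⟨Δ, h1, h2, h3⟩ := exists_bez hh
  have e : Δ = ∑ a : ↥(tups m (fun _ => m * d + 1)),
      monomial (Finsupp.equivFunOnFinite.symm a.1) (coeff (Finsupp.equivFunOnFinite.symm a.1) Δ) := by
    rw [sum_coe_sort (tups m (fun _ => m * d + 1)) (fun a =>
      monomial (Finsupp.equivFunOnFinite.symm a) (coeff (Finsupp.equivFunOnFinite.symm a) Δ))]
    conv_lhs => rw [Δ.as_sum]
    refine sum_of_injOn (fun b => ⇑b) (fun _ _ _ _ h => DFunLike.coe_injective h) ?_ ?_
      fun b _ => by simp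
    · intro b hb
      rw [mem_coe, mem_tups]
      intro i
      have hb' : b.degree < m * d + 1 := by
        by_contra hc
        exact (mem_support_iff.mp hb) (h1 b (not_lt.mp hc))
      rw [Finsupp.degree_eq_sum] at hb'
      exact (single_le_sum (f := b) (fun i _ => Nat.zero_le _) (mem_univ i)).trans_lt hb'
    · intro a _ ha
      have : coeff (Finsupp.equivFunOnFinite.symm a) Δ = 0 := by
        by_contra hc
        exact ha ⟨_, mem_support_iff.mpr hc, by simp⟩
      rw [this, map_zero]
  refine ⟨fun a => monomial (Finsupp.equivFunOnFinite.symm a.1) 1,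
    fun a => coeff (Finsupp.equivFunOnFinite.symm a.1) Δ, ?_, ?_⟩
  · rw [← h2]
    conv_rhs => rw [e, map_sum]
    refine sum_congr rfl fun a _ => ?_
    simp only []
    rw [eval_monomial, monomial_eq, C_1, one_mul]
  · intro ℓ hℓ w
    obtain ⟨G, hG⟩ := h3 w
    conv_lhs => rw [hG, e]
    simp only [map_add, map_sum, hℓ, sum_const_zero, add_zero, sum_mul, T_monomial_mul]
    refine sum_congr rfl fun a _ => ?_
    rw [mul_comm, C_mul', map_smul, smul_eq_mul, mul_comm]

end res

end TraceAux

open Crest.Agent.PT Crest.Agent.QC Crest.Agent.R317 Polynomial Finset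

variable {α β : Type} [Enc α] [Enc β]

private theorem trace_det_aeval {n : Type} [Fintype n] [DecidableEq n] (M : Matrix n n ℂ) (p : ℂ[X]) :
    (aeval M p).det = (M.charpoly.roots.map (fun z => p.eval z)).prod := by
  have hs := IsAlgClosed.splits M.charpoly
  have hcard : M.charpoly.roots.card = Fintype.card n := by
    rw [← hs.natDegree_eq_card_roots, Matrix.charpoly_natDegree_eq_dim]
  have hp : p ∈ Submonoid.closure ({C a | a : ℂ} ∪ {X + C a | a : ℂ}) := IsAlgClosed.splits p
  induction hp using Submonoid.closure_induction with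
  | mem q hq =>
    rcases hq with ⟨a, rfl⟩ | ⟨a, rfl⟩
    · simp [hcard, Algebra.algebraMap_eq_smul_one]
    · have h1 := hs.eval_eq_prod_roots_of_monic M.charpoly_monic (-a)
      rw [Matrix.eval_charpoly] at h1
      have e : aeval M (X + C a) = -(Matrix.scalar n (-a) - M) := by
        simp only [map_add, aeval_X, aeval_C, map_neg, neg_sub, sub_neg_eq_add]
        rfl
      have e2 : (fun z => (X + C a).eval z) = fun z : ℂ => -1 * (-a - z) := by
        funext z; simp
      rw [e, Matrix.det_neg, h1, e2, Multiset.prod_map_mul, Multiset.map_const', Multiset.prod_replicate,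
        hcard]
  | one => simp
  | mul p q _ _ hp hq => simp only [map_mul, Matrix.det_mul, hp, hq, eval_mul, Multiset.prod_map_mul]

/-- Eigenvalues with multiplicity: power sums are traces of powers. (Induction on the dimension
with an eigenvector, or the decomposition into generalised eigenspaces, or
`Matrix.charpolyRev` and the logarithmic derivative of `det (1 - X • M)`.) -/
theorem sum_pow_roots {n : Type} [Fintype n] [DecidableEq n] (M : Matrix n n ℂ) (k : ℕ) :
    (M.charpoly.roots.map (· ^ k)).sum = (M ^ k).trace := by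
  have e : (M ^ k).charpoly = ((M.charpoly.roots.map (· ^ k)).map (X - C ·)).prod := by
    refine Polynomial.funext fun t => ?_
    have h := trace_det_aeval M (C t - X ^ k)
    simp only [map_sub, aeval_C, map_pow, aeval_X, eval_sub, eval_C, eval_pow, eval_X] at h
    rw [Matrix.eval_charpoly, eval_multiset_prod, Multiset.map_map, Multiset.map_map]
    simp only [Function.comp_def, eval_sub, eval_X, eval_C]
    exact h
  rw [Matrix.trace_eq_sum_roots_charpoly, e, roots_multiset_prod_X_sub_C]

theorem jac_deg {m d : ℕ} {h : Fin m → MvPolynomial (Fin m) ℂ}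
    (hh : ∀ j, (h j).totalDegree < d) : (jac d h).totalDegree ≤ m * d := by
  refine TraceAux.deg_of_Low ?_
  have := TraceAux.Low_det d
    (Matrix.of fun i j => MvPolynomial.pderiv j (MvPolynomial.X i ^ d + h i)) (fun i j =>
      TraceAux.Low_pderiv (add_mem (TraceAux.Low_X_pow i (Nat.lt_succ_self d))
        (TraceAux.Low_of_deg ((hh i).trans (Nat.lt_succ_self d)))) j)
  rwa [Fintype.card_fin] at this

theorem trace_formula {m d : ℕ} {h : Fin m → MvPolynomial (Fin m) ℂ}
    (hh : ∀ j, (h j).totalDegree < d) (u : MvPolynomial (Fin m) ℂ) :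
    ∃ g : ℕ → ℂ,
      (∀ z : Fin m → ℂ, (∀ j, z j ^ d + MvPolynomial.eval z (h j) = 0) →
        ∃ k < (m * d + 1) ^ m, g k = MvPolynomial.eval z u) ∧
      ∀ k B, 1 ≤ k → (u ^ k * jac d h).totalDegree < B →
        ∑ i ∈ range ((m * d + 1) ^ m), g i ^ k = tau d h B (u ^ k * jac d h) := by
  classical
  obtain ⟨x, c, hj, hℓ⟩ := TraceAux.exists_dual hh
  let N : MvPolynomial (Fin m) ℂ → Matrix (tups m (fun _ => m * d + 1)) (tups m (fun _ => m * d + 1)) ℂ :=
    fun g => Matrix.of fun a b => TraceAux.τ hh (x a * g * c b)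
  have hmul : ∀ g g', N g * N g' = N (g * g') := by
    intro g g'
    ext a b
    have := hℓ ((TraceAux.τ hh).comp (LinearMap.mulLeft ℂ (x a * g))) (fun i G => by
      rw [LinearMap.comp_apply, LinearMap.mulLeft_apply, mul_left_comm, TraceAux.τ_f]) (g' * c b)
    simp only [LinearMap.comp_apply, LinearMap.mulLeft_apply] at this
    simp only [N, Matrix.mul_apply, Matrix.of_apply, mul_assoc] at this ⊢
    exact this.symm
  have hpow : ∀ k, N u ^ (k + 1) = N (u ^ (k + 1)) := by
    intro k
    induction k with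
    | zero => simp
    | succ k ih => rw [pow_succ, ih, hmul, ← pow_succ]
  have htr : ∀ g, (N g).trace = TraceAux.τ hh (g * jac d h) := by
    intro g
    rw [← hj, mul_sum, map_sum]
    refine sum_congr rfl fun a _ => ?_
    simp only [N, Matrix.diag_apply, Matrix.of_apply]
    congr 1
    ring
  have hcard : (N u).charpoly.roots.toList.length = (m * d + 1) ^ m := by
    rw [Multiset.length_toList, ← (IsAlgClosed.splits _).natDegree_eq_card_roots,
      Matrix.charpoly_natDegree_eq_dim, Fintype.card_coe]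
    simp [tups]
  refine ⟨fun i => (N u).charpoly.roots.toList.getD i 0, fun z hz => ?_, fun k B hk hB => ?_⟩
  · have hz' := hℓ (MvPolynomial.aeval z).toLinearMap (fun i G => by
      simp [MvPolynomial.coe_aeval_eq_eval, hz i])
    simp only [AlgHom.toLinearMap_apply, MvPolynomial.coe_aeval_eq_eval, RingHom.coe_coe,
      MvPolynomial.aeval_eq_eval] at hz'
    have hne : (fun a => MvPolynomial.eval z (c a)) ≠ 0 := by
      intro h0
      have := hz' 1
      simp [fun a => congrFun h0 a] at this
    have hev : Matrix.vecMul (fun a => MvPolynomial.eval z (c a))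
        (Matrix.scalar _ (MvPolynomial.eval z u) - N u) = 0 := by
      funext b
      have := hz' (u * c b)
      rw [Matrix.vecMul_sub, Matrix.scalar_apply, Pi.sub_apply, Matrix.vecMul_diagonal]
      simp only [Matrix.vecMul, dotProduct, N, Matrix.of_apply, mul_assoc, Pi.zero_apply]
      rw [← this, map_mul]
      ring
    have hroot : MvPolynomial.eval z u ∈ (N u).charpoly.roots.toList := by
      rw [Multiset.mem_toList, mem_roots (N u).charpoly_monic.ne_zero, IsRoot, Matrix.eval_charpoly]
      exact Matrix.exists_vecMul_eq_zero_iff.mp ⟨_, hne, hev⟩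
    obtain ⟨i, hi, hie⟩ := List.mem_iff_getElem.mp hroot
    exact ⟨i, hcard ▸ hi, (List.getD_eq_getElem _ _ hi).trans hie⟩
  · obtain ⟨k, rfl⟩ : ∃ k', k = k' + 1 := ⟨k - 1, by omega⟩
    rw [← TraceAux.τ_eq hh hB, ← htr, ← hpow, ← sum_pow_roots, ← hcard]
    generalize (N u).charpoly.roots = s
    conv_rhs => rw [← Multiset.coe_toList s]
    generalize s.toList = l
    rw [Multiset.map_coe, Multiset.sum_coe, sum_range, ← List.sum_ofFn]
    congr 1
    refine List.ext_getElem (by simp) fun i h1 h2 => ?_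
    simp at h1
    simp [h1]

end Crest.Agent.R316
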