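import Crest.Agent.R316.RF
import Crest.Agent.R316.Trace

/-!
Row 316, task ELIM: elimination for the critical-point system.

Plan. Take `G`, `d₀` from `CP.mslice m hF`, `d = 2 d₀ + 1`, and for a parameter point
`x' = cs lam x` let `h j = C (x' 0) * pderiv j (G a (tl x'))` (total degree `< d`). For `i < m a` let
`g a i x'` be given by `trace_formula` for `u = X i` (any value, e.g. use `u = 0`, for `i ≥ m a`:
put `u = if h : i < m a then X ⟨i, h⟩ else 0`). With `B = k + m d + 1` the power sum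
`tau d h B (u^k * jac) = ∑_{y < B^m} coeff (d * dg B y j + (d-1)) (u^k * jac * ∏ (-h j)^(dg B y j))`
(`sum_dg`) is `CP` by `CP.sum` and `CP.coeffM`: the value of that polynomial at `app m y x'` is
built from `CP.D`, `CP.det`, `eval_pderiv` (`RingHom.map_det`; the entries are
`(if i = j then d * z i ^ (d-1) else 0) + z m * D j (D i F) (app m z (sh (m+1) z))`, where
`eval_pderiv` is used twice). For `k = 0` the power sum is the cardinality. Then `prod_of_psum`
gives `χ a i x' = ∏ (X - C (g a i x' k))`.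
-/

set_option autoImplicit false
set_option linter.dupNamespace false

namespace Crest.Agent.R316

open Crest.Agent.PT Crest.Agent.QC Crest.Agent.R317 Polynomial Finset

variable {α β : Type} [Enc α] [Enc β]

private theorem elim_deg_pderiv {m : ℕ} (j : Fin m) (p : MvPolynomial (Fin m) ℂ) :
    (MvPolynomial.pderiv j p).totalDegree ≤ p.totalDegree := by
  classical
  conv_lhs => rw [p.as_sum, map_sum]
  refine MvPolynomial.totalDegree_finsetSum_le fun s hs => ?_
  rw [MvPolynomial.pderiv_monomial]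
  refine (MvPolynomial.totalDegree_monomial_le _ _).trans ?_
  refine le_trans ?_ (MvPolynomial.le_totalDegree hs)
  change (s - Finsupp.single j 1).degree ≤ s.degree
  exact Finsupp.degree_mono tsub_le_self

/-- the lower-order parts of the critical-point system. -/
private noncomputable def elimH {m : ℕ} (G : Pt → MvPolynomial (Fin m) ℂ) (x : Pt) (j : Fin m) :
    MvPolynomial (Fin m) ℂ :=
  MvPolynomial.C (x 0) * MvPolynomial.pderiv j (G (tl x))

private noncomputable def elimU (m i : ℕ) : MvPolynomial (Fin m) ℂ :=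
  if h : i < m then MvPolynomial.X ⟨i, h⟩ else 0

private theorem elimU_deg (m i : ℕ) : (elimU m i).totalDegree ≤ 1 := by
  unfold elimU
  split_ifs
  · simp
  · simp

private theorem elimH_deg {m : ℕ} (G : Pt → MvPolynomial (Fin m) ℂ) (x : Pt) (j : Fin m) :
    (elimH G x j).totalDegree ≤ (G (tl x)).totalDegree := by
  unfold elimH
  refine (MvPolynomial.totalDegree_mul _ _).trans ?_
  rw [MvPolynomial.totalDegree_C, zero_add]
  exact elim_deg_pderiv _ _

private theorem elim_W (m : ℕ) (y x : Pt) :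
    app m (app m y x) (sh (m + 1) (app m y x)) = app m y (tl x) := by
  rw [app_app]
  congr 1
  funext i
  simp only [sh, tl]
  rw [app_ge _ _ (by omega)]
  congr 1
  omega

private theorem elim_m (m : ℕ) (y x : Pt) : app m y x m = x 0 := by
  simpa using app_add m 0 y x

private theorem elimH_eval {m : ℕ} {G : Pt → MvPolynomial (Fin m) ℂ} {f : Pt → ℂ}
    (h : ∀ x y : Pt, MvPolynomial.eval (fun i : Fin m => y i) (G x) = f (app m y x))
    (x y : Pt) (j : Fin m) :
    MvPolynomial.eval (fun i : Fin m => y i) (elimH G x j) = x 0 * D j f (app m y (tl x)) := by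
  unfold elimH
  rw [map_mul, MvPolynomial.eval_C, eval_pderiv (h (tl x))]

private theorem elim_jac_eval {m : ℕ} (d : ℕ) {G : Pt → MvPolynomial (Fin m) ℂ} {f : Pt → ℂ}
    (h : ∀ x y : Pt, MvPolynomial.eval (fun i : Fin m => y i) (G x) = f (app m y x))
    (x y : Pt) :
    MvPolynomial.eval (fun i : Fin m => y i) (jac d (elimH G x)) =
      Matrix.det (Matrix.of fun i j : Fin m =>
        (if (i : ℕ) = j then (d : ℂ) * y i ^ (d - 1) else 0) +
          x 0 * D j (D i f) (app m y (tl x))) := by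
  classical
  unfold jac
  rw [RingHom.map_det]
  congr 1
  ext i j
  simp only [RingHom.mapMatrix_apply, Matrix.map_apply, Matrix.of_apply, map_add]
  congr 1
  · rw [MvPolynomial.pderiv_pow]
    by_cases hij : i = j
    · subst hij
      simp
    · have : (i : ℕ) ≠ j := fun e => hij (Fin.ext e)
      simp [this, MvPolynomial.pderiv_X, hij]
  · unfold elimH
    rw [MvPolynomial.pderiv_C_mul, map_mul, MvPolynomial.eval_C,
      eval_pderiv (f := D i f) (x := tl x) (fun y => eval_pderiv (h (tl x)) i y)]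

theorem elim {F : α → Pt → ℂ} {m : α → ℕ} (hF : CP F) (hm : PT m) :
    ∃ (d : α → ℕ) (χ : α → ℕ → Pt → ℂ[X]), (∀ a, Odd (d a)) ∧
      CX (fun p : α × ℕ => χ p.1 p.2) ∧ (∀ a i x, (χ a i x).Monic) ∧
      ∀ a (lam : ℂ) (y x : Pt),
        (∀ j < m a, y j ^ d a + lam * D j (F a) (app (m a) y x) = 0) →
        ∀ i < m a, (χ a i (cs lam x)).eval (y i) = 0 := by
  classical
  obtain ⟨G, d₀, hd₀, hGd, hG⟩ := CP.mslice m hF
  set d : α → ℕ := fun a => 2 * d₀ a + 1 with hd
  have hdB : BT d := by rw [hd]; fun_prop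
  have hh : ∀ a x j, (elimH (G a) x j).totalDegree < d a := fun a x j => by
    have h1 := elimH_deg (G a) x j
    have h2 := hGd a (tl x)
    simp only [hd]; omega
  choose g hg1 hg2 using fun a (i : ℕ) (x : Pt) => trace_formula (hh a x) (elimU (m a) i)
  have hW : CV (fun a z => app (m a) z (sh (m a + 1) z)) :=
    CV.app hm CV.id (CV.sh (m := fun a => m a + 1) (by fun_prop) CV.id)
  have hD1 : CP (fun p : α × ℕ => fun z => D p.2 (F p.1) z) :=
    CP.D (F := fun p : α × ℕ => F p.1) (j := fun p => p.2) (hF.comp (by fun_prop)) (by fun_prop)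
  have hD2 : CP (fun p : α × ℕ × ℕ => fun z => D p.2.2 (D p.2.1 (F p.1)) z) :=
    CP.D (F := fun p : α × ℕ × ℕ => D p.2.1 (F p.1)) (j := fun p => p.2.2)
      (hD1.comp (f := fun p : α × ℕ × ℕ => (p.1, p.2.1)) (by fun_prop)) (by fun_prop)
  have hH : CP (fun p : α × ℕ => fun z =>
      z (m p.1) * D p.2 (F p.1) (app (m p.1) z (sh (m p.1 + 1) z))) :=
    (CP.var (i := fun p : α × ℕ => m p.1) (by fun_prop)).mul
      (hD1.at (hW.comp (f := fun p : α × ℕ => p.1) (by fun_prop)))
  have hA : CP (fun p : α × ℕ × ℕ => fun z =>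
      (if p.2.1 = p.2.2 then (d p.1 : ℂ) * z p.2.1 ^ (d p.1 - 1) else 0) +
        z (m p.1) * D p.2.2 (D p.2.1 (F p.1)) (app (m p.1) z (sh (m p.1 + 1) z))) := by
    refine CP.add (CP.ite (CD.ofDT (by fun_prop)) (CP.mul (CP.natB (by fun_prop))
      (CP.pow (CP.var (i := fun p : α × ℕ × ℕ => p.2.1) (by fun_prop)) (by fun_prop))) CP.zero) ?_
    exact (CP.var (i := fun p : α × ℕ × ℕ => m p.1) (by fun_prop)).mul
      (hD2.at (hW.comp (f := fun p : α × ℕ × ℕ => p.1) (by fun_prop)))
  have hJ := CP.det (A := fun a i j z =>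
      (if i = j then (d a : ℂ) * z i ^ (d a - 1) else 0) +
        z (m a) * D j (D i (F a)) (app (m a) z (sh (m a + 1) z))) hm hA
  have hU : CP (fun p : α × ℕ => fun z : Pt => if p.2 < m p.1 then z p.2 else 0) :=
    CP.ite (CD.ofDT (by fun_prop)) (CP.var (by fun_prop)) CP.zero
  -- the polynomial whose coefficient is taken
  have hP : CP (fun r : ((α × ℕ) × Bin) × Bin => fun z : Pt =>
      ∏ j ∈ range (m r.1.1.1),
        (-(z (m r.1.1.1) * D j (F r.1.1.1) (app (m r.1.1.1) z (sh (m r.1.1.1 + 1) z)))) ^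
          dg (r.1.2.val + m r.1.1.1 * d r.1.1.1 + 1) r.2.val j) := by
    refine CP.prodU (n := fun r : ((α × ℕ) × Bin) × Bin => m r.1.1.1) (by fun_prop) ?_
    refine CP.pow (CP.neg (hH.comp
      (f := fun t : (((α × ℕ) × Bin) × Bin) × ℕ => (t.1.1.1.1, t.2)) (by fun_prop))) ?_
    fun_prop
  have hV := ((CP.pow (k := fun r : ((α × ℕ) × Bin) × Bin => r.1.2.val)
      (hU.comp (f := fun r : ((α × ℕ) × Bin) × Bin => r.1.1) (by fun_prop)) (by fun_prop)).mul
      (hJ.comp (f := fun r : ((α × ℕ) × Bin) × Bin => r.1.1.1) (by fun_prop))).mul hP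
  have hC := CP.coeffM (m := fun r : ((α × ℕ) × Bin) × Bin => m r.1.1.1)
    (G := fun r x => elimU (m r.1.1.1) r.1.1.2 ^ r.1.2.val *
      jac (d r.1.1.1) (elimH (G r.1.1.1) x) *
      ∏ j : Fin (m r.1.1.1), (-elimH (G r.1.1.1) x j) ^
        dg (r.1.2.val + m r.1.1.1 * d r.1.1.1 + 1) r.2.val j)
    (e := fun r j => d r.1.1.1 * dg (r.1.2.val + m r.1.1.1 * d r.1.1.1 + 1) r.2.val j +
      (d r.1.1.1 - 1)) (by fun_prop) hV (by
      rintro ⟨⟨⟨a, i⟩, k⟩, y'⟩ x y
      simp only [map_mul, map_pow, map_prod, map_neg]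
      rw [elim_jac_eval (d a) (hG a), elim_W, elim_m, ← Fin.prod_univ_eq_prod_range
        (fun j => (-(x 0 * D j (F a) (app (m a) y (tl x)))) ^ dg (k.val + m a * d a + 1) y'.val j)]
      congr 1
      · congr 1
        · congr 1
          unfold elimU
          split_ifs with hi
          · rw [MvPolynomial.eval_X, app_lt _ _ hi]
          · simp
        · simp only [app_fin]
      · refine Finset.prod_congr rfl fun j _ => ?_
        rw [elimH_eval (hG a)]) (by fun_prop)
  have hS := CP.sum (B := fun q : (α × ℕ) × Bin => (q.2.val + m q.1.1 * d q.1.1 + 1) ^ m q.1.1)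
    (F := fun q y' x => MvPolynomial.coeff (Finsupp.equivFunOnFinite.symm fun j : Fin (m q.1.1) =>
        d q.1.1 * dg (q.2.val + m q.1.1 * d q.1.1 + 1) y' j + (d q.1.1 - 1))
      (elimU (m q.1.1) q.1.2 ^ q.2.val * jac (d q.1.1) (elimH (G q.1.1) x) *
      ∏ j : Fin (m q.1.1), (-elimH (G q.1.1) x j) ^
        dg (q.2.val + m q.1.1 * d q.1.1 + 1) y' j)) (by fun_prop) hC
  have hN : BT (fun a => (m a * d a + 1) ^ m a) := by fun_prop
  have hPS : CP (fun q : (α × ℕ) × Bin => fun x =>
      ∑ i ∈ range ((m q.1.1 * d q.1.1 + 1) ^ m q.1.1), g q.1.1 q.1.2 x i ^ q.2.val) := by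
    refine (CP.ite (P := fun q : (α × ℕ) × Bin => q.2.val = 0) (CD.ofDT (by fun_prop))
      (CP.natB (c := fun q : (α × ℕ) × Bin => (m q.1.1 * d q.1.1 + 1) ^ m q.1.1) (by fun_prop))
      hS).congr ?_
    rintro ⟨⟨a, i⟩, ⟨k⟩⟩ x
    dsimp only
    split_ifs with hk
    · subst hk; simp
    · rw [hg2 a i x k (k + m a * d a + 1) (by omega)]
      · unfold tau
        rw [← sum_dg]
      · have h1 := MvPolynomial.totalDegree_mul (elimU (m a) i ^ k) (jac (d a) (elimH (G a) x))
        have h2 := MvPolynomial.totalDegree_pow (elimU (m a) i) k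
        have h3 := jac_deg (hh a x)
        have h4 := Nat.mul_le_mul_left k (elimU_deg (m a) i)
        omega
  have hχ := prod_of_psum (α := α × ℕ) (ι := fun _ => ℕ)
    (s := fun p => range ((m p.1 * d p.1 + 1) ^ m p.1)) (g := fun p x k => g p.1 p.2 x k)
    (by simp only [card_range]; fun_prop) hPS
  refine ⟨d, fun a i x => ∏ k ∈ range ((m a * d a + 1) ^ m a), (X - C (g a i x k)),
    fun a => ⟨d₀ a, rfl⟩, ?_, fun a i x => monic_prod_of_monic _ _ fun k _ => monic_X_sub_C _, ?_⟩
  · refine hχ.congr fun p z => ?_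
    simp [eval_prod]
  · intro a lam y x hy i hi
    obtain ⟨k, hk, e⟩ := hg1 a i (cs lam x) (fun j => y j) (fun j => by
      rw [elimH_eval (hG a)]
      exact hy j j.2)
    rw [eval_prod]
    refine Finset.prod_eq_zero (mem_range.2 hk) ?_
    rw [elimU, dif_pos hi, MvPolynomial.eval_X] at e
    simp [e]

end Crest.Agent.R316
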