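import Crest.Agent.R316.CF
import Crest.Agent.R316.Parse
import Crest.Agent.R316.Interp

/-!
Row 316, task FORM: evaluating the formula for given atom signs is `CD`.

Plan (guess and check). Let `n = |w|`, `r = tk w 0`, `s = tk w 1`. Guess three numbers coding arrays
on the positions `i < n`: `f i = dg 2 F i` (a subformula starts at `i`), `e i = un n (dg (n+1) E i)`
(its end position), `v i = dg 2 V i` (its truth value). The polynomial-time check: `f 2 = 1`,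
`v 2 = 1`, `dt_reencode` with `T = e 2`, and for all `i < n` with `f i = 1`: `i < e i` and
* tag `6` or `7`: `len = tk (i+1)` satisfies `1 ≤ len ≤ n`, `e i = gp w i len`, each gate `t < len` at
  `g = gp w i t` is well formed (tag `0`: sign `0`, or sign `1` with nonzero absolute value; tag `1`:
  index `< r`; tag `2`: index `< s`; tags `3, 4, 5`: both references `< t`), and
  `v i = 1 ↔ sv bp bm i = 0` (resp. `= 1`);
* tag `8` or `9`: `i + 1 < n`, `f (i+1) = 1`, `e (i+1) < n`, `f (e (i+1)) = 1`, `e i = e (e (i+1))`, and the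
  values combine; tag `10`: `i + 1 < n`, `f (i+1) = 1`, `e i = e (i+1)`, negation.
Soundness: by downward induction on `i`, there is a well-formed `φ` with
`e i = i + φ.toNats.length`, `∀ j < φ.toNats.length, tk w (i + j) = φ.toNats.getD j 0` and
`v i = 1 ↔ HA σ φ i`. Completeness: for `w = S.encode`, `l = S.toNats` let `f i = 1` iff some
well-formed `φ.toNats` is a prefix of `l.drop i` (`φ` is unique by `form_prefix_inj`), and use
`exists_dg`-style coding, `tk_flat`, `gp_spec`, `length_le_flat`.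
-/

set_option autoImplicit false
set_option linter.dupNamespace false

namespace Crest.Agent.R316

open Crest.Agent.PT Crest.Agent.QC Crest.Agent.R317 Finset Crest.RealEA

variable {α β : Type} [Enc α] [Enc β]

/-- The tokens from position `i` on start with the list `l`. -/
def fm_M (T : ℕ → ℕ) (i : ℕ) (l : List ℕ) : Prop := ∀ j < l.length, T (i + j) = l.getD j 0

theorem fm_M_nil (T : ℕ → ℕ) (i : ℕ) : fm_M T i [] := by
  intro j hj; simp at hj

theorem fm_M_cons {T : ℕ → ℕ} {i a : ℕ} {l : List ℕ} :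
    fm_M T i (a :: l) ↔ T i = a ∧ fm_M T (i + 1) l := by
  constructor
  · intro h
    refine ⟨by simpa using h 0 (by simp), fun j hj => ?_⟩
    have := h (j + 1) (by simpa using hj)
    rw [List.getD_cons_succ] at this
    rw [← this]; congr 1; omega
  · rintro ⟨h1, h2⟩ j hj
    cases j with
    | zero => simpa using h1
    | succ j =>
      rw [List.getD_cons_succ, ← h2 j (by simpa using hj)]; congr 1; omega

theorem fm_M_append {T : ℕ → ℕ} {l l' : List ℕ} : ∀ {i : ℕ},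
    fm_M T i l → fm_M T (i + l.length) l' → fm_M T i (l ++ l') := by
  induction l with
  | nil => intro i _ h; simpa using h
  | cons a l ih =>
    intro i h h'
    rw [fm_M_cons] at h
    rw [List.cons_append, fm_M_cons]
    refine ⟨h.1, ih h.2 ?_⟩
    have e : i + 1 + l.length = i + (a :: l).length := by simp; omega
    rwa [e]

theorem fm_M_range {T : ℕ → ℕ} {l : List ℕ} (h : fm_M T 0 l) :
    (List.range l.length).map T = l := by
  refine List.ext_getElem (by simp) (fun j h1 h2 => ?_)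
  have := h j h2
  rw [zero_add, List.getD_eq_getElem _ _ h2] at this
  simpa using this

/-- The gate at position `g` is well formed as gate number `t`. -/
def fm_gok (w : Raw) (g t : ℕ) : Prop :=
  (tk w g = 0 ∧ (tk w (g + 1) = 0 ∨ (tk w (g + 1) = 1 ∧ tk w (g + 2) ≠ 0))) ∨
  (tk w g = 1 ∧ tk w (g + 1) < tk w 0) ∨ (tk w g = 2 ∧ tk w (g + 1) < tk w 1) ∨
  ((tk w g = 3 ∨ tk w g = 4 ∨ tk w g = 5) ∧ tk w (g + 1) < t ∧ tk w (g + 2) < t)

/-- A well-formed circuit follows position `i` and ends at `e`. -/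
def fm_circ (w : Raw) (n i e : ℕ) : Prop :=
  1 ≤ tk w (i + 1) ∧ tk w (i + 1) ≤ n ∧ e = gp w i (un n (tk w (i + 1))) ∧
    All (un n (tk w (i + 1))) (fun t => fm_gok w (gp w i t) t)

/-- The local check at position `i`. -/
def fm_loc (w : Raw) (n : ℕ) (e v z : ℕ → ℕ) (i : ℕ) : Prop :=
  (tk w i = 6 ∧ fm_circ w n i (e i) ∧ (v i = 1 ↔ z i = 0)) ∨
  (tk w i = 7 ∧ fm_circ w n i (e i) ∧ (v i = 1 ↔ z i = 1)) ∨
  (tk w i = 8 ∧ i + 1 < n ∧ e (i + 1) ≠ 0 ∧ e (i + 1) < n ∧ e (e (i + 1)) ≠ 0 ∧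
    e i = e (e (i + 1)) ∧ (v i = 1 ↔ v (i + 1) = 1 ∧ v (e (i + 1)) = 1)) ∨
  (tk w i = 9 ∧ i + 1 < n ∧ e (i + 1) ≠ 0 ∧ e (i + 1) < n ∧ e (e (i + 1)) ≠ 0 ∧
    e i = e (e (i + 1)) ∧ (v i = 1 ↔ v (i + 1) = 1 ∨ v (e (i + 1)) = 1)) ∨
  (tk w i = 10 ∧ i + 1 < n ∧ e (i + 1) ≠ 0 ∧ e i = e (i + 1) ∧ (v i = 1 ↔ ¬ v (i + 1) = 1))

/-- The whole check. -/
def fm_chk (w : Raw) (n : ℕ) (e v z : ℕ → ℕ) : Prop :=
  2 < n ∧ e 2 ≠ 0 ∧ v 2 = 1 ∧ ((List.range (e 2)).map (tk w)).flatMap natBits = w.val ∧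
    All n (fun i => e i = 0 ∨ fm_loc w n e v z i)

/-! ### Soundness -/

theorem fm_gate_sound {w : Raw} {g t : ℕ} (h : fm_gok w g t) :
    ∃ a : AGate, a.WF (tk w 0) (tk w 1) t ∧ fm_M (tk w) g a.toNats ∧
      a.toNats.length = gw (tk w g) := by
  rcases h with ⟨h0, h1 | ⟨h1, h2⟩⟩ | ⟨h0, h1⟩ | ⟨h0, h1⟩ | ⟨h0 | h0 | h0, h1⟩
  · refine ⟨AGate.const (tk w (g + 2) : ℤ), trivial, ?_, by simp [AGate.toNats, gw, h0]⟩
    simp only [AGate.toNats, fm_M_cons]
    refine ⟨h0, ?_, by simp, fm_M_nil _ _⟩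
    rw [h1, if_neg (by omega)]
  · refine ⟨AGate.const (-(tk w (g + 2) : ℤ)), trivial, ?_, by simp [AGate.toNats, gw, h0]⟩
    simp only [AGate.toNats, fm_M_cons]
    refine ⟨h0, ?_, by simp, fm_M_nil _ _⟩
    rw [h1, if_pos (by omega)]
  · refine ⟨AGate.varX (tk w (g + 1)), h1, ?_, by simp [AGate.toNats, gw, h0]⟩
    simp only [AGate.toNats, fm_M_cons]
    exact ⟨h0, trivial, fm_M_nil _ _⟩
  · refine ⟨AGate.varY (tk w (g + 1)), h1, ?_, by simp [AGate.toNats, gw, h0]⟩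
    simp only [AGate.toNats, fm_M_cons]
    exact ⟨h0, trivial, fm_M_nil _ _⟩
  · refine ⟨AGate.add (tk w (g + 1)) (tk w (g + 2)), h1, ?_, by simp [AGate.toNats, gw, h0]⟩
    simp only [AGate.toNats, fm_M_cons]
    exact ⟨h0, trivial, trivial, fm_M_nil _ _⟩
  · refine ⟨AGate.sub (tk w (g + 1)) (tk w (g + 2)), h1, ?_, by simp [AGate.toNats, gw, h0]⟩
    simp only [AGate.toNats, fm_M_cons]
    exact ⟨h0, trivial, trivial, fm_M_nil _ _⟩
  · refine ⟨AGate.mul (tk w (g + 1)) (tk w (g + 2)), h1, ?_, by simp [AGate.toNats, gw, h0]⟩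
    simp only [AGate.toNats, fm_M_cons]
    exact ⟨h0, trivial, trivial, fm_M_nil _ _⟩

theorem fm_gates_sound {w : Raw} {i : ℕ} (m : ℕ) (h : ∀ t < m, fm_gok w (gp w i t) t) :
    ∃ b : List AGate, b.length = m ∧ (∀ t (ht : t < b.length), b[t].WF (tk w 0) (tk w 1) t) ∧
      fm_M (tk w) (i + 2) (b.flatMap AGate.toNats) ∧
      gp w i m = i + 2 + (b.flatMap AGate.toNats).length := by
  induction m with
  | zero => exact ⟨[], rfl, by simp, fm_M_nil _ _, rfl⟩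
  | succ m ih =>
    obtain ⟨c, h1, h2, h3, h4⟩ := ih (fun t ht => h t (by omega))
    obtain ⟨a, a1, a2, a3⟩ := fm_gate_sound (h m (by omega))
    refine ⟨c ++ [a], by simp [h1], fun t ht => ?_, ?_, ?_⟩
    · rw [List.getElem_append]
      split_ifs with h5
      · exact h2 t h5
      · have : t = m := by simp at ht; omega
        subst this
        simpa using a1
    · rw [List.flatMap_append]
      refine fm_M_append h3 ?_
      rw [← h4]; simpa using a2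
    · show gp w i m + gw (tk w (gp w i m)) = _
      rw [← a3, h4]; simp; omega

theorem fm_circ_sound {w : Raw} {n i e : ℕ} (h : fm_circ w n i e) :
    ∃ c : List AGate, CircuitWF (tk w 0) (tk w 1) c ∧ fm_M (tk w) (i + 1) (circuitToNats c) ∧
      e = i + 1 + (circuitToNats c).length := by
  obtain ⟨h1, h2, h3, h4⟩ := h
  have hu : un n (tk w (i + 1)) = tk w (i + 1) := min_eq_left h2
  rw [hu] at h3 h4
  obtain ⟨c, c1, c2, c3, c4⟩ := fm_gates_sound _ h4
  refine ⟨c, ⟨?_, fun t => c2 t t.2⟩, ?_, ?_⟩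
  · rintro rfl
    simp at c1; omega
  · rw [circuitToNats, fm_M_cons]
    exact ⟨c1.symm, c3⟩
  · rw [h3, c4, circuitToNats]; simp; omega

theorem fm_loc_sound {w : Raw} {n : ℕ} {e v z : ℕ → ℕ} {σ : ℕ → SignType}
    (h0 : ∀ k, σ k = 0 ↔ z k = 0) (h1 : ∀ k, σ k = 1 ↔ z k = 1)
    (h : ∀ i < n, e i = 0 ∨ fm_loc w n e v z i) (d : ℕ) :
    ∀ i, n - i ≤ d → i < n → e i ≠ 0 → ∃ φ : Form, φ.WF (tk w 0) (tk w 1) ∧
      fm_M (tk w) i φ.toNats ∧ e i = i + φ.toNats.length ∧ (v i = 1 ↔ HA σ φ i) := by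
  induction d with
  | zero => intro i h2 h3; omega
  | succ d ih =>
    intro i hd hi he
    rcases (h i hi).resolve_left he with ⟨t, hc, hv⟩ | ⟨t, hc, hv⟩ |
      ⟨t, a1, a2, a3, a4, a5, hv⟩ | ⟨t, a1, a2, a3, a4, a5, hv⟩ | ⟨t, a1, a2, a3, hv⟩
    · obtain ⟨c, c1, c2, c3⟩ := fm_circ_sound hc
      refine ⟨Form.eqZero c, c1, fm_M_cons.2 ⟨t, c2⟩, ?_, hv.trans (h0 i).symm⟩
      rw [c3]; simp [Form.toNats]; omega
    · obtain ⟨c, c1, c2, c3⟩ := fm_circ_sound hc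
      refine ⟨Form.pos c, c1, fm_M_cons.2 ⟨t, c2⟩, ?_, hv.trans (h1 i).symm⟩
      rw [c3]; simp [Form.toNats]; omega
    · obtain ⟨φ, p1, p2, p3, p4⟩ := ih (i + 1) (by omega) a1 a2
      obtain ⟨ψ, q1, q2, q3, q4⟩ := ih (e (i + 1)) (by omega) a3 a4
      refine ⟨Form.and φ ψ, ⟨p1, q1⟩, fm_M_cons.2 ⟨t, fm_M_append p2 (p3 ▸ q2)⟩, ?_, ?_⟩
      · rw [a5, q3, p3]; simp [Form.toNats]; omega
      · rw [hv, p4, q4, p3]; rfl
    · obtain ⟨φ, p1, p2, p3, p4⟩ := ih (i + 1) (by omega) a1 a2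
      obtain ⟨ψ, q1, q2, q3, q4⟩ := ih (e (i + 1)) (by omega) a3 a4
      refine ⟨Form.or φ ψ, ⟨p1, q1⟩, fm_M_cons.2 ⟨t, fm_M_append p2 (p3 ▸ q2)⟩, ?_, ?_⟩
      · rw [a5, q3, p3]; simp [Form.toNats]; omega
      · rw [hv, p4, q4, p3]; rfl
    · obtain ⟨φ, p1, p2, p3, p4⟩ := ih (i + 1) (by omega) a1 a2
      refine ⟨Form.not φ, p1, fm_M_cons.2 ⟨t, p2⟩, ?_, ?_⟩
      · rw [a3, p3]; simp [Form.toNats]; omega
      · rw [hv, p4]; rfl

theorem fm_sound {w : Raw} {n : ℕ} {e v z : ℕ → ℕ} {σ : ℕ → SignType}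
    (h0 : ∀ k, σ k = 0 ↔ z k = 0) (h1 : ∀ k, σ k = 1 ↔ z k = 1) (h : fm_chk w n e v z) :
    Phi w σ := by
  obtain ⟨a1, a2, a3, a4, a5⟩ := h
  obtain ⟨φ, p1, p2, p3, p4⟩ := fm_loc_sound h0 h1 a5 n 2 (by omega) a1 a2
  refine ⟨⟨tk w 0, tk w 1, φ⟩, p1, ?_, p4.1 a3⟩
  have hM : fm_M (tk w) 0 (tk w 0 :: tk w 1 :: φ.toNats) :=
    fm_M_cons.2 ⟨rfl, fm_M_cons.2 ⟨rfl, p2⟩⟩
  have := fm_M_range hM
  rw [← a4, Sentence.encode, Sentence.toNats, ← this, p3]
  congr 3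
  simp; omega

/-! ### Completeness -/

theorem fm_drop_cons {l m : List ℕ} {i a : ℕ} (h : l.drop i = a :: m) :
    l.getD i 0 = a ∧ l.drop (i + 1) = m ∧ i < l.length := by
  have hi : i < l.length := by
    by_contra h1
    rw [List.drop_eq_nil_of_le (by omega)] at h
    cases h
  rw [List.drop_eq_getElem_cons hi] at h
  injection h with h1 h2
  exact ⟨by rw [List.getD_eq_getElem _ _ hi, h1], h2, hi⟩

theorem fm_drop_append {l m m' : List ℕ} {i : ℕ} (h : l.drop i = m ++ m') :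
    l.drop (i + m.length) = m' := by
  rw [← List.drop_drop, h, List.drop_left]

theorem fm_drop_len {l m m' : List ℕ} {i : ℕ} (h : l.drop i = m ++ m') (hi : i ≤ l.length) :
    i + m.length ≤ l.length := by
  have := congrArg List.length h
  simp at this; omega

theorem fm_toNats_cons (φ : Form) : ∃ a m, φ.toNats = a :: m := by
  cases φ <;> exact ⟨_, _, rfl⟩

theorem fm_len_le (c : List AGate) : c.length ≤ (c.flatMap AGate.toNats).length := by
  induction c with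
  | nil => simp
  | cons a c ih =>
    have : 1 ≤ a.toNats.length := by cases a <;> simp [AGate.toNats]
    simp only [List.flatMap_cons, List.length_append, List.length_cons]; omega

theorem fm_gate_complete {l m : List ℕ} {g t : ℕ} {a : AGate}
    (ha : a.WF (l.getD 0 0) (l.getD 1 0) t) (h : l.drop g = a.toNats ++ m) :
    fm_gok ⟨l.flatMap natBits⟩ g t := by
  unfold fm_gok
  simp only [tk_flat]
  cases a with
  | const x =>
    obtain ⟨h0, h, -⟩ := fm_drop_cons h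
    obtain ⟨h1, h, -⟩ := fm_drop_cons h
    obtain ⟨h2, h, -⟩ := fm_drop_cons h
    refine Or.inl ⟨h0, ?_⟩
    rw [h1, h2]
    split_ifs with h3
    · exact Or.inr ⟨rfl, by omega⟩
    · exact Or.inl rfl
  | varX x =>
    obtain ⟨h0, h, -⟩ := fm_drop_cons h
    obtain ⟨h1, h, -⟩ := fm_drop_cons h
    exact Or.inr (Or.inl ⟨h0, h1 ▸ ha⟩)
  | varY x =>
    obtain ⟨h0, h, -⟩ := fm_drop_cons h
    obtain ⟨h1, h, -⟩ := fm_drop_cons h
    exact Or.inr (Or.inr (Or.inl ⟨h0, h1 ▸ ha⟩))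
  | add x y =>
    obtain ⟨h0, h, -⟩ := fm_drop_cons h
    obtain ⟨h1, h, -⟩ := fm_drop_cons h
    obtain ⟨h2, h, -⟩ := fm_drop_cons h
    exact Or.inr (Or.inr (Or.inr ⟨Or.inl h0, h1 ▸ ha.1, h2 ▸ ha.2⟩))
  | sub x y =>
    obtain ⟨h0, h, -⟩ := fm_drop_cons h
    obtain ⟨h1, h, -⟩ := fm_drop_cons h
    obtain ⟨h2, h, -⟩ := fm_drop_cons h
    exact Or.inr (Or.inr (Or.inr ⟨Or.inr (Or.inl h0), h1 ▸ ha.1, h2 ▸ ha.2⟩))
  | mul x y =>
    obtain ⟨h0, h, -⟩ := fm_drop_cons h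
    obtain ⟨h1, h, -⟩ := fm_drop_cons h
    obtain ⟨h2, h, -⟩ := fm_drop_cons h
    exact Or.inr (Or.inr (Or.inr ⟨Or.inr (Or.inr h0), h1 ▸ ha.1, h2 ▸ ha.2⟩))

theorem fm_circ_complete {l m : List ℕ} {i n : ℕ} {c : List AGate} (hn : l.length ≤ n)
    (hc : CircuitWF (l.getD 0 0) (l.getD 1 0) c) (h : l.drop (i + 1) = circuitToNats c ++ m) :
    fm_circ ⟨l.flatMap natBits⟩ n i (i + 1 + (circuitToNats c).length) := by
  obtain ⟨h0, h1, h2⟩ := fm_drop_cons (a := c.length) h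
  have h3 := fm_drop_len h1 (by omega)
  have h4 := fm_len_le c
  have h5 : 0 < c.length := List.length_pos_iff.2 hc.1
  have hu : un n c.length = c.length := min_eq_left (by omega)
  unfold fm_circ
  rw [tk_flat, h0, hu]
  refine ⟨h5, by omega, ?_, fun t ht => ?_⟩
  · rw [(gp_spec h le_rfl).2, List.take_length, circuitToNats]; simp; omega
  · have h6 := (gp_spec h ht.le).1
    rw [List.drop_eq_getElem_cons ht, List.flatMap_cons, List.append_assoc] at h6
    exact fm_gate_complete (hc.2 ⟨t, ht⟩) h6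

theorem fm_complete {w : Raw} {z : ℕ → ℕ} {σ : ℕ → SignType}
    (h0 : ∀ k, σ k = 0 ↔ z k = 0) (h1 : ∀ k, σ k = 1 ↔ z k = 1) (h : Phi w σ) :
    ∃ e v : ℕ → ℕ, (∀ i, e i ≤ w.val.length) ∧ (∀ i, v i ≤ 1) ∧
      ∀ e' v' : ℕ → ℕ, (∀ i < w.val.length, e' i = e i ∧ v' i = v i) →
        fm_chk w w.val.length e' v' z := by
  classical
  obtain ⟨S, hS, hw, hA⟩ := h
  obtain ⟨w⟩ := w
  obtain ⟨r, s, body⟩ := S
  simp only [Sentence.encode, Sentence.WF] at hS hw hA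
  obtain ⟨l, hl⟩ : ∃ l, l = Sentence.toNats ⟨r, s, body⟩ := ⟨_, rfl⟩
  rw [← hl] at hw
  subst hw
  simp only [Sentence.toNats] at hl
  have hn := length_le_flat l
  simp only
  generalize (l.flatMap natBits).length = n at hn ⊢
  have hr : l.getD 0 0 = r := by simp [hl]
  have hs : l.getD 1 0 = s := by simp [hl]
  let P : ℕ → Form → Prop := fun i φ => φ.WF r s ∧ ∃ m, l.drop i = φ.toNats ++ m
  have hlt : ∀ i φ, P i φ → i < l.length ∧ i + φ.toNats.length ≤ l.length := by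
    rintro i φ ⟨-, m, hm⟩
    obtain ⟨a, m', h2⟩ := fm_toNats_cons φ
    have h3 : i < l.length := by
      rw [h2] at hm
      exact (fm_drop_cons hm).2.2
    exact ⟨h3, fm_drop_len hm h3.le⟩
  let e : ℕ → ℕ := fun i => if h : ∃ φ, P i φ then i + h.choose.toNats.length else 0
  let v : ℕ → ℕ := fun i => if h : ∃ φ, P i φ then (if HA σ h.choose i then 1 else 0) else 0
  have hP : ∀ i φ, P i φ → e i = i + φ.toNats.length ∧ (v i = 1 ↔ HA σ φ i) := by
    intro i φ hφ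
    have hex : ∃ φ, P i φ := ⟨φ, hφ⟩
    have h2 : hex.choose = φ := by
      obtain ⟨-, m, hm⟩ := hex.choose_spec
      obtain ⟨-, m', hm'⟩ := hφ
      exact form_prefix_inj (hm.symm.trans hm')
    simp only [e, v, dif_pos hex, h2]
    refine ⟨trivial, ?_⟩
    split_ifs with h3 <;> simp [h3]
  have he0 : ∀ i, e i = 0 ∨ ∃ φ, P i φ := by
    intro i
    by_cases h2 : ∃ φ, P i φ
    · exact Or.inr h2
    · exact Or.inl (dif_neg h2)
  refine ⟨e, v, fun i => ?_, fun i => ?_, fun e' v' hev => ?_⟩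
  · rcases he0 i with h2 | ⟨φ, h2⟩
    · omega
    · have := (hP i φ h2).1
      have := hlt i φ h2
      omega
  · simp only [v]
    split_ifs <;> simp
  have hP' : ∀ i φ, P i φ → i < n ∧ e' i = i + φ.toNats.length ∧ e' i ≠ 0 ∧
      (v' i = 1 ↔ HA σ φ i) := by
    intro i φ hφ
    have h2 := hlt i φ hφ
    have h3 := hev i (by omega)
    obtain ⟨a, m', h4⟩ := fm_toNats_cons φ
    have h5 := hP i φ hφ
    rw [h3.1, h3.2]
    refine ⟨by omega, h5.1, ?_, h5.2⟩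
    rw [h5.1, h4]; simp
  have hb : P 2 body := ⟨hS, [], by simp [hl]⟩
  obtain ⟨b1, b2, b3, b4⟩ := hP' 2 body hb
  refine ⟨b1, b3, b4.2 hA, ?_, fun i hi => ?_⟩
  · have h2 : e' 2 = l.length := by rw [b2, hl]; simp; omega
    rw [h2, fm_M_range]
    intro j hj
    rw [zero_add, tk_flat]
  rcases he0 i with h2 | ⟨φ, hφ⟩
  · exact Or.inl ((hev i hi).1.trans h2)
  right
  obtain ⟨-, c2, -, c4⟩ := hP' i φ hφ
  obtain ⟨hW, m, hm⟩ := hφ
  unfold fm_loc
  rw [tk_flat]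
  cases φ with
  | eqZero c =>
    obtain ⟨d1, d2, -⟩ := fm_drop_cons (a := 6) hm
    refine Or.inl ⟨d1, ?_, c4.trans (h0 i)⟩
    have := fm_circ_complete hn (by rw [hr, hs]; exact hW) d2
    rwa [c2, Form.toNats, List.length_cons, ← add_assoc, add_right_comm]
  | pos c =>
    obtain ⟨d1, d2, -⟩ := fm_drop_cons (a := 7) hm
    refine Or.inr (Or.inl ⟨d1, ?_, c4.trans (h1 i)⟩)
    have := fm_circ_complete hn (by rw [hr, hs]; exact hW) d2
    rwa [c2, Form.toNats, List.length_cons, ← add_assoc, add_right_comm]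
  | and φ ψ =>
    obtain ⟨d1, d2, -⟩ := fm_drop_cons (a := 8) hm
    have d3 : l.drop (i + 1) = φ.toNats ++ (ψ.toNats ++ m) := by
      rw [d2, ← List.append_assoc]; rfl
    obtain ⟨p1, p2, p3, p4⟩ := hP' (i + 1) φ ⟨hW.1, _, d3⟩
    obtain ⟨q1, q2, q3, q4⟩ := hP' _ ψ ⟨hW.2, _, fm_drop_append d3⟩
    refine Or.inr (Or.inr (Or.inl ⟨d1, p1, p3, p2 ▸ q1, p2 ▸ q3, ?_, ?_⟩))
    · rw [p2, q2, c2]; simp [Form.toNats]; omega
    · rw [p2, c4, p4, q4]; rfl
  | or φ ψ =>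
    obtain ⟨d1, d2, -⟩ := fm_drop_cons (a := 9) hm
    have d3 : l.drop (i + 1) = φ.toNats ++ (ψ.toNats ++ m) := by
      rw [d2, ← List.append_assoc]; rfl
    obtain ⟨p1, p2, p3, p4⟩ := hP' (i + 1) φ ⟨hW.1, _, d3⟩
    obtain ⟨q1, q2, q3, q4⟩ := hP' _ ψ ⟨hW.2, _, fm_drop_append d3⟩
    refine Or.inr (Or.inr (Or.inr (Or.inl ⟨d1, p1, p3, p2 ▸ q1, p2 ▸ q3, ?_, ?_⟩)))
    · rw [p2, q2, c2]; simp [Form.toNats]; omega
    · rw [p2, c4, p4, q4]; rfl
  | not φ =>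
    obtain ⟨d1, d2, -⟩ := fm_drop_cons (a := 10) hm
    obtain ⟨p1, p2, p3, p4⟩ := hP' (i + 1) φ ⟨hW, _, d2⟩
    refine Or.inr (Or.inr (Or.inr (Or.inr ⟨d1, p1, p3, ?_, ?_⟩)))
    · rw [p2, c2]; simp [Form.toNats]; omega
    · rw [c4, p4]; rfl

/-! ### The check is polynomial-time -/

/-- End positions coded by `Y`. -/
def fm_e (n Y i : ℕ) : ℕ := un n (dg (2 * n + 2) Y i / 2)

/-- Truth values coded by `Y`. -/
def fm_v (n Y i : ℕ) : ℕ := dg (2 * n + 2) Y i % 2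

/-- Signs as numbers. -/
def fm_z (bp bm i : ℕ) : ℕ := if dg 2 bp i = 1 then 1 else if dg 2 bm i = 1 then 2 else 0

attribute [local fun_prop] bt_tk pt_gp pt_rawlen

@[fun_prop] theorem fm_pt_e {n Y i : α → ℕ} (hn : PT n) (hY : BT Y) (hi : PT i) :
    PT (fun a => fm_e (n a) (Y a) (i a)) := by
  unfold fm_e; fun_prop

@[fun_prop] theorem fm_bt_e {n Y i : α → ℕ} (hn : PT n) (hY : BT Y) (hi : PT i) :
    BT (fun a => fm_e (n a) (Y a) (i a)) := BT.ofPT (fm_pt_e hn hY hi)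

@[fun_prop] theorem fm_bt_v {n Y i : α → ℕ} (hn : PT n) (hY : BT Y) (hi : PT i) :
    BT (fun a => fm_v (n a) (Y a) (i a)) := by
  unfold fm_v; fun_prop

@[fun_prop] theorem fm_bt_z {bp bm i : α → ℕ} (hp : BT bp) (hm : BT bm) (hi : PT i) :
    BT (fun a => fm_z (bp a) (bm a) (i a)) := by
  unfold fm_z; fun_prop

@[fun_prop] theorem fm_bt_gp {w : α → Raw} {k t : α → ℕ} (hw : PT w) (hk : PT k) (ht : PT t) :
    BT (fun a => gp (w a) (k a) (t a)) := BT.ofPT (pt_gp hw hk ht)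

@[fun_prop] theorem fm_dt_iff {p q : α → Prop} (hp : DT p) (hq : DT q) :
    DT (fun a => p a ↔ q a) :=
  ((hp.and hq).or (hp.not.and hq.not)).congr (fun a => by tauto)

@[fun_prop] theorem fm_dt_gok {w : α → Raw} {g t : α → ℕ} (hw : PT w) (hg : PT g) (ht : PT t) :
    DT (fun a => fm_gok (w a) (g a) (t a)) := by
  unfold fm_gok; fun_prop

@[fun_prop] theorem fm_dt_circ {w : α → Raw} {n i e : α → ℕ} (hw : PT w) (hn : PT n) (hi : PT i)
    (he : PT e) : DT (fun a => fm_circ (w a) (n a) (i a) (e a)) := by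
  unfold fm_circ; fun_prop

theorem fm_dt_loc {w : α → Raw} {n Y bp bm i : α → ℕ} (hw : PT w) (hn : PT n) (hY : BT Y)
    (hp : BT bp) (hm : BT bm) (hi : PT i) :
    DT (fun a => fm_loc (w a) (n a) (fm_e (n a) (Y a)) (fm_v (n a) (Y a)) (fm_z (bp a) (bm a))
      (i a)) := by
  unfold fm_loc; fun_prop

theorem fm_dt_chk {w : α → Raw} {n Y bp bm : α → ℕ} (hw : PT w) (hn : PT n) (hY : BT Y)
    (hp : BT bp) (hm : BT bm) :
    DT (fun a => fm_chk (w a) (n a) (fm_e (n a) (Y a)) (fm_v (n a) (Y a)) (fm_z (bp a) (bm a))) := by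
  unfold fm_chk
  refine DT.and (by fun_prop) (DT.and (by fun_prop) (DT.and (by fun_prop) (DT.and
    (dt_reencode hw (by fun_prop)) (DT.all hn (DT.or (by fun_prop) ?_)))))
  exact fm_dt_loc (w := fun q : α × ℕ => w q.1) (n := fun q => n q.1) (Y := fun q => Y q.1)
    (bp := fun q => bp q.1) (bm := fun q => bm q.1) (i := fun q => q.2) (by fun_prop) (by fun_prop)
    (by fun_prop) (by fun_prop) (by fun_prop) (by fun_prop)

theorem fm_z0 (bp bm k : ℕ) : sv bp bm k = 0 ↔ fm_z bp bm k = 0 := by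
  unfold sv fm_z; split_ifs <;> simp

theorem fm_z1 (bp bm k : ℕ) : sv bp bm k = 1 ↔ fm_z bp bm k = 1 := by
  unfold sv fm_z; split_ifs <;> simp

theorem cd_phi : CD (fun p : Raw × Bin × Bin => Phi p.1 (sv p.2.1.val p.2.2.val)) := by
  have h1 : CD (fun p : Raw × Bin × Bin => ∃ Y < (2 * p.1.val.length + 2) ^ p.1.val.length,
      fm_chk p.1 p.1.val.length (fm_e p.1.val.length Y) (fm_v p.1.val.length Y)
        (fm_z p.2.1.val p.2.2.val)) := by
    refine CD.ex (by fun_prop) (CD.ofDT ?_)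
    exact fm_dt_chk (w := fun q : (Raw × Bin × Bin) × Bin => q.1.1) (n := fun q => q.1.1.val.length)
      (Y := fun q => q.2.val) (bp := fun q => q.1.2.1.val) (bm := fun q => q.1.2.2.val)
      (by fun_prop) (by fun_prop) (by fun_prop) (by fun_prop) (by fun_prop)
  refine h1.congr (fun p => ⟨?_, fun h => ?_⟩)
  · rintro ⟨Y, -, h⟩
    exact fm_sound (fm_z0 _ _) (fm_z1 _ _) h
  · obtain ⟨e, v, he, hv, h2⟩ := fm_complete (fm_z0 _ _) (fm_z1 _ _) h
    obtain ⟨Y, hY, h3⟩ := exists_dg (L := 2 * p.1.val.length + 2) (m := p.1.val.length)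
      (fun i => 2 * e i + v i) (fun i _ => by have := he i; have := hv i; omega)
    refine ⟨Y, hY, h2 _ _ (fun i hi => ?_)⟩
    have := he i
    have := hv i
    unfold fm_e fm_v un
    rw [h3 i hi]
    omega

end Crest.Agent.R316
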