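import Crest.Agent.R316.Defs

/-!
Row 316, task PRIMES: enough primes in a polynomial-size range.
-/

set_option autoImplicit false
set_option linter.dupNamespace false

namespace Crest.Agent.R316

open Crest.Agent.PT Crest.Agent.QC Crest.Agent.R317 Polynomial Finset

variable {α β : Type} [Enc α] [Enc β]

/-- The primes in `(t, Y)`. -/
def prs (t Y : ℕ) : Finset ℕ := (range Y).filter (fun q => q.Prime ∧ t < q)

theorem mem_prs {t Y q : ℕ} : q ∈ prs t Y ↔ q < Y ∧ q.Prime ∧ t < q := by simp [prs]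

theorem prs_primorial (t n : ℕ) : primorial n ≤ 4 ^ t * ∏ q ∈ prs t (n + 1), q := by
  rw [primorial, ← prod_filter_not_mul_prod_filter _ (fun q => t < q), filter_filter, filter_filter]
  refine Nat.mul_le_mul_right _ (le_trans ?_ (primorial_le_four_pow t))
  refine prod_le_prod_of_subset_of_one_le' (fun q hq => ?_) fun q hq _ => (mem_filter.1 hq).2.one_le
  rw [mem_filter, mem_range] at hq ⊢
  exact ⟨by omega, hq.2.1⟩

theorem prs_big (t L : ℕ) : 2 ^ L < ∏ q ∈ prs t ((L + t + 20) ^ 4 + 1), q := by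
  obtain ⟨m, hm⟩ : ∃ m, m = L + t + 20 := ⟨_, rfl⟩
  rw [← hm]
  refine lt_of_mul_lt_mul_left (lt_of_lt_of_le ?_ (prs_primorial t (m ^ 4))) (Nat.zero_le (4 ^ t))
  have h := Chebyshev.theta_ge (m ^ 4)
  rw [Chebyshev.theta_eq_log_primorial, Nat.floor_natCast] at h
  have hm' : (m : ℝ) = L + t + 20 := by rw [hm]; push_cast; ring
  have hL : (0 : ℝ) ≤ L := Nat.cast_nonneg L
  have ht : (0 : ℝ) ≤ t := Nat.cast_nonneg t
  have h20 : (20 : ℝ) ≤ m := by linarith
  have hs : √((m ^ 4 : ℕ) : ℝ) = (m : ℝ) ^ 2 := by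
    rw [Real.sqrt_eq_iff_mul_self_eq (by positivity) (by positivity)]
    push_cast
    ring
  have h1 : Real.log ((m ^ 4 : ℕ) : ℝ) ≤ 4 * m := by
    have := Real.log_le_self (show (0 : ℝ) ≤ m by linarith)
    push_cast
    rw [Real.log_pow]
    push_cast
    linarith
  have h2 : Real.log (((m ^ 4 : ℕ) : ℝ) + 1) ≤ 4 * m := by
    have a := Real.log_le_sub_one_of_pos (show (0 : ℝ) < m + 1 by linarith)
    have b : ((m ^ 4 : ℕ) : ℝ) + 1 ≤ (m + 1) ^ 4 := by
      push_cast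
      nlinarith [pow_nonneg (show (0 : ℝ) ≤ m by linarith) 3, sq_nonneg (m : ℝ)]
    have c := Real.log_le_log (by positivity) b
    rw [Real.log_pow] at c
    push_cast at c ⊢
    linarith
  have h3 := Real.log_two_gt_d9
  have h4 := Real.log_two_lt_d9
  have h5 : Real.log ((4 ^ t * 2 ^ L : ℕ) : ℝ) < Real.log (primorial (m ^ 4)) := by
    refine lt_of_lt_of_le ?_ h
    rw [hs]
    have e : Real.log ((4 ^ t * 2 ^ L : ℕ) : ℝ) = (2 * t + L) * Real.log 2 := by
      rw [show ((4 ^ t * 2 ^ L : ℕ) : ℝ) = 2 ^ (2 * t + L) by push_cast; rw [pow_add, pow_mul]; norm_num,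
        Real.log_pow]
      push_cast
      ring
    have a1 : 2 * (m : ℝ) ^ 2 * Real.log ((m ^ 4 : ℕ) : ℝ) ≤ 8 * m ^ 3 := by
      nlinarith [mul_le_mul_of_nonneg_left h1 (show (0 : ℝ) ≤ 2 * m ^ 2 by positivity)]
    have a2 : 13 * (m : ℝ) ^ 3 ≤ ((m ^ 4 : ℕ) : ℝ) * Real.log 2 := by
      push_cast
      nlinarith [mul_le_mul h20 h3.le (by norm_num) (by linarith),
        pow_nonneg (show (0 : ℝ) ≤ m by linarith) 3]
    have a3 : (2 * t + L) * Real.log 2 ≤ 2 * m := by nlinarith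
    have a4 : 400 * (m : ℝ) ≤ m ^ 3 := by nlinarith [mul_le_mul h20 h20 (by norm_num) (by linarith)]
    rw [e]
    linarith
  exact_mod_cast (Real.log_lt_log_iff (by positivity) (by exact_mod_cast primorial_pos _)).1 h5

/-- Take e.g. `Y = c (L + t + 1)^2` or a linear bound; a lower bound for the primorial follows from
`Chebyshev.theta_ge`-type results or from the central binomial coefficient, and the primes `≤ t`
contribute at most `4^t` (`primorial_le_4_pow`). -/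
theorem exists_primes {t L : α → ℕ} (ht : BT t) (hL : BT L) :
    ∃ Y : α → ℕ, BT Y ∧ ∀ a, 2 ^ L a < ∏ q ∈ prs (t a) (Y a), q := by
  exact ⟨fun a => (L a + t a + 20) ^ 4 + 1, by fun_prop, fun a => prs_big (t a) (L a)⟩

/-- An integer divisible by all the primes of the range is divisible by their product. -/
theorem prs_prod_dvd {t Y : ℕ} {F : ℤ} (h : ∀ q ∈ prs t Y, (q : ℤ) ∣ F) :
    ((∏ q ∈ prs t Y, q : ℕ) : ℤ) ∣ F := by
  rw [Nat.cast_prod]
  refine prod_dvd_of_coprime (fun p hp q hq hne => ?_) h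
  exact Nat.isCoprime_iff_coprime.2
    ((Nat.coprime_primes (mem_prs.1 hp).2.1 (mem_prs.1 hq).2.1).2 hne)

theorem exists_prime_not_dvd {t Y L : ℕ} (h : 2 ^ L < ∏ q ∈ prs t Y, q) {F : ℤ} (h0 : F ≠ 0)
    (hF : |F| ≤ 2 ^ L) : ∃ q ∈ prs t Y, ¬ (q : ℤ) ∣ F := by
  by_contra hc
  push Not at hc
  have h1 := Int.le_of_dvd (abs_pos.2 h0) ((dvd_abs _ _).2 (prs_prod_dvd hc))
  have h2 : ((2 ^ L : ℕ) : ℤ) < ((∏ q ∈ prs t Y, q : ℕ) : ℤ) := by exact_mod_cast h
  push_cast at h1 h2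
  linarith

/-- Chinese remainder representation: if `q ∣ F - r q * (M / q)` for every prime `q` of the
range (`M` their product, `M / q` the product of the others), then `M` divides
`F - ∑ r q * (M / q)`. -/
theorem prs_crt {t Y : ℕ} {F : ℤ} {r : ℕ → ℕ}
    (h : ∀ q ∈ prs t Y, (q : ℤ) ∣ F - r q * ∏ q' ∈ (prs t Y).erase q, (q' : ℤ)) :
    ((∏ q ∈ prs t Y, q : ℕ) : ℤ) ∣
      F - ∑ q ∈ prs t Y, (r q : ℤ) * ∏ q' ∈ (prs t Y).erase q, (q' : ℤ) := by
  refine prs_prod_dvd fun q hq => ?_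
  rw [← add_sum_erase _ _ hq, ← sub_sub]
  refine dvd_sub (h q hq) (dvd_sum fun p hp => Dvd.dvd.mul_left ?_ _)
  exact dvd_prod_of_mem (fun q' : ℕ => (q' : ℤ)) (mem_erase.2 ⟨(mem_erase.1 hp).1.symm, hq⟩)

/-- The coefficients of that representation exist. -/
theorem prs_exists_coeff {t Y q : ℕ} (hq : q ∈ prs t Y) (F : ℤ) :
    ∃ r < q, (q : ℤ) ∣ F - (r : ℕ) * ∏ q' ∈ (prs t Y).erase q, (q' : ℤ) := by
  have hp := (mem_prs.1 hq).2.1
  have hc : IsCoprime (q : ℤ) (∏ q' ∈ (prs t Y).erase q, (q' : ℤ)) :=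
    IsCoprime.prod_right fun p hp' => Nat.isCoprime_iff_coprime.2
      ((Nat.coprime_primes hp (mem_prs.1 (mem_erase.1 hp').2).2.1).2 (mem_erase.1 hp').1.symm)
  obtain ⟨a, b, hab⟩ := hc
  have hq0 : (0 : ℤ) < q := by exact_mod_cast hp.pos
  have h1 := Int.emod_nonneg (F * b) hq0.ne'
  have h2 := Int.emod_lt_of_pos (F * b) hq0
  refine ⟨(F * b % q).toNat, by omega, ?_⟩
  rw [Int.toNat_of_nonneg h1, Int.emod_def]
  exact ⟨F * a + F * b / q * ∏ q' ∈ (prs t Y).erase q, (q' : ℤ), by linear_combination -F * hab⟩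

end Crest.Agent.R316
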