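import Crest.Agent.R316.Par
import Crest.Agent.R316.Primes

/-!
Row 316, task INDEX: short names for the real roots of a family of constant polynomials.
-/

set_option autoImplicit false
set_option linter.dupNamespace false

namespace Crest.Agent.R316

open Crest.Agent.PT Crest.Agent.QC Crest.Agent.R317 Polynomial Finset

variable {α β : Type} [Enc α] [Enc β]

/-- The bits of the Thom code of `t` for `χ`. -/
def thb (χ : ℂ[X]) (j : ℕ) (t : ℂ) : Prop := 0 < ((-1) ^ j * (derivative^[j / 2] χ).eval t).re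

open Classical in
/-- The hashed Thom code. -/
noncomputable def fp (χ : ℂ[X]) (J q : ℕ) (t : ℂ) : ℕ :=
  ∑ j ∈ range J, if thb χ j t then pm 2 j q else 0

open Classical in
/-- Number of real roots (with multiplicity) with hash value `u`. -/
noncomputable def fc (χ : ℂ[X]) (J q u : ℕ) : ℕ :=
  ((range χ.natDegree).filter fun k => (rt χ k).im = 0 ∧ fp χ J q (rt χ k) = u).card

/-- Number of hash values below `U` hit an odd number of times. -/
noncomputable def oc (χ : ℂ[X]) (J q U : ℕ) : ℕ := cnt U (fun u => Odd (fc χ J q u))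

open Classical in
/-- The full Thom code. -/
noncomputable def ixT (χ : ℂ[X]) (J : ℕ) (t : ℂ) : ℕ :=
  ∑ j ∈ (range J).filter (fun j => thb χ j t), 2 ^ j

theorem ixT_lt (χ : ℂ[X]) (J : ℕ) (t : ℂ) : ixT χ J t < 2 ^ J := by
  classical
  exact Nat.geomSum_lt le_rfl (fun _ hk => mem_range.1 (mem_of_mem_filter _ hk))

theorem ixT_mod (χ : ℂ[X]) (J : ℕ) {q : ℕ} (hq : 0 < q) (t : ℂ) :
    (q : ℤ) ∣ (ixT χ J t : ℤ) - fp χ J q t := by
  classical
  unfold ixT fp
  rw [Finset.sum_filter]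
  push_cast
  rw [← Finset.sum_sub_distrib]
  refine Finset.dvd_sum fun j _ => ?_
  split_ifs
  · unfold pm
    rw [max_eq_left hq]
    push_cast
    exact Int.dvd_self_sub_of_emod_eq rfl
  · simp

theorem ix_sign_eq {x y : ℝ} (h1 : 0 < x ↔ 0 < y) (h2 : 0 < -x ↔ 0 < -y) :
    SignType.sign x = SignType.sign y := by
  rcases lt_trichotomy x 0 with h | h | h
  · rw [sign_neg h, sign_neg (by linarith [h2.1 (by linarith)])]
  · have h3 : ¬ 0 < y := fun h' => by linarith [h1.2 h']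
    have h4 : ¬ 0 < -y := fun h' => by linarith [h2.2 h']
    rw [h, show y = 0 by linarith]
  · rw [sign_pos h, sign_pos (h1.1 h)]

theorem ixT_inj {χ : ℂ[X]} (hm : χ.Monic) (hr : ∀ j, (χ.coeff j).im = 0) {J : ℕ}
    (hJ : 2 * χ.natDegree + 2 ≤ J) {s t : ℝ} (hs : χ.eval (s : ℂ) = 0)
    (h : ixT χ J s = ixT χ J t) : s = t := by
  classical
  have h1 := Finset.geomSum_injective le_rfl h
  have h2 : ∀ j < J, thb χ j s ↔ thb χ j t := by
    intro j hj
    have := Finset.ext_iff.1 h1 j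
    simpa [hj] using this
  refine thom hm.ne_zero hr hs fun j hj => ix_sign_eq ?_ ?_
  · have := h2 (2 * j) (by omega)
    simpa [thb] using this
  · have := h2 (2 * j + 1) (by omega)
    have e : (2 * j + 1) / 2 = j := by omega
    simpa [thb, e, pow_succ] using this

theorem ix_root {χ : ℂ[X]} (hm : χ.Monic) {z : ℂ} (hz : χ.eval z = 0) :
    ∃ k < χ.natDegree, rt χ k = z := by
  rw [rt_spec hm, Finset.prod_eq_zero_iff] at hz
  obtain ⟨k, hk, h⟩ := hz
  exact ⟨k, mem_range.1 hk, (sub_eq_zero.1 h).symm⟩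

theorem ix_eval_rt {χ : ℂ[X]} (hm : χ.Monic) {k : ℕ} (hk : k < χ.natDegree) :
    χ.eval (rt χ k) = 0 := by
  rw [rt_spec hm]
  exact Finset.prod_eq_zero (mem_range.2 hk) (sub_self _)

/-- Some prime of the range separates the real roots: the full codes `T t = ∑ 2^j [thb χ j t] < 2^J`
of distinct real roots are distinct (`thom`, binary expansions), the product of all their
differences is nonzero and at most `2^(J e²)`, and `fp ≡ T` modulo `q`. -/
theorem exists_sep {χ : ℂ[X]} (hm : χ.Monic) (hr : ∀ j, (χ.coeff j).im = 0) {J Y : ℕ}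
    (hJ : 2 * χ.natDegree + 2 ≤ J) (hY : 2 ^ (J * χ.natDegree ^ 2) < ∏ q ∈ prs 0 Y, q) :
    ∃ q < Y, ∀ s t : ℝ, χ.eval (s : ℂ) = 0 → χ.eval (t : ℂ) = 0 →
      fp χ J q s = fp χ J q t → s = t := by
  classical
  let F : ℤ := ∏ p ∈ ((range χ.natDegree) ×ˢ (range χ.natDegree)).filter
    (fun p => ixT χ J (rt χ p.1) ≠ ixT χ J (rt χ p.2)),
      ((ixT χ J (rt χ p.1) : ℤ) - ixT χ J (rt χ p.2))
  have hF0 : F ≠ 0 := by
    refine Finset.prod_ne_zero_iff.2 fun p hp => ?_
    have := (mem_filter.1 hp).2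
    rw [sub_ne_zero]
    exact_mod_cast this
  have hFle : |F| ≤ 2 ^ (J * χ.natDegree ^ 2) := by
    rw [Finset.abs_prod]
    refine (Finset.prod_le_prod (g := fun _ => (2 : ℤ) ^ J) (fun _ _ => abs_nonneg _)
      fun p _ => ?_).trans ?_
    · have h1 : (ixT χ J (rt χ p.1) : ℤ) < 2 ^ J := by exact_mod_cast ixT_lt χ J _
      have h2 : (ixT χ J (rt χ p.2) : ℤ) < 2 ^ J := by exact_mod_cast ixT_lt χ J _
      have h3 : (0 : ℤ) ≤ ixT χ J (rt χ p.1) := Int.natCast_nonneg _
      have h4 : (0 : ℤ) ≤ ixT χ J (rt χ p.2) := Int.natCast_nonneg _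
      rw [abs_le]; constructor <;> linarith
    · rw [Finset.prod_const, ← pow_mul]
      refine pow_le_pow_right₀ (by norm_num) (Nat.mul_le_mul_left _ ?_)
      refine (card_filter_le _ _).trans ?_
      simp [sq]
  obtain ⟨q, hq, hqF⟩ := exists_prime_not_dvd hY hF0 hFle
  obtain ⟨hqY, hqp, -⟩ := mem_filter.1 hq
  refine ⟨q, mem_range.1 hqY, fun s t hs ht hst => ?_⟩
  refine ixT_inj hm hr hJ hs ?_
  by_contra hne
  obtain ⟨k, hk, hks⟩ := ix_root hm hs
  obtain ⟨k', hk', hkt⟩ := ix_root hm ht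
  apply hqF
  have hmem : (k, k') ∈ ((range χ.natDegree) ×ˢ (range χ.natDegree)).filter
      (fun p => ixT χ J (rt χ p.1) ≠ ixT χ J (rt χ p.2)) := by
    simp only [mem_filter, mem_product, mem_range]
    exact ⟨⟨hk, hk'⟩, by rw [hks, hkt]; exact hne⟩
  refine Dvd.dvd.trans ?_ (Finset.dvd_prod_of_mem _ hmem)
  simp only [hks, hkt]
  have h1 := ixT_mod χ J hqp.pos (s : ℂ)
  have h2 := ixT_mod χ J hqp.pos (t : ℂ)
  rw [hst] at h1
  have := dvd_sub h1 h2
  rwa [sub_sub_sub_cancel_right] at this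

open Classical in
/-- Number of indices of a root. -/
noncomputable def ixM (χ : ℂ[X]) (z : ℂ) : ℕ :=
  ((range χ.natDegree).filter fun k => rt χ k = z).card

open Classical in
/-- The real roots of odd multiplicity. -/
noncomputable def ixO (χ : ℂ[X]) : Finset ℂ :=
  ((range χ.natDegree).image (rt χ)).filter fun z => z.im = 0 ∧ Odd (ixM χ z)

theorem ix_mem_O (χ : ℂ[X]) (z : ℂ) : z ∈ ixO χ ↔ z.im = 0 ∧ Odd (ixM χ z) := by
  classical
  unfold ixO
  rw [mem_filter]
  refine ⟨fun h => h.2, fun h => ⟨?_, h⟩⟩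
  obtain ⟨k, hk⟩ := card_pos.1 h.2.pos
  exact mem_image.2 ⟨k, (mem_filter.1 hk).1, (mem_filter.1 hk).2⟩

open Classical in
theorem ix_odd_fib (χ : ℂ[X]) (J q u : ℕ) (z : ℂ) :
    Odd ((range χ.natDegree).filter fun k =>
      ((rt χ k).im = 0 ∧ fp χ J q (rt χ k) = u) ∧ rt χ k = z).card ↔
      z ∈ ixO χ ∧ fp χ J q z = u := by
  rw [ix_mem_O]
  by_cases h : z.im = 0 ∧ fp χ J q z = u
  · have e : ((range χ.natDegree).filter fun k =>
        ((rt χ k).im = 0 ∧ fp χ J q (rt χ k) = u) ∧ rt χ k = z) =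
        (range χ.natDegree).filter fun k => rt χ k = z := by
      refine filter_congr fun k _ => ⟨fun h' => h'.2, fun h' => ⟨by rw [h']; exact h, h'⟩⟩
    rw [e]
    exact ⟨fun h' => ⟨⟨h.1, h'⟩, h.2⟩, fun h' => h'.1.2⟩
  · have e : ((range χ.natDegree).filter fun k =>
        ((rt χ k).im = 0 ∧ fp χ J q (rt χ k) = u) ∧ rt χ k = z) = ∅ := by
      refine filter_eq_empty_iff.2 fun k _ h' => h ?_
      rw [← h'.2]; exact h'.1
    rw [e]
    exact ⟨fun h' => by simp at h', fun h' => absurd ⟨h'.1.1, h'.2⟩ h⟩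

open Classical in
theorem ix_odd_fc (χ : ℂ[X]) (J q u : ℕ) :
    Odd (fc χ J q u) ↔ Odd ((ixO χ).filter fun z => fp χ J q z = u).card := by
  unfold fc
  rw [card_eq_sum_card_fiberwise (f := rt χ) (t := (range χ.natDegree).image (rt χ))
    (fun k hk => mem_coe.2 (mem_image_of_mem _ (mem_filter.1 (mem_coe.1 hk)).1)),
    odd_sum_iff_odd_card_odd]
  simp only [filter_filter, ix_odd_fib]
  have e : ((range χ.natDegree).image (rt χ)).filter (fun z => z ∈ ixO χ ∧ fp χ J q z = u) =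
      (ixO χ).filter fun z => fp χ J q z = u := by
    ext z
    simp only [mem_filter]
    exact ⟨fun h => h.2, fun h => ⟨(mem_filter.1 h.1).1, h⟩⟩
  rw [e]

theorem ix_fp_le (χ : ℂ[X]) (J : ℕ) {q Y : ℕ} (hq : q < Y) (z : ℂ) : fp χ J q z < J * Y + 1 := by
  classical
  unfold fp
  refine Nat.lt_succ_of_le ((Finset.sum_le_card_nsmul _ _ Y fun j _ => ?_).trans (by simp))
  split_ifs
  · have : pm 2 j q < max q 1 := Nat.mod_lt _ (by omega)
    omega
  · omega

open Classical in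
theorem ix_oc_le (χ : ℂ[X]) (J q U : ℕ) : oc χ J q U ≤ ((ixO χ).image (fp χ J q)).card := by
  unfold oc cnt
  refine card_le_card fun u hu => ?_
  simp only [mem_filter] at hu
  have h := hu.2
  rw [ix_odd_fc] at h
  obtain ⟨z, hz⟩ := card_pos.1 h.pos
  exact mem_image.2 ⟨z, (mem_filter.1 hz).1, (mem_filter.1 hz).2⟩

open Classical in
theorem ix_fib_single {χ : ℂ[X]} {J q : ℕ} (hinj : Set.InjOn (fp χ J q) (ixO χ)) {z : ℂ}
    (hz : z ∈ ixO χ) : ((ixO χ).filter fun z' => fp χ J q z' = fp χ J q z) = {z} := by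
  ext z'
  simp only [mem_filter, mem_singleton]
  exact ⟨fun h => hinj h.1 hz h.2, fun h => by rw [h]; exact ⟨hz, rfl⟩⟩

theorem ix_oc_ge {χ : ℂ[X]} {J q Y : ℕ} (hq : q < Y) (hinj : Set.InjOn (fp χ J q) (ixO χ)) :
    (ixO χ).card ≤ oc χ J q (J * Y + 1) := by
  classical
  rw [← card_image_of_injOn hinj]
  unfold oc cnt
  refine card_le_card fun u hu => ?_
  obtain ⟨z, hz, rfl⟩ := mem_image.1 hu
  simp only [mem_filter]
  refine ⟨mem_range.2 (ix_fp_le χ J hq z), ?_⟩
  rw [ix_odd_fc, ix_fib_single hinj hz]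
  simp

theorem ix_exists_inj {χ : ℂ[X]} (hm : χ.Monic) (hr : ∀ j, (χ.coeff j).im = 0) {J Y : ℕ}
    (hJ : 2 * χ.natDegree + 2 ≤ J) (hY : 2 ^ (J * χ.natDegree ^ 2) < ∏ q ∈ prs 0 Y, q) :
    ∃ q < Y, Set.InjOn (fp χ J q) (ixO χ) := by
  classical
  obtain ⟨q, hq, h⟩ := exists_sep hm hr hJ hY
  refine ⟨q, hq, fun z hz z' hz' e => ?_⟩
  have key : ∀ w ∈ ixO χ, ((w.re : ℝ) : ℂ) = w ∧ χ.eval w = 0 := by
    intro w hw
    refine ⟨Complex.ext rfl (by simp [((ix_mem_O χ w).1 hw).1]), ?_⟩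
    obtain ⟨k, hk, rfl⟩ := mem_image.1 (mem_filter.1 hw).1
    exact ix_eval_rt hm (mem_range.1 hk)
  obtain ⟨e1, r1⟩ := key z hz
  obtain ⟨e2, r2⟩ := key z' hz'
  rw [← e1, ← e2, h z.re z'.re (by rw [e1, r1]) (by rw [e2, r2]) (by rw [e1, e2, e])]

theorem ix_inj {χ : ℂ[X]} (hm : χ.Monic) (hr : ∀ j, (χ.coeff j).im = 0) {J Y q : ℕ}
    (hJ : 2 * χ.natDegree + 2 ≤ J) (hY : 2 ^ (J * χ.natDegree ^ 2) < ∏ q ∈ prs 0 Y, q)
    (hq : ∀ q' < Y, oc χ J q' (J * Y + 1) ≤ oc χ J q (J * Y + 1)) :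
    Set.InjOn (fp χ J q) (ixO χ) := by
  classical
  obtain ⟨q', hq', hinj⟩ := ix_exists_inj hm hr hJ hY
  rw [← card_image_iff]
  exact le_antisymm card_image_le
    ((ix_oc_ge hq' hinj).trans ((hq q' hq').trans (ix_oc_le _ _ _ _)))

open Classical in
/-- Let `O` be the set of real roots of odd multiplicity. `Odd (fc χ J q u)` iff an odd number of
points of `O` have hash `u`; so `oc ≤ #(fp '' O) ≤ #O`, with equality for a separating `q' < Y`
(`fp < J * Y + 1`). If `q` maximises `oc` then `fp χ J q` is injective on `O`. -/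
theorem name_unique {χ : ℂ[X]} (hm : χ.Monic) (hr : ∀ j, (χ.coeff j).im = 0) {J Y q u : ℕ}
    (hJ : 2 * χ.natDegree + 2 ≤ J) (hY : 2 ^ (J * χ.natDegree ^ 2) < ∏ q ∈ prs 0 Y, q)
    (hq : ∀ q' < Y, oc χ J q' (J * Y + 1) ≤ oc χ J q (J * Y + 1)) (hu : Odd (fc χ J q u)) :
    ∃ t : ℝ, ∀ z : ℂ, Odd ((range χ.natDegree).filter fun k =>
      ((rt χ k).im = 0 ∧ fp χ J q (rt χ k) = u) ∧ rt χ k = z).card ↔ z = t := by
  have hinj := ix_inj hm hr hJ hY hq
  rw [ix_odd_fc] at hu
  obtain ⟨z0, hz0⟩ := card_pos.1 hu.pos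
  obtain ⟨hz0O, hz0u⟩ := mem_filter.1 hz0
  have him := ((ix_mem_O χ z0).1 hz0O).1
  refine ⟨z0.re, fun z => ?_⟩
  have e : ((z0.re : ℝ) : ℂ) = z0 := Complex.ext rfl (by simp [him])
  rw [ix_odd_fib, e]
  constructor
  · rintro ⟨h1, h2⟩
    exact hinj h1 hz0O (h2.trans hz0u.symm)
  · rintro rfl
    exact ⟨hz0O, hz0u⟩

open Classical in
/-- A simple real root has a name (take a separating prime). -/
theorem name_exists {χ : ℂ[X]} (hm : χ.Monic) (hr : ∀ j, (χ.coeff j).im = 0) {J Y : ℕ}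
    (hJ : 2 * χ.natDegree + 2 ≤ J) (hY : 2 ^ (J * χ.natDegree ^ 2) < ∏ q ∈ prs 0 Y, q)
    {t : ℝ} (ht : χ.rootMultiplicity (t : ℂ) = 1) :
    ∃ q < Y, ∃ u < J * Y + 1, (∀ q' < Y, oc χ J q' (J * Y + 1) ≤ oc χ J q (J * Y + 1)) ∧
      Odd (fc χ J q u) ∧ Odd ((range χ.natDegree).filter fun k =>
        ((rt χ k).im = 0 ∧ fp χ J q (rt χ k) = u) ∧ rt χ k = t).card := by
  obtain ⟨q, hq, hinj⟩ := ix_exists_inj hm hr hJ hY
  have htO : (t : ℂ) ∈ ixO χ := by
    rw [ix_mem_O]
    refine ⟨Complex.ofReal_im t, ?_⟩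
    unfold ixM
    rw [card_rt_eq hm, ht]
    exact odd_one
  refine ⟨q, hq, fp χ J q t, ix_fp_le χ J hq _, fun q' _ => ?_, ?_, ?_⟩
  · exact (ix_oc_le _ _ _ _).trans (card_image_le.trans (ix_oc_ge hq hinj))
  · rw [ix_odd_fc, ix_fib_single hinj htO]
    simp
  · rw [ix_odd_fib]
    exact ⟨htO, rfl⟩

section cplx
variable {γ : Type} [Enc γ]

theorem ix_cp_thv {G : γ → ℂ[X]} (hG : CX (fun c _ => G c)) {j i : γ → ℕ} (hj : BT j)
    (hi : PT i) :
    CP (fun c z => (-1) ^ j c * (derivative^[j c / 2] (G c)).eval (z (i c))) :=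
  CP.mul (CP.pow (CP.neg CP.one) hj)
    (CX.eval (H := fun _ z => z) (CX.iterDeriv (k := fun c => j c / 2) hG (by fun_prop))
      (CP.var hi) CV.id)

theorem ix_cd_fc {G : γ → ℂ[X]} {N J q u : γ → ℕ} (hG : CX (fun c _ => G c)) (hN : BT N)
    (hm : ∀ c, (G c).Monic ∧ (G c).natDegree = N c) (hJ : BT J) (hq : BT q) (hu : BT u) :
    CD (fun c => Odd (fc (G c) (J c) (q c) (u c))) := by
  classical
  have hρ : RF N (fun c _ => rt (G c)) := RF.rt hG hN (fun c _ => hm c)
  have h := par (m := fun _ : γ => 1) (I := fun _ => 1) (J := J) (N := fun c _ => N c)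
    (ρ := fun c _ => rt (G c))
    (v := fun c j z => (-1) ^ j * (derivative^[j / 2] (G c)).eval (z 0))
    (w := fun c _ j => pm 2 j (q c)) (u := fun c _ => u c) (PT.const 1) (BT.const 1) hJ
    (hρ.comp (f := fun p : γ × ℕ => p.1) (by fun_prop))
    (ix_cp_thv (G := fun p : γ × Bin => G p.1) (j := fun p => p.2.val) (i := fun _ => 0)
      (hG.comp (f := fun p : γ × Bin => p.1) (by fun_prop)) (by fun_prop) (PT.const 0))
    (by fun_prop) (by fun_prop)
  refine h.congr fun c => ?_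
  unfold fc
  rw [(hm c).2]
  have tp0 : ∀ ι : Fin 1 → ℕ, tp (fun _ => rt (G c)) ι 0 = rt (G c) (ι 0) := fun ι => rfl
  rw [Finset.card_nbij' (fun ι : Fin 1 → ℕ => ι 0) (fun k _ => k) ?_ ?_ ?_ ?_]
  · intro ι hι
    simp only [coe_filter, mem_tups, Set.mem_ofPred_eq, mem_range] at hι ⊢
    refine ⟨hι.1 0, hι.2.1 0, ?_⟩
    have := hι.2.2 0 (by omega)
    simp only [tp0] at this
    rw [← this]
    unfold fp thb
    congr!
  · intro k hk
    simp only [coe_filter, mem_tups, Set.mem_ofPred_eq, mem_range] at hk ⊢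
    refine ⟨fun _ => hk.1, fun _ => hk.2.1, fun _ _ => ?_⟩
    simp only [tp0]
    rw [← hk.2.2]
    unfold fp thb
    congr!
  · intro ι _
    funext i
    rw [Subsingleton.elim i 0]
  · intro k _
    rfl

theorem ix_cf_oc {G : γ → ℂ[X]} {N J q U : γ → ℕ} (hG : CX (fun c _ => G c)) (hN : BT N)
    (hm : ∀ c, (G c).Monic ∧ (G c).natDegree = N c) (hJ : BT J) (hq : BT q) (hU : BT U) :
    CF (fun c => oc (G c) (J c) (q c) (U c)) :=
  CF.cnt (P := fun c u => Odd (fc (G c) (J c) (q c) u)) hU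
    (ix_cd_fc (G := fun p : γ × Bin => G p.1) (N := fun p => N p.1) (J := fun p => J p.1)
      (q := fun p => q p.1) (u := fun p => p.2.val)
      (hG.comp (f := fun p : γ × Bin => p.1) (by fun_prop)) (by fun_prop) (fun p => hm p.1)
      (by fun_prop) (by fun_prop) (by fun_prop))

/-- Admissible names. -/
def ixOk (χ : ℂ[X]) (E J Y q u : ℕ) : Prop :=
  χ.natDegree < E ∧ (∀ q' < Y, oc χ J q' (J * Y + 1) ≤ oc χ J q (J * Y + 1)) ∧ Odd (fc χ J q u)

open Classical in
/-- `t` is the point named by `q, u`. -/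
def ixU (χ : ℂ[X]) (J q u : ℕ) (t : ℝ) : Prop :=
  ∀ z : ℂ, Odd ((range χ.natDegree).filter fun k =>
      ((rt χ k).im = 0 ∧ fp χ J q (rt χ k) = u) ∧ rt χ k = z).card ↔ z = t

open Classical in
/-- The point named by `q, u`. -/
noncomputable def ixVal (χ : ℂ[X]) (J q u : ℕ) : ℝ :=
  if h : ∃ t, ixU χ J q u t then h.choose else 0

theorem ixVal_spec {χ : ℂ[X]} {J q u : ℕ} (h : ∃ t, ixU χ J q u t) :
    ixU χ J q u (ixVal χ J q u) := by
  unfold ixVal
  rw [dif_pos h]
  exact h.choose_spec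

theorem ix_cd_ok {G : γ → ℂ[X]} {N E J Y q u : γ → ℕ} (hG : CX (fun c _ => G c)) (hN : BT N)
    (hm : ∀ c, (G c).Monic ∧ (G c).natDegree = N c) (hE : BT E) (hJ : BT J) (hY : BT Y)
    (hq : BT q) (hu : BT u) : CD (fun c => ixOk (G c) (E c) (J c) (Y c) (q c) (u c)) := by
  have h1 : CD (fun c => N c < E c) := CD.ofDT (by fun_prop)
  have h2 : CD (fun c => ∀ q' < Y c, oc (G c) (J c) q' (J c * Y c + 1) ≤
      oc (G c) (J c) (q c) (J c * Y c + 1)) :=
    CD.all (P := fun c q' => oc (G c) (J c) q' (J c * Y c + 1) ≤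
      oc (G c) (J c) (q c) (J c * Y c + 1)) hY
      (CF.le
        (ix_cf_oc (G := fun p : γ × Bin => G p.1) (N := fun p => N p.1) (J := fun p => J p.1)
          (q := fun p => p.2.val) (U := fun p => J p.1 * Y p.1 + 1)
          (hG.comp (f := fun p : γ × Bin => p.1) (by fun_prop)) (by fun_prop) (fun p => hm p.1)
          (by fun_prop) (by fun_prop) (by fun_prop))
        (ix_cf_oc (G := fun p : γ × Bin => G p.1) (N := fun p => N p.1) (J := fun p => J p.1)
          (q := fun p => q p.1) (U := fun p => J p.1 * Y p.1 + 1)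
          (hG.comp (f := fun p : γ × Bin => p.1) (by fun_prop)) (by fun_prop) (fun p => hm p.1)
          (by fun_prop) (by fun_prop) (by fun_prop)))
  refine (h1.and (h2.and (ix_cd_fc hG hN hm hJ hq hu))).congr fun c => ?_
  unfold ixOk
  rw [(hm c).2]

/-- The monic polynomial named by the first three digits. -/
noncomputable def ixχ (W : ℕ → ℂ[X]) (L ν : ℕ) : ℂ[X] :=
  mon (dg L ν 2) (derivative^[dg L ν 1] (W (dg L ν 0)))
    ((derivative^[dg L ν 1] (W (dg L ν 0))).coeff (dg L ν 2))⁻¹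

theorem ix_cx {W : γ → ℕ → ℂ[X]} {L : γ → ℕ}
    (hW : CX (fun q : γ × Bin => fun _ => W q.1 q.2.val)) (hL : BT L) :
    CX (fun p : γ × Bin => fun _ => ixχ (W p.1) (L p.1) p.2.val) := by
  have hdg : ∀ i : ℕ, BT (fun p : γ × Bin => dg (L p.1) p.2.val i) := fun i => by fun_prop
  have h0 : CX (fun p : γ × Bin => fun _ => W p.1 (dg (L p.1) p.2.val 0)) :=
    hW.comp (f := fun p : γ × Bin => (p.1, (⟨dg (L p.1) p.2.val 0⟩ : Bin))) (by fun_prop)
  have h1 := h0.iterDeriv (hdg 1)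
  exact h1.mon (hdg 2) (h1.coeff (hdg 2)).inv0

theorem ix_sum_block {m J i : ℕ} (hi : i < m) (f : ℕ → ℕ → ℕ) :
    ∑ j ∈ range (m * J), (if j / J = i then f (j / J) (j % J) else 0) = ∑ j ∈ range J, f i j := by
  rw [← Finset.sum_filter]
  refine Finset.sum_nbij' (fun j => j % J) (fun j => J * i + j) ?_ ?_ ?_ ?_ ?_
  · intro j hj
    simp only [mem_filter, mem_range] at hj ⊢
    refine Nat.mod_lt _ (Nat.pos_of_ne_zero ?_)
    rintro rfl
    simp at hj
  · intro j hj
    simp only [mem_filter, mem_range] at hj ⊢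
    refine ⟨?_, ?_⟩
    · calc J * i + j < J * (i + 1) := by rw [Nat.mul_succ]; omega
        _ ≤ m * J := by rw [mul_comm m]; exact Nat.mul_le_mul_left _ hi
    · rw [Nat.mul_add_div (by omega), Nat.div_eq_of_lt hj, add_zero]
  · intro j hj
    simp only [mem_filter, mem_range] at hj
    rw [← hj.2]
    exact Nat.div_add_mod _ _
  · intro j hj
    simp only [mem_range] at hj
    rw [Nat.mul_add_mod, Nat.mod_eq_of_lt hj]
  · intro j hj
    simp only [mem_filter, mem_range] at hj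
    rw [hj.2]

open Classical in
theorem ix_cd_sign {G : γ → ℕ → ℂ[X]} {N q u : γ → ℕ → ℕ} {m J : γ → ℕ} {g : γ → Pt → ℂ}
    (hm : PT m) (hG : CX (fun p : γ × ℕ => fun _ => G p.1 p.2))
    (hN : BT (fun p : γ × ℕ => N p.1 p.2))
    (hmon : ∀ c i, (G c i).Monic ∧ (G c i).natDegree = N c i) (hJ : BT J)
    (hq : BT (fun p : γ × ℕ => q p.1 p.2)) (hu : BT (fun p : γ × ℕ => u p.1 p.2)) (hg : CP g) :
    CD (fun c => Odd ((tups (m c) (N c)).filter fun ι =>
      (∀ i : Fin (m c), (rt (G c i) (ι i)).im = 0 ∧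
        fp (G c i) (J c) (q c i) (rt (G c i) (ι i)) = u c i) ∧
      0 < (g c (tp (fun i => rt (G c i)) ι)).re).card) := by
  have hρ : RF (fun p : γ × ℕ => N p.1 p.2) (fun p _ => rt (G p.1 p.2)) :=
    RF.rt hG hN (fun p _ => hmon p.1 p.2)
  have hmB : BT m := BT.ofPT hm
  have hi : PT (fun p : γ × Bin => un (m p.1) (p.2.val / J p.1)) := by fun_prop
  have hv : CP (fun p : γ × Bin => fun z => if p.2.val < m p.1 * J p.1 then
      (-1) ^ (p.2.val % J p.1) * (derivative^[p.2.val % J p.1 / 2]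
        (G p.1 (un (m p.1) (p.2.val / J p.1)))).eval (z (un (m p.1) (p.2.val / J p.1)))
      else g p.1 z) :=
    CP.ite (CD.ofDT (by fun_prop))
      (ix_cp_thv (G := fun p : γ × Bin => G p.1 (un (m p.1) (p.2.val / J p.1)))
        (j := fun p => p.2.val % J p.1) (i := fun p => un (m p.1) (p.2.val / J p.1))
        (hG.comp (f := fun p : γ × Bin => (p.1, un (m p.1) (p.2.val / J p.1))) (by fun_prop))
        (by fun_prop) hi)
      (hg.comp (f := fun p : γ × Bin => p.1) (by fun_prop))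
  have hq' : BT (fun p : γ × Bin × Bin => q p.1 (un (m p.1) p.2.1.val)) :=
    hq.comp (f := fun p : γ × Bin × Bin => (p.1, un (m p.1) p.2.1.val)) (by fun_prop)
  have hu' : BT (fun p : γ × Bin => u p.1 (un (m p.1) p.2.val)) :=
    hu.comp (f := fun p : γ × Bin => (p.1, un (m p.1) p.2.val)) (by fun_prop)
  have h := par (m := m) (I := fun c => m c + 1) (J := fun c => m c * J c + 1) (N := N)
    (ρ := fun c i => rt (G c i))
    (v := fun c j z => if j < m c * J c then
      (-1) ^ (j % J c) * (derivative^[j % J c / 2] (G c (un (m c) (j / J c)))).eval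
        (z (un (m c) (j / J c))) else g c z)
    (w := fun c i j => if j < m c * J c then
      (if j / J c = i then pm 2 (j % J c) (q c (un (m c) i)) else 0) else (if i = m c then 1 else 0))
    (u := fun c i => if i < m c then u c (un (m c) i) else 1) hm (by fun_prop) (by fun_prop) hρ hv
    (BT.ite (by fun_prop) (BT.ite (by fun_prop) (BT.pm (BT.const 2) (by fun_prop) hq') (BT.const 0))
      (by fun_prop))
    (BT.ite (by fun_prop) hu' (BT.const 1))
  refine h.congr fun c => ?_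
  refine iff_of_eq (congrArg (fun s : Finset (Fin (m c) → ℕ) => Odd s.card) ?_)
  refine filter_congr fun ι _ => ?_
  have hlt : ∀ j < m c * J c, j / J c < m c := fun j hj =>
    Nat.div_lt_of_lt_mul (by rwa [mul_comm] at hj)
  have hun : ∀ i < m c, un (m c) i = i := fun i hi => min_eq_left hi.le
  have e1 : ∀ i : Fin (m c), ∑ j ∈ range (m c * J c + 1),
      (if 0 < (if j < m c * J c then
        (-1) ^ (j % J c) * (derivative^[j % J c / 2] (G c (un (m c) (j / J c)))).eval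
          (tp (fun i => rt (G c i)) ι (un (m c) (j / J c))) else
          g c (tp (fun i => rt (G c i)) ι)).re then
        (if j < m c * J c then
          (if j / J c = i then pm 2 (j % J c) (q c (un (m c) i)) else 0)
          else (if (i : ℕ) = m c then 1 else 0)) else 0) =
      fp (G c i) (J c) (q c i) (rt (G c i) (ι i)) := by
    intro i
    rw [Finset.sum_range_succ, if_neg (lt_irrefl _), if_neg (lt_irrefl _), if_neg i.2.ne, ite_self,
      add_zero]
    have e := ix_sum_block (J := J c) i.2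
      (fun i' j => if thb (G c i') j (tp (fun i => rt (G c i)) ι i') then pm 2 j (q c i') else 0)
    simp only [tp_fin] at e
    unfold fp
    rw [← e]
    refine Finset.sum_congr rfl fun j hj => ?_
    have hj' := mem_range.1 hj
    rw [if_pos hj', if_pos hj', hun _ (hlt j hj'), hun _ i.2]
    by_cases h3 : j / J c = i
    · rw [if_pos h3, if_pos h3, h3]
      unfold thb
      congr!
    · rw [if_neg h3, if_neg h3, ite_self]
  have e2 : ∑ j ∈ range (m c * J c + 1),
      (if 0 < (if j < m c * J c then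
        (-1) ^ (j % J c) * (derivative^[j % J c / 2] (G c (un (m c) (j / J c)))).eval
          (tp (fun i => rt (G c i)) ι (un (m c) (j / J c))) else
          g c (tp (fun i => rt (G c i)) ι)).re then
        (if j < m c * J c then
          (if j / J c = m c then pm 2 (j % J c) (q c (un (m c) (m c))) else 0)
          else (if m c = m c then 1 else 0)) else 0) =
      if 0 < (g c (tp (fun i => rt (G c i)) ι)).re then 1 else 0 := by
    rw [Finset.sum_range_succ, if_neg (lt_irrefl _), if_neg (lt_irrefl _), if_pos rfl,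
      Finset.sum_eq_zero, zero_add]
    intro j hj
    have hj' := mem_range.1 hj
    rw [if_pos hj', if_pos hj', if_neg (hlt j hj').ne, ite_self]
  constructor
  · rintro ⟨h1, h2⟩
    refine ⟨fun i => ⟨h1 i, ?_⟩, ?_⟩
    · have := h2 i (by omega)
      rw [e1 i, if_pos i.2, hun i i.2] at this
      exact this
    · have := h2 (m c) (by omega)
      rw [e2, if_neg (lt_irrefl _)] at this
      by_contra h3
      rw [if_neg h3] at this
      exact zero_ne_one this
  · rintro ⟨h1, h2⟩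
    refine ⟨fun i => (h1 i).1, fun i hi => ?_⟩
    rcases Nat.lt_or_ge i (m c) with h3 | h3
    · have := e1 ⟨i, h3⟩
      simp only at this
      rw [this, if_pos h3, hun i h3]
      exact (h1 ⟨i, h3⟩).2
    · obtain rfl : i = m c := by omega
      rw [e2, if_pos h2, if_neg (lt_irrefl _)]

end cplx

theorem ix_iter_mult (p : ℂ[X]) (t : ℂ) (k : ℕ) (hk : k ≤ p.rootMultiplicity t) :
    (derivative^[k] p).rootMultiplicity t = p.rootMultiplicity t - k := by
  induction k with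
  | zero => rfl
  | succ k ih =>
    have h1 := ih (by omega)
    have h2 : 0 < (derivative^[k] p).rootMultiplicity t := by omega
    rw [Function.iterate_succ_apply',
      derivative_rootMultiplicity_of_root (rootMultiplicity_pos'.1 h2).2, h1]
    omega

theorem ix_simple {p : ℂ[X]} (hp : p ≠ 0) {t : ℂ} (ht : p.eval t = 0) :
    ∃ μ ≤ p.natDegree, (derivative^[μ] p).rootMultiplicity t = 1 := by
  have h1 : 0 < p.rootMultiplicity t := (rootMultiplicity_pos hp).2 ht
  have h2 : p.rootMultiplicity t ≤ p.natDegree := by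
    have := natDegree_le_of_dvd (pow_rootMultiplicity_dvd p t) hp
    simpa using this
  refine ⟨p.rootMultiplicity t - 1, by omega, ?_⟩
  rw [ix_iter_mult p t _ (by omega)]
  omega

theorem ix_mon_mult {P : ℂ[X]} {t : ℂ} (h : P.rootMultiplicity t = 1) :
    (mon P.natDegree P (P.coeff P.natDegree)⁻¹).rootMultiplicity t = 1 := by
  have hP : P ≠ 0 := by rintro rfl; simp at h
  have hc : P.coeff P.natDegree ≠ 0 := leadingCoeff_ne_zero.2 hP
  rw [mon_eq (fun j hj => coeff_eq_zero_of_natDegree_lt hj) (inv_mul_cancel₀ hc),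
    rootMultiplicity_mul (mul_ne_zero (C_ne_zero.2 (inv_ne_zero hc)) hP), rootMultiplicity_C, h]

/-- Let `E` bound the degrees of the `W a κ`, `κ ≤ K a` (`CX.deg`, `BT.unif`), `J = 2 E + 2`, `Y` from
`exists_primes 0 (J E²)`, `L₁ = K + E + Y + J Y + 2`, `L = L₁ ^ 5`. A name `ν` has the digits
`κ, μ, e, q, u = dg L₁ ν 0, …, dg L₁ ν 4`; `χ a ν = mon e P (P.coeff e)⁻¹` with
`P = derivative^[μ] (W a κ)` (`CX.iterDeriv`, `CX.coeff`, `CP.inv0`, `CX.mon`, `RF.rt`, `CX.real`).
`ok a ν := e < E ∧ (∀ q' < Y, oc χ J q' _ ≤ oc χ J q _) ∧ Odd (fc χ J q u)`, and `val a ν` is the `t` of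
`name_unique` (choice). `Odd (fc χ J q u)` is `CD` in `(a, ν, q, u)` by `par` with `m = 1`, `I = 1`.
A root `t` of multiplicity `μ + 1` of `W a κ ≠ 0` is a simple root of `P`, and `χ = C c * P` for
`e = natDegree P` (`mon_eq`); use `name_exists`, `exists_dg`. For the sign statement apply `par`
with coordinates `rt (χ (π b) (ν b i))`, `I = m + 1`, `J' = m J + 1`, values
`v j = (-1)^(j % J) * (derivative^[j % J / 2] (χ (ν b i))).eval (z i)` with `i = un m (j / J)` for
`j < m J` and `v (m J) = g`, weights `w i j = if j < m J then (if j / J = i then pm 2 (j % J) q_i else 0)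
else (if i = m then 1 else 0)`, targets `u_i` and `1`; then `odd_tuples`. -/
theorem index {W : α → ℕ → ℂ[X]} {K : α → ℕ} (hK : BT K)
    (hW : CX (fun q : α × Bin => fun _ => W q.1 q.2.val)) :
    ∃ (L : α → ℕ) (ok : α → ℕ → Prop) (val : α → ℕ → ℝ), BT L ∧
      CD (fun q : α × Bin => ok q.1 q.2.val) ∧
      (∀ a t, Rt (W a) (K a) t → ∃ ν < L a, ok a ν ∧ val a ν = t) ∧
      ∀ (β : Type) [Enc β] (π : β → α) (m : β → ℕ) (ν : β → ℕ → ℕ) (g : β → Pt → ℂ),
        PT π → PT m → BT (fun q : β × ℕ => ν q.1 q.2) → CP g →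
        CD (fun b => (∀ i < m b, ok (π b) (ν b i)) ∧
          0 < (g b (rc (app (m b) (fun i => val (π b) (ν b i)) 0))).re) := by
  obtain ⟨d, hd, hdeg⟩ := hW.deg
  obtain ⟨E, hE, hEd⟩ := BT.unif (f := fun a y => d (a, ⟨y⟩)) hK hd
  have hWE : ∀ a κ, κ ≤ K a → (W a κ).natDegree < E a := fun a κ h =>
    (hdeg (a, ⟨κ⟩) 0).trans_le (hEd a κ h)
  obtain ⟨J, hJe⟩ : ∃ J : α → ℕ, J = fun a => 2 * E a + 2 := ⟨_, rfl⟩
  have hJ : BT J := by rw [hJe]; fun_prop
  obtain ⟨Y, hY, hYp⟩ := exists_primes (t := fun _ : α => 0) (L := fun a => J a * (E a * E a))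
    (BT.const 0) (by fun_prop)
  obtain ⟨L, hLe⟩ : ∃ L : α → ℕ, L = fun a => K a + E a + Y a + J a * Y a + 2 := ⟨_, rfl⟩
  have hL : BT L := by rw [hLe]; fun_prop
  have hχ : CX (fun p : α × Bin => fun _ => ixχ (W p.1) (L p.1) p.2.val) := ix_cx hW hL
  have hdg : ∀ i : ℕ, BT (fun p : α × Bin => dg (L p.1) p.2.val i) := fun i => by fun_prop
  have hmon : ∀ a ν, (ixχ (W a) (L a) ν).Monic := fun a ν => mon_monic _ _ _
  have hnd : ∀ a ν, (ixχ (W a) (L a) ν).natDegree = dg (L a) ν 2 := fun a ν => mon_natDegree _ _ _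
  have hre : ∀ a ν j, ((ixχ (W a) (L a) ν).coeff j).im = 0 := fun a ν j =>
    hχ.real (a, ⟨ν⟩) 0 j
  have hb : ∀ (a : α) (χ : ℂ[X]), χ.natDegree < E a → 2 * χ.natDegree + 2 ≤ J a ∧
      2 ^ (J a * χ.natDegree ^ 2) < ∏ q ∈ prs 0 (Y a), q := by
    intro a χ h
    refine ⟨by rw [hJe]; simp only; omega, lt_of_le_of_lt ?_ (hYp a)⟩
    refine Nat.pow_le_pow_right (by norm_num) (Nat.mul_le_mul_left _ ?_)
    rw [sq]
    exact Nat.mul_le_mul h.le h.le
  have hval : ∀ a ν, ixOk (ixχ (W a) (L a) ν) (E a) (J a) (Y a) (dg (L a) ν 3) (dg (L a) ν 4) →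
      ixU (ixχ (W a) (L a) ν) (J a) (dg (L a) ν 3) (dg (L a) ν 4)
        (ixVal (ixχ (W a) (L a) ν) (J a) (dg (L a) ν 3) (dg (L a) ν 4)) := by
    intro a ν h
    exact ixVal_spec (name_unique (hmon a ν) (hre a ν) (hb a _ h.1).1 (hb a _ h.1).2 h.2.1 h.2.2)
  have hok : CD (fun p : α × Bin => ixOk (ixχ (W p.1) (L p.1) p.2.val) (E p.1) (J p.1) (Y p.1)
      (dg (L p.1) p.2.val 3) (dg (L p.1) p.2.val 4)) :=
    ix_cd_ok hχ (hdg 2) (fun p => ⟨hmon _ _, hnd _ _⟩) (by fun_prop) (by fun_prop) (by fun_prop)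
      (hdg 3) (hdg 4)
  refine ⟨fun a => L a ^ 5,
    fun a ν => ixOk (ixχ (W a) (L a) ν) (E a) (J a) (Y a) (dg (L a) ν 3) (dg (L a) ν 4),
    fun a ν => ixVal (ixχ (W a) (L a) ν) (J a) (dg (L a) ν 3) (dg (L a) ν 4),
    by fun_prop, hok, ?_, ?_⟩
  · rintro a t ⟨κ, hκ, hW0, hWt⟩
    obtain ⟨μ, hμ, hμ1⟩ := ix_simple hW0 hWt
    have hWa := hWE a κ hκ.le
    have hPd : (derivative^[μ] (W a κ)).natDegree < E a :=
      lt_of_le_of_lt ((natDegree_iterate_derivative _ _).trans (Nat.sub_le _ _)) hWa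
    -- the polynomial only depends on the first three digits
    have hχe : ∀ ν, dg (L a) ν 0 = κ → dg (L a) ν 1 = μ →
        dg (L a) ν 2 = (derivative^[μ] (W a κ)).natDegree →
        ixχ (W a) (L a) ν = mon (derivative^[μ] (W a κ)).natDegree (derivative^[μ] (W a κ))
          ((derivative^[μ] (W a κ)).coeff (derivative^[μ] (W a κ)).natDegree)⁻¹ := by
      intro ν h0 h1 h2
      simp only [ixχ, h0, h1, h2]
    have hKL : κ < L a := by rw [hLe]; simp only; omega
    have hμL : μ < L a := by rw [hLe]; simp only; omega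
    have heL : (derivative^[μ] (W a κ)).natDegree < L a := by rw [hLe]; simp only; omega
    obtain ⟨ν0, -, hν0⟩ := exists_dg (L := L a) (m := 3)
      (fun i => if i = 0 then κ else if i = 1 then μ else (derivative^[μ] (W a κ)).natDegree)
      (fun i _ => by split_ifs <;> assumption)
    have hχ0 := hχe ν0 (by simpa using hν0 0 (by omega)) (by simpa using hν0 1 (by omega))
      (by simpa using hν0 2 (by omega))
    have hr0 := hre a ν0
    have hm0 := hmon a ν0
    rw [hχ0] at hr0 hm0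
    have hd0 := mon_natDegree (derivative^[μ] (W a κ)).natDegree (derivative^[μ] (W a κ))
      ((derivative^[μ] (W a κ)).coeff (derivative^[μ] (W a κ)).natDegree)⁻¹
    have hb0 := hb a _ (hd0.trans_lt hPd)
    obtain ⟨q, hq, u, hu, h1, h2, h3⟩ := name_exists hm0 hr0 hb0.1 hb0.2 (ix_mon_mult hμ1)
    have hqL : q < L a := by rw [hLe]; simp only; omega
    have huL : u < L a := by rw [hLe]; simp only; omega
    obtain ⟨ν, hν, hνd⟩ := exists_dg (L := L a) (m := 5)
      (fun i => if i = 0 then κ else if i = 1 then μ else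
        if i = 2 then (derivative^[μ] (W a κ)).natDegree else if i = 3 then q else u)
      (fun i _ => by split_ifs <;> assumption)
    have hχ1 := hχe ν (by simpa using hνd 0 (by omega)) (by simpa using hνd 1 (by omega))
      (by simpa using hνd 2 (by omega))
    have e3 : dg (L a) ν 3 = q := by simpa using hνd 3 (by omega)
    have e4 : dg (L a) ν 4 = u := by simpa using hνd 4 (by omega)
    have hokν : ixOk (ixχ (W a) (L a) ν) (E a) (J a) (Y a) (dg (L a) ν 3) (dg (L a) ν 4) := by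
      rw [hχ1, e3, e4]
      exact ⟨hd0.trans_lt hPd, h1, h2⟩
    refine ⟨ν, hν, hokν, ?_⟩
    have h4 := hval a ν hokν
    rw [← hχ1, ← e3, ← e4] at h3
    exact (Complex.ofReal_injective ((h4 t).1 h3)).symm
  · intro β _ π m ν g hπ hm hν hg
    have hf : PT (fun p : β × ℕ => (π p.1, (⟨ν p.1 p.2⟩ : Bin))) := by fun_prop
    have h0 := hok.comp hf
    have hχ' := hχ.comp hf
    have hd2 := (hdg 2).comp hf
    have hd3 := (hdg 3).comp hf
    have hd4 := (hdg 4).comp hf
    simp only at h0 hχ' hd2 hd3 hd4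
    have h1 : CD (fun b => ∀ i < m b, ixOk (ixχ (W (π b)) (L (π b)) (ν b i)) (E (π b)) (J (π b))
        (Y (π b)) (dg (L (π b)) (ν b i) 3) (dg (L (π b)) (ν b i) 4)) :=
      CD.allU (P := fun b i => ixOk (ixχ (W (π b)) (L (π b)) (ν b i)) (E (π b)) (J (π b))
        (Y (π b)) (dg (L (π b)) (ν b i) 3) (dg (L (π b)) (ν b i) 4)) hm h0
    have h2 := ix_cd_sign (G := fun b i => ixχ (W (π b)) (L (π b)) (ν b i))
      (N := fun b i => dg (L (π b)) (ν b i) 2) (q := fun b i => dg (L (π b)) (ν b i) 3)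
      (u := fun b i => dg (L (π b)) (ν b i) 4) (J := fun b => J (π b)) hm hχ' hd2
      (fun b i => ⟨hmon _ _, hnd _ _⟩) (hJ.comp hπ) hd3 hd4 hg
    refine (h1.and h2).congr fun b => and_congr_right fun hb' => ?_
    classical
    have h3 := odd_tuples (m := m b) (fun i => dg (L (π b)) (ν b i) 2)
      (fun i k => (rt (ixχ (W (π b)) (L (π b)) (ν b i)) k).im = 0 ∧
        fp (ixχ (W (π b)) (L (π b)) (ν b i)) (J (π b)) (dg (L (π b)) (ν b i) 3)
          (rt (ixχ (W (π b)) (L (π b)) (ν b i)) k) = dg (L (π b)) (ν b i) 4)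
      (fun i => rt (ixχ (W (π b)) (L (π b)) (ν b i)))
      (fun i => (ixVal (ixχ (W (π b)) (L (π b)) (ν b i)) (J (π b)) (dg (L (π b)) (ν b i) 3)
        (dg (L (π b)) (ν b i) 4) : ℝ))
      (fun i hi z => by
        have := hval _ _ (hb' i hi) z
        rw [hnd] at this
        convert this)
      (fun z => 0 < (g b z).re)
    rw [rc_app, rc_zero]
    refine Iff.trans ?_ h3
    congr!

end Crest.Agent.R316
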