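import Crest.Agent.R316.Sample

/-!
Row 316, task INNER: sample points for all sign conditions.

Plan. Apply `sample` on `α × Bin` (a mask `b < 2^s`), with `n + 1` variables (`z 0 = w` is new) and
`F (a, b) z = ∑_{k < s} (if dg 2 b k = 1 then p a k (tl z) ^ 2 else 0)
 + (z 0 * ∏_{k < s} (if dg 2 b k = 1 then 1 else p a k (tl z)) - 1) ^ 2`.
Given `y`, let `b` be the mask of the `k` with `p a k = 0` at `app n y x` (`exists_dg`), and
`ψ Y = ∀ k < s, sg (p a) (app n (tl Y) x) k = sg (p a) (app n y x) k`. On the zero set of `F` the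
masked functions vanish and the others do not, so `ψ` is locally constant (`CP.continuous`,
`CP.real`). Combine the indices: `V' a κ = V (a, κ / K') (κ % K')`, `K' = ` uniform bound
(`BT.unif`), total `2^s * K'`.
-/

set_option autoImplicit false
set_option linter.dupNamespace false

namespace Crest.Agent.R316

open Crest.Agent.PT Crest.Agent.QC Crest.Agent.R317 Polynomial Finset

variable {α β : Type} [Enc α] [Enc β]

/-- real form of the auxiliary function -/
noncomputable def inn_f (s b : ℕ) (w : ℝ) (r : ℕ → ℝ) : ℝ :=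
  ∑ k ∈ range s, (if dg 2 b k = 1 then r k ^ 2 else 0) +
    (w * ∏ k ∈ range s, (if dg 2 b k = 1 then 1 else r k) - 1) ^ 2

theorem inn_nonneg (s b : ℕ) (r : ℕ → ℝ) :
    ∀ k ∈ range s, 0 ≤ (if dg 2 b k = 1 then r k ^ 2 else 0) := fun k _ => by
  split_ifs <;> positivity

theorem inn_zero {s b : ℕ} {w : ℝ} {r : ℕ → ℝ} (h : inn_f s b w r = 0) (k : ℕ) (hk : k < s) :
    (r k = 0 ↔ dg 2 b k = 1) := by
  unfold inn_f at h
  have h1 := Finset.sum_nonneg (inn_nonneg s b r)
  have h2 := sq_nonneg (w * ∏ k ∈ range s, (if dg 2 b k = 1 then 1 else r k) - 1)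
  have h3 := (Finset.sum_eq_zero_iff_of_nonneg (inn_nonneg s b r)).1 (by linarith) k
    (mem_range.2 hk)
  have h4 : w * ∏ k ∈ range s, (if dg 2 b k = 1 then 1 else r k) - 1 = 0 :=
    pow_eq_zero_iff (two_ne_zero) |>.1 (by linarith)
  constructor
  · intro h0
    by_contra hb
    rw [Finset.prod_eq_zero (mem_range.2 hk) (by rw [if_neg hb, h0])] at h4
    norm_num at h4
  · intro hb
    rw [if_pos hb] at h3
    exact pow_eq_zero_iff two_ne_zero |>.1 h3

theorem inner {p : α → ℕ → Pt → ℂ} {n s : α → ℕ} (hp : CP (fun q : α × ℕ => p q.1 q.2))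
    (hn : PT n) (hs : PT s) :
    ∃ (V : α → ℕ → Pt → ℂ[X]) (K : α → ℕ), BT K ∧ CX (fun q : α × Bin => V q.1 q.2.val) ∧
      ∀ a (x y : ℕ → ℝ), ∃ y' : ℕ → ℝ,
        (∀ k < s a, sg (p a) (app (n a) y' x) k = sg (p a) (app (n a) y x) k) ∧
        ∀ i < n a, Rt (fun κ => V a κ (rc x)) (K a) (y' i) := by
  classical
  have hpk : CP (fun (q : (α × Bin) × ℕ) z => p q.1.1 q.2 (tl z)) :=
    (hp.comp (f := fun q : (α × Bin) × ℕ => (q.1.1, q.2)) (by fun_prop)).at (CV.tl CV.id)
  have hb : CD (fun q : (α × Bin) × ℕ => dg 2 q.1.2.val q.2 = 1) := CD.ofDT (by fun_prop)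
  have hF : CP (fun (q : α × Bin) z =>
      ∑ k ∈ range (s q.1), (if dg 2 q.2.val k = 1 then p q.1 k (tl z) ^ 2 else 0) +
      (z 0 * ∏ k ∈ range (s q.1), (if dg 2 q.2.val k = 1 then 1 else p q.1 k (tl z)) - 1) ^ 2) :=
    (CP.sumU (n := fun q : α × Bin => s q.1)
      (F := fun q k z => if dg 2 q.2.val k = 1 then p q.1 k (tl z) ^ 2 else 0) (by fun_prop)
      (CP.ite hb (hpk.pow (k := fun _ => 2) (by fun_prop)) CP.zero)).add
    ((((CP.var (i := fun _ => 0) (by fun_prop)).mul (CP.prodU (n := fun q : α × Bin => s q.1)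
      (F := fun q k z => if dg 2 q.2.val k = 1 then 1 else p q.1 k (tl z)) (by fun_prop)
      (CP.ite hb CP.one hpk))).sub CP.one).pow (k := fun _ => 2) (by fun_prop))
  obtain ⟨V, K, hK, hV, hS⟩ := sample (m := fun q : α × Bin => n q.1 + 1) hF (by fun_prop)
  obtain ⟨K', hK', hKK⟩ := BT.unif (f := fun a b => K (a, ⟨b⟩)) (B := fun a => 2 ^ s a)
    (by fun_prop) hK
  refine ⟨fun a κ => V (a, ⟨κ / K' a⟩) (κ % K' a), fun a => 2 ^ s a * K' a, by fun_prop,
    hV.comp (f := fun q : α × Bin => ((q.1, (⟨q.2.val / K' q.1⟩ : Bin)), (⟨q.2.val % K' q.1⟩ : Bin)))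
      (by fun_prop), fun a x y => ?_⟩
  have hre : ∀ k (w : ℕ → ℝ), p a k (rc w) = ((p a k (rc w)).re : ℂ) := fun k w =>
    Complex.ext (by simp) (by simpa using hp.real (a, k) w)
  let r : (ℕ → ℝ) → ℕ → ℝ := fun Y k => (p a k (rc (app (n a) Y x))).re
  obtain ⟨b, hb1, hb2⟩ := exists_dg (L := 2) (m := s a) (fun k => if r y k = 0 then 1 else 0)
    (fun k _ => by split_ifs <;> omega)
  have hval : ∀ Y : ℕ → ℝ,
      ∑ k ∈ range (s a), (if dg 2 b k = 1 then p a k (tl (rc (app (n a + 1) Y x))) ^ 2 else 0) +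
      (rc (app (n a + 1) Y x) 0 * ∏ k ∈ range (s a),
        (if dg 2 b k = 1 then 1 else p a k (tl (rc (app (n a + 1) Y x)))) - 1) ^ 2 =
      (inn_f (s a) b (Y 0) (r (tl Y)) : ℂ) := by
    intro Y
    rw [← rc_tl, tl_app, rc_apply, app_lt _ _ (Nat.succ_pos _), inn_f]
    push_cast
    congr 1
    · refine Finset.sum_congr rfl fun k _ => ?_
      split_ifs
      · rw [hre]; simp [r]
      · simp
    · congr 3
      refine Finset.prod_congr rfl fun k _ => ?_
      split_ifs
      · simp
      · rw [hre]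
  obtain ⟨Y, -, hY1, hY2⟩ := hS (a, ⟨b⟩) x
    (fun Y => ∀ k < s a, sg (p a) (app (n a) (tl Y) x) k = sg (p a) (app (n a) y x) k)
    (fun Y => by
      simp only [hval, Complex.ofReal_re, inn_f]
      exact add_nonneg (Finset.sum_nonneg (inn_nonneg _ _ _)) (sq_nonneg _))
    (by
      intro Y Y0 h1 h2 h3
      simp only [hval, Complex.ofReal_eq_zero] at h1 h2
      have key : ∀ k ∈ range (s a), ∀ᶠ j in Filter.atTop,
          sg (p a) (app (n a) (tl (Y j)) x) k = sg (p a) (app (n a) (tl Y0) x) k := by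
        intro k hk
        have hk := mem_range.1 hk
        change ∀ᶠ j in Filter.atTop, SignType.sign (r (tl (Y j)) k) = SignType.sign (r (tl Y0) k)
        by_cases h0 : r (tl Y0) k = 0
        · refine Filter.Eventually.of_forall fun j => ?_
          rw [h0, (inn_zero (h1 j) k hk).2 ((inn_zero h2 k hk).1 h0)]
        · have ht : Filter.Tendsto (fun j => r (tl (Y j)) k) Filter.atTop (nhds (r (tl Y0) k)) := by
            refine (Complex.continuous_re.tendsto _).comp
              (((hp.continuous (a, k)).tendsto _).comp (tendsto_pi_nhds.2 fun i => ?_))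
            by_cases hi : i < n a
            · simp only [rc, app_lt _ _ hi, tl_apply]
              exact (Complex.continuous_ofReal.tendsto _).comp (h3 (i + 1) (Nat.succ_lt_succ hi))
            · simp only [rc, app_ge _ _ (not_lt.mp hi)]
              exact tendsto_const_nhds
          rcases lt_or_gt_of_ne h0 with h | h
          · filter_upwards [ht.eventually (eventually_lt_nhds h)] with j hj
            rw [sign_neg hj, sign_neg h]
          · filter_upwards [ht.eventually (eventually_gt_nhds h)] with j hj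
            rw [sign_pos hj, sign_pos h]
      filter_upwards [(Filter.eventually_all_finset _).2 key] with j hj
      exact forall₂_congr fun k hk => by rw [hj k (mem_range.2 hk)])
    (by
      refine ⟨cs (∏ k ∈ range (s a), (if dg 2 b k = 1 then 1 else r y k))⁻¹ y, ?_,
        fun k _ => by rw [tl_cs]⟩
      simp only [hval, Complex.ofReal_eq_zero, tl_cs, cs_zero, inn_f]
      rw [inv_mul_cancel₀, Finset.sum_eq_zero]
      · simp
      · intro k hk
        rw [hb2 k (mem_range.1 hk)]
        by_cases h : r y k = 0 <;> simp [h]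
      · refine Finset.prod_ne_zero_iff.2 fun k hk => ?_
        rw [hb2 k (mem_range.1 hk)]
        by_cases h : r y k = 0 <;> simp [h])
  refine ⟨tl Y, hY1, fun i hi => ?_⟩
  obtain ⟨κ, hκ, h1, h2⟩ := hY2 (i + 1) (Nat.succ_lt_succ hi)
  have h3 : κ < K' a := hκ.trans_le (hKK a b hb1.le)
  have k1 : (K' a * b + κ) / K' a = b := by
    rw [Nat.mul_add_div (by omega), Nat.div_eq_of_lt h3, add_zero]
  have k2 : (K' a * b + κ) % K' a = κ := by
    rw [Nat.mul_add_mod, Nat.mod_eq_of_lt h3]
  refine ⟨K' a * b + κ, by nlinarith, ?_⟩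
  simp only [k1, k2]
  exact ⟨h1, h2⟩

end Crest.Agent.R316
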