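import Crest.Agent.R316.Alg

/-!
Row 316, task LOC: the realised sign vectors are locally constant on a stratum.

Plan. Argue by contradiction along a subsequence (there are finitely many relevant `σ`, but it is
simpler to prove: every subsequence has a subsequence along which the claim holds eventually,
`Filter.eventually_iff_seq_eventually`-style, or extract a subsequence where it always fails).
The roots `rt (χ N) k`, `k < e`, are bounded (Cauchy bound), so along a subsequence they converge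
to `ρ' k`, and `∏ (t - ρ' k) = eval t χ0`. By `perm_of_prod_eq` the counts `zc1`, `zc2` of `χ0` can
be computed with `ρ'` instead of `rt χ0`. Eventually the nonzero quantities (differences of roots,
values `q k` at tuples) stay nonzero, so the zero sets at `N` are contained in those of the limit,
hence equal by the counts. A limit root is real iff the root at `N` is real (eventually): nonreal
is an open condition; if `ρ' k` is real, `conj (ρ N k) = ρ N k'` for some `k'`, which forces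
`ρ' k' = ρ' k` eventually (distinct limits are separated), hence `ρ N k' = ρ N k`. The signs at
real tuples agree: zero by the pattern, nonzero by continuity and `hqr`.
-/

set_option autoImplicit false
set_option linter.dupNamespace false

namespace Crest.Agent.R316

open Crest.Agent.PT Crest.Agent.QC Crest.Agent.R317 Polynomial Finset

variable {α β : Type} [Enc α] [Enc β]

theorem loc_bound {p : ℂ[X]} (hp : p.Monic) {z : ℂ} (hz : p.eval z = 0) :
    ‖z‖ ≤ ∑ j ∈ range p.natDegree, ‖p.coeff j‖ + 1 := by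
  have h := (IsRoot.norm_lt_cauchyBound hp.ne_zero hz).le
  rw [cauchyBound, hp.leadingCoeff, nnnorm_one, div_one] at h
  have h2 : (range p.natDegree).sup (fun j => ‖p.coeff j‖₊) ≤
      ∑ j ∈ range p.natDegree, ‖p.coeff j‖₊ :=
    Finset.sup_le fun j hj => single_le_sum (f := fun j => ‖p.coeff j‖₊) (fun _ _ => zero_le) hj
  simpa [NNReal.coe_sum] using NNReal.coe_le_coe.2 (h.trans (add_le_add_left h2 1))

theorem loc_sum_perm {e m : ℕ} {ρ ρ' : ℕ → ℂ} {π : ℕ → ℕ} (hπ : Set.BijOn π (range e) (range e))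
    (h : ∀ k < e, ρ (π k) = ρ' k) (f : (Fin m → ℂ) → ℕ) :
    ∑ ι ∈ tups m (fun _ => e), f (fun i => ρ' (ι i)) =
      ∑ ι ∈ tups m (fun _ => e), f (fun i => ρ (ι i)) := by
  refine sum_nbij (fun ι i => π (ι i)) ?_ ?_ ?_ ?_
  · intro ι hι
    exact mem_tups.2 fun i => mem_range.1 (hπ.mapsTo (mem_range.2 (mem_tups.1 hι i)))
  · intro ι hι ι' hι' e
    funext i
    exact hπ.injOn (mem_range.2 (mem_tups.1 hι i)) (mem_range.2 (mem_tups.1 hι' i)) (congrFun e i)
  · intro ι hι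
    choose g hg hg' using fun i => hπ.surjOn (mem_range.2 (mem_tups.1 hι i))
    exact ⟨g, mem_tups.2 fun i => mem_range.1 (hg i), funext hg'⟩
  · intro ι hι
    congr 1
    funext i
    exact (h _ (mem_tups.1 hι i)).symm

theorem loc_root {e : ℕ} {p : ℂ[X]} {ρ : ℕ → ℂ} (h : ∀ t, p.eval t = ∏ k ∈ range e, (t - ρ k))
    {t : ℂ} : p.eval t = 0 ↔ ∃ k < e, ρ k = t := by
  rw [h, prod_eq_zero_iff]
  exact exists_congr fun k => by rw [mem_range, sub_eq_zero, eq_comm]

theorem loc_real {n : ℕ} {ρ : ℕ → ℂ} {ι : Fin n → ℕ} (h : ∀ i, (ρ (ι i)).im = 0) (x : ℕ → ℝ) :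
    app n (tp (fun _ => ρ) ι) (rc x) = rc (app n (fun i => (tp (fun _ => ρ) ι i).re) x) := by
  rw [rc_app]
  refine app_congr _ fun i hi => ?_
  have : tp (fun _ => ρ) ι i = ρ (ι ⟨i, hi⟩) := dif_pos hi
  rw [rc_apply, this]
  exact Complex.ext rfl (h _)

theorem loc_RS {e n s : ℕ} {q : ℕ → Pt → ℂ} {p : ℂ[X]} {ρ : ℕ → ℂ}
    (h : ∀ t, p.eval t = ∏ k ∈ range e, (t - ρ k)) {x : ℕ → ℝ} {σ : ℕ → SignType} :
    RS q s n p x σ ↔ ∃ ι ∈ tups n (fun _ => e), (∀ i, (ρ (ι i)).im = 0) ∧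
      ∀ k < s, SignType.sign (q k (app n (tp (fun _ => ρ) ι) (rc x))).re = σ k := by
  constructor
  · rintro ⟨y, hy, hs⟩
    choose ι h1 h2 using fun i : Fin n => (loc_root h).1 (hy i i.2)
    refine ⟨ι, mem_tups.2 h1, fun i => by rw [h2]; simp, fun k hk => ?_⟩
    rw [← hs k hk, sg, rc_app, app_congr (y' := rc y)]
    intro i hi
    exact (dif_pos hi).trans (h2 ⟨i, hi⟩)
  · rintro ⟨ι, h1, h2, hs⟩
    refine ⟨fun i => (tp (fun _ => ρ) ι i).re, fun i hi => ?_, fun k hk => ?_⟩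
    · refine (loc_root h).2 ⟨ι ⟨i, hi⟩, mem_tups.1 h1 _, ?_⟩
      have : tp (fun _ => ρ) ι i = ρ (ι ⟨i, hi⟩) := dif_pos hi
      simp only [this]
      exact Complex.ext rfl (h2 _)
    · rw [← hs k hk, loc_real h2, sg]

theorem loc_conj {p : ℂ[X]} (hr : ∀ j, (p.coeff j).im = 0) {z : ℂ} (hz : p.eval z = 0) :
    p.eval ((starRingEnd ℂ) z) = 0 := by
  have := congrArg (starRingEnd ℂ) hz
  rw [eval_eq_sum_range, map_sum, map_zero] at this
  rw [eval_eq_sum_range, ← this]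
  refine sum_congr rfl fun j _ => ?_
  rw [map_mul, map_pow, Complex.conj_eq_iff_im.2 (hr j)]

theorem loc_ne {a b : ℕ → ℂ} {a0 b0 : ℂ} (ha : Filter.Tendsto a Filter.atTop (nhds a0))
    (hb : Filter.Tendsto b Filter.atTop (nhds b0)) :
    ∀ᶠ N in Filter.atTop, a N = b N → a0 = b0 := by
  by_cases h : a0 = b0
  · exact Filter.Eventually.of_forall fun _ _ => h
  · filter_upwards [(ha.sub hb).eventually_ne (sub_ne_zero.2 h)] with N hN e
    exact absurd (sub_eq_zero.2 e) hN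

theorem loc_lt {a b : ℕ → ℝ} {a0 b0 : ℝ} (ha : Filter.Tendsto a Filter.atTop (nhds a0))
    (hb : Filter.Tendsto b Filter.atTop (nhds b0)) :
    ∀ᶠ N in Filter.atTop, a0 < b0 → a N < b N := by
  by_cases h : a0 < b0
  · filter_upwards [ha.eventually_lt hb h] with N hN _ using hN
  · exact Filter.Eventually.of_forall fun _ h' => absurd h' h

theorem loc_filter {γ : Type} {T : Finset γ} {P Q : γ → Prop} [DecidablePred P] [DecidablePred Q]
    (h : ∀ a ∈ T, P a → Q a) (hc : (T.filter P).card = (T.filter Q).card) :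
    ∀ a ∈ T, Q a → P a := by
  intro a ha hQ
  have := eq_of_subset_of_card_le (monotone_filter_right T h) hc.ge
  exact (mem_filter.1 (this ▸ mem_filter.2 ⟨ha, hQ⟩ : a ∈ T.filter P)).2

theorem loc_core {e n s : ℕ} (q : ℕ → Pt → ℂ) (hq : ∀ k, Continuous (q k))
    (hqr : ∀ k x, (q k (rc x)).im = 0) (χ : ℕ → ℂ[X]) (χ0 : ℂ[X])
    (hm : ∀ N, (χ N).Monic ∧ (χ N).natDegree = e) (hm0 : χ0.Monic ∧ χ0.natDegree = e)
    (hr : ∀ N j, ((χ N).coeff j).im = 0)
    (hc : ∀ j, Filter.Tendsto (fun N => (χ N).coeff j) Filter.atTop (nhds (χ0.coeff j)))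
    (x : ℕ → ℕ → ℝ) (x0 : ℕ → ℝ) (hx : Filter.Tendsto x Filter.atTop (nhds x0))
    (h1 : ∀ N, zc1 e (χ N) = zc1 e χ0)
    (h2 : ∀ N, zc2 q s n e (χ N) (rc (x N)) = zc2 q s n e χ0 (rc x0)) (ρ : ℕ → ℂ)
    (hρ : ∀ k < e, Filter.Tendsto (fun N => rt (χ N) k) Filter.atTop (nhds (ρ k))) :
    ∀ᶠ N in Filter.atTop, ∀ σ, RS q s n (χ N) (x N) σ ↔ RS q s n χ0 x0 σ := by
  classical
  have hN : ∀ N t, (χ N).eval t = ∏ k ∈ range e, (t - rt (χ N) k) := fun N t => by
    rw [rt_spec (hm N).1, (hm N).2]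
  have h0 : ∀ t, χ0.eval t = ∏ k ∈ range e, (t - ρ k) := by
    intro t
    have a1 : Filter.Tendsto (fun N => (χ N).eval t) Filter.atTop (nhds (χ0.eval t)) := by
      simp only [eval_eq_sum_range, (hm _).2, hm0.2]
      exact tendsto_finsetSum _ fun j _ => (hc j).mul_const _
    have a2 : Filter.Tendsto (fun N => (χ N).eval t) Filter.atTop
        (nhds (∏ k ∈ range e, (t - ρ k))) := by
      simp only [hN]
      exact tendsto_finsetProd _ fun k hk => (hρ k (mem_range.1 hk)).const_sub t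
    exact tendsto_nhds_unique a1 a2
  obtain ⟨π, hπ, hπ'⟩ := perm_of_prod_eq (N := e) (ρ := rt χ0) (ρ' := ρ) fun t => by
    rw [← h0, rt_spec hm0.1, hm0.2]
  have z1 : zc1 e χ0 = ((tups 2 (fun _ => e)).filter fun ι => ρ (ι 0) - ρ (ι 1) = 0).card := by
    rw [zc1, card_filter, card_filter]
    exact (loc_sum_perm hπ hπ' (fun v : Fin 2 → ℂ => if v 0 - v 1 = 0 then 1 else 0)).symm
  have z2 : zc2 q s n e χ0 (rc x0) = ((range s ×ˢ tups n (fun _ => e)).filter
      fun κ => q κ.1 (app n (tp (fun _ => ρ) κ.2) (rc x0)) = 0).card := by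
    rw [zc2, card_filter, card_filter, sum_product, sum_product]
    exact sum_congr rfl fun k _ => (loc_sum_perm hπ hπ' (fun v : Fin n → ℂ =>
      if q k (app n (fun i => if h : i < n then v ⟨i, h⟩ else 0) (rc x0)) = 0 then 1 else 0)).symm
  have hlim : ∀ k, ∀ ι ∈ tups n (fun _ => e),
      Filter.Tendsto (fun N => q k (app n (tp (fun _ => rt (χ N)) ι) (rc (x N)))) Filter.atTop
        (nhds (q k (app n (tp (fun _ => ρ) ι) (rc x0)))) := by
    intro k ι hι
    refine ((hq k).tendsto _).comp (tendsto_pi_nhds.2 fun i => ?_)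
    by_cases hi : i < n
    · simp only [app, tp, if_pos hi, dif_pos hi]
      exact hρ _ (mem_tups.1 hι _)
    · simp only [app, if_neg hi, rc]
      exact (Complex.continuous_ofReal.tendsto _).comp (tendsto_pi_nhds.1 hx _)
  have E1 : ∀ᶠ N in Filter.atTop, ∀ ι ∈ tups 2 (fun _ => e),
      rt (χ N) (ι 0) - rt (χ N) (ι 1) = 0 → ρ (ι 0) - ρ (ι 1) = 0 :=
    (Filter.eventually_all_finset _).2 fun ι hι =>
      loc_ne ((hρ _ (mem_tups.1 hι 0)).sub (hρ _ (mem_tups.1 hι 1))) tendsto_const_nhds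
  have E2 : ∀ᶠ N in Filter.atTop, ∀ κ ∈ range s ×ˢ tups n (fun _ => e),
      (q κ.1 (app n (tp (fun _ => rt (χ N)) κ.2) (rc (x N))) = 0 →
        q κ.1 (app n (tp (fun _ => ρ) κ.2) (rc x0)) = 0) ∧
      (0 < (q κ.1 (app n (tp (fun _ => ρ) κ.2) (rc x0))).re →
        0 < (q κ.1 (app n (tp (fun _ => rt (χ N)) κ.2) (rc (x N)))).re) ∧
      ((q κ.1 (app n (tp (fun _ => ρ) κ.2) (rc x0))).re < 0 →
        (q κ.1 (app n (tp (fun _ => rt (χ N)) κ.2) (rc (x N)))).re < 0) :=
    (Filter.eventually_all_finset _).2 fun κ hκ => by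
      have a := hlim κ.1 κ.2 (mem_product.1 hκ).2
      have b := (Complex.continuous_re.tendsto _).comp a
      exact (loc_ne a tendsto_const_nhds).and
        ((loc_lt tendsto_const_nhds b).and (loc_lt b tendsto_const_nhds))
  have E3 : ∀ᶠ N in Filter.atTop, ∀ k ∈ range e, ∀ k' ∈ range e,
      rt (χ N) k' = (starRingEnd ℂ) (rt (χ N) k) → ρ k' = (starRingEnd ℂ) (ρ k) :=
    (Filter.eventually_all_finset _).2 fun k hk => (Filter.eventually_all_finset _).2 fun k' hk' =>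
      loc_ne (hρ _ (mem_range.1 hk'))
        ((Complex.continuous_conj.tendsto _).comp (hρ _ (mem_range.1 hk)))
  filter_upwards [E1, E2, E3] with N e1 e2 e3 σ
  have Z1 := loc_filter e1 (by rw [← z1, ← h1 N, zc1])
  have Z2 := loc_filter (fun κ hκ => (e2 κ hκ).1) (by rw [← z2, ← h2 N, zc2])
  have hre : ∀ k < e, (rt (χ N) k).im = 0 ↔ (ρ k).im = 0 := by
    intro k hk
    rw [← Complex.conj_eq_iff_im, ← Complex.conj_eq_iff_im]
    refine ⟨fun h => (e3 k (mem_range.2 hk) k (mem_range.2 hk) h.symm).symm, fun h => ?_⟩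
    obtain ⟨k', hk', e'⟩ := (loc_root (hN N)).1
      (loc_conj (hr N) ((loc_root (hN N)).2 ⟨k, hk, rfl⟩))
    have a := e3 k (mem_range.2 hk) k' (mem_range.2 hk') e'
    have b := Z1 ![k', k] (mem_tups.2 fun i => by fin_cases i <;> simpa) (by
      simp only [Matrix.cons_val_zero, Matrix.cons_val_one]
      rw [a, h, sub_self])
    simp only [Matrix.cons_val_zero, Matrix.cons_val_one] at b
    rw [← e']
    exact sub_eq_zero.1 b
  rw [loc_RS (hN N), loc_RS h0]
  refine exists_congr fun ι => and_congr_right fun hι => ?_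
  rw [forall_congr' fun i => hre _ (mem_tups.1 hι i)]
  refine and_congr_right fun hreal => forall₂_congr fun k hk => ?_
  have hκ : (k, ι) ∈ range s ×ˢ tups n (fun _ => e) := mem_product.2 ⟨mem_range.2 hk, hι⟩
  obtain ⟨-, a2, a3⟩ := e2 _ hκ
  have a4 := Z2 _ hκ
  have a5 : (q k (app n (tp (fun _ => ρ) ι) (rc x0))).im = 0 := by
    rw [loc_real hreal]
    exact hqr _ _
  suffices h : SignType.sign (q k (app n (tp (fun _ => rt (χ N)) ι) (rc (x N)))).re =
      SignType.sign (q k (app n (tp (fun _ => ρ) ι) (rc x0))).re by rw [h]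
  rcases lt_trichotomy (q k (app n (tp (fun _ => ρ) ι) (rc x0))).re 0 with h | h | h
  · rw [sign_neg h, sign_neg (a3 h)]
  · have : q k (app n (tp (fun _ => rt (χ N)) ι) (rc (x N))) = 0 := a4 (Complex.ext h a5)
    rw [h, this, Complex.zero_re]
  · rw [sign_pos h, sign_pos (a2 h)]

theorem loc {e n s : ℕ} (q : ℕ → Pt → ℂ) (hq : ∀ k, Continuous (q k))
    (hqr : ∀ k x, (q k (rc x)).im = 0) (χ : ℕ → ℂ[X]) (χ0 : ℂ[X])
    (hm : ∀ N, (χ N).Monic ∧ (χ N).natDegree = e) (hm0 : χ0.Monic ∧ χ0.natDegree = e)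
    (hr : ∀ N j, ((χ N).coeff j).im = 0)
    (hc : ∀ j, Filter.Tendsto (fun N => (χ N).coeff j) Filter.atTop (nhds (χ0.coeff j)))
    (x : ℕ → ℕ → ℝ) (x0 : ℕ → ℝ) (hx : Filter.Tendsto x Filter.atTop (nhds x0))
    (h1 : ∀ N, zc1 e (χ N) = zc1 e χ0)
    (h2 : ∀ N, zc2 q s n e (χ N) (rc (x N)) = zc2 q s n e χ0 (rc x0)) :
    ∀ᶠ N in Filter.atTop, ∀ σ, RS q s n (χ N) (x N) σ ↔ RS q s n χ0 x0 σ := by
  by_contra hcon
  obtain ⟨φ, hφ, hfail⟩ := Filter.extraction_of_frequently_atTop (Filter.not_eventually.1 hcon)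
  have hsum : Filter.Tendsto (fun N => ∑ j ∈ range e, ‖(χ N).coeff j‖) Filter.atTop
      (nhds (∑ j ∈ range e, ‖χ0.coeff j‖)) := tendsto_finsetSum _ fun j _ => (hc j).norm
  obtain ⟨B, hB⟩ := hsum.bddAbove_range
  have hbd : ∀ N, (fun k : Fin e => rt (χ (φ N)) k) ∈ Metric.closedBall (0 : Fin e → ℂ) (|B| + 1) := by
    intro N
    rw [mem_closedBall_zero_iff, pi_norm_le_iff_of_nonneg (by positivity)]
    intro k
    have h1 := loc_bound (hm (φ N)).1 (z := rt (χ (φ N)) k) (by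
      rw [rt_spec (hm _).1, (hm _).2]
      exact prod_eq_zero (mem_range.2 k.2) (sub_self _))
    rw [(hm _).2] at h1
    have h2 : ∑ j ∈ range e, ‖(χ (φ N)).coeff j‖ ≤ B := hB ⟨φ N, rfl⟩
    linarith [le_abs_self B]
  obtain ⟨r, -, ψ, hψ, hlim⟩ := tendsto_subseq_of_bounded Metric.isBounded_closedBall hbd
  have ht : Filter.Tendsto (φ ∘ ψ) Filter.atTop Filter.atTop := (hφ.comp hψ).tendsto_atTop
  obtain ⟨N, hN⟩ := (loc_core q hq hqr (fun N => χ (φ (ψ N))) χ0 (fun N => hm _) hm0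
    (fun N => hr _) (fun j => (hc j).comp ht) (fun N => x (φ (ψ N))) x0 (hx.comp ht)
    (fun N => h1 _) (fun N => h2 _) (fun k => if h : k < e then r ⟨k, h⟩ else 0) (fun k hk => by
      rw [dif_pos hk]
      exact tendsto_pi_nhds.1 hlim ⟨k, hk⟩)).exists
  exact hfail _ hN

end Crest.Agent.R316
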