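import Crest.Agent.R316.Defs

/-!
Row 316, task LV: closure properties of `CD`.

Plan. First, by induction on `j` (for all types `α` at once), prove for `Lv j`:
`congr`; `comp` with a `PT` map `f` (use `Q (f a)`, `m (f a)`; the pair map
`p ↦ (f p.1, p.2)` is `PT`); `Lv j ⊆ Lv (j+1)` (take `m = 0`, `Q a _ = P a`), hence `DT ⊆ Lv j`
and monotonicity; `ite` with a `DT` condition `c` (take `Q a y = if c a then Q₁ a y else Q₂ a y`,
`m = if c a then m₁ a else m₂ a`); negation (level `j+1`: range `2^(m+2)`,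
`Q' a y = if y < 2^(m+1) then ¬ Q a (y % 2^m) else y < 2^(m+1) + 2^m + 1`, whose count is
`2 (2^m - cnt) + 2^m + 1`). Conjunction goes one level up: `m = 1`,
`Q a y = if y = 0 then P₁ a else P₂ a`. `cntLt`: with `B, T < 2^m` (`m = size B + size T`), range
`2^(m+1)`, `Q' a y = if y < 2^m then (if y < B a then Q a y else False) else y < 2^(m+1) - T a`,
count `cnt + 2^m - T`.
-/

set_option autoImplicit false
set_option linter.dupNamespace false

namespace Crest.Agent.R316

open Crest.Agent.PT Crest.Agent.QC Crest.Agent.R317 Polynomial Finset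

variable {α β : Type} [Enc α] [Enc β]

private theorem lv_congr {j : ℕ} {P Q : α → Prop} (hP : Lv j α P) (h : ∀ a, P a ↔ Q a) :
    Lv j α Q := by
  have : P = Q := funext fun a => propext (h a)
  exact this ▸ hP

private theorem lv_comp (j : ℕ) : ∀ (α β : Type) [Enc α] [Enc β] (P : β → Prop) (f : α → β),
    Lv j β P → PT f → Lv j α (fun a => P (f a)) := by
  induction j with
  | zero => intro α β _ _ P f hP hf; exact DT.comp hP hf
  | succ j ih =>
    intro α β _ _ P f hP hf
    obtain ⟨Q, m, hQ, hm, h⟩ := hP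
    refine ⟨fun a => Q (f a), fun a => m (f a), ?_, by fun_prop, fun a => h (f a)⟩
    exact ih (α × Bin) (β × Bin) (fun p => Q p.1 p.2.val) (fun p => (f p.1, p.2)) hQ (by fun_prop)

private theorem lv_succ {j : ℕ} {P : α → Prop} (hP : Lv j α P) : Lv (j + 1) α P := by
  classical
  refine ⟨fun a _ => P a, fun _ => 0, lv_comp j (α × Bin) α P (fun p => p.1) hP (by fun_prop),
    by fun_prop, fun a => ?_⟩
  by_cases h : P a <;> simp [cnt, h]

private theorem lv_mono {j k : ℕ} {P : α → Prop} (hP : Lv j α P) (h : j ≤ k) : Lv k α P := by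
  induction h with
  | refl => exact hP
  | step _ ih => exact lv_succ ih

private theorem lv_dt (j : ℕ) {P : α → Prop} (hP : DT P) : Lv j α P :=
  lv_mono (j := 0) hP (Nat.zero_le j)

private theorem lv_ite (j : ℕ) : ∀ (α : Type) [Enc α] (c P Q : α → Prop) [∀ a, Decidable (c a)],
    DT c → Lv j α P → Lv j α Q → Lv j α (fun a => if c a then P a else Q a) := by
  induction j with
  | zero => intro α _ c P Q _ hc hP hQ; exact DT.ite hc hP hQ
  | succ j ih =>
    intro α _ c P Q _ hc hP hQ
    obtain ⟨Q₁, m₁, hQ₁, hm₁, h₁⟩ := hP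
    obtain ⟨Q₂, m₂, hQ₂, hm₂, h₂⟩ := hQ
    refine ⟨fun a y => if c a then Q₁ a y else Q₂ a y, fun a => if c a then m₁ a else m₂ a,
      ih (α × Bin) (fun p => c p.1) _ _ (DT.comp hc (by fun_prop)) hQ₁ hQ₂,
      PT.iteD hc hm₁ hm₂, fun a => ?_⟩
    by_cases h : c a
    · simp only [h, if_true]; exact h₁ a
    · simp only [h, if_false]; exact h₂ a

private theorem lv_cnt_pad {n B M M' : ℕ} (p : ℕ → Prop) (h1 : B ≤ M) (h2 : M ≤ M') (h3 : M' ≤ n) :
    cnt n (fun y => if y < B then p y else (M ≤ y ∧ y < M')) = cnt B p + (M' - M) := by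
  classical
  unfold cnt
  rw [← Nat.card_Ico M M', ← Finset.card_union_of_disjoint]
  · congr 1
    ext y
    simp only [mem_filter, mem_range, mem_union, mem_Ico]
    split_ifs with h
    · constructor
      · rintro ⟨_, hp⟩; exact Or.inl ⟨h, hp⟩
      · rintro (⟨_, hp⟩ | ⟨h', _⟩)
        · exact ⟨by omega, hp⟩
        · omega
    · constructor
      · rintro ⟨_, hp⟩; exact Or.inr hp
      · rintro (⟨h', _⟩ | hp)
        · exact absurd h' h
        · exact ⟨by omega, hp⟩
  · rw [Finset.disjoint_left]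
    intro y hy hy'
    simp only [mem_filter, mem_range, mem_Ico] at hy hy'
    omega

private theorem lv_cntLt {j : ℕ} {P : α → ℕ → Prop} {B T : α → ℕ} (hB : BT B) (hT : BT T)
    (hP : Lv j (α × Bin) (fun p => P p.1 p.2.val)) :
    Lv (j + 1) α (fun a => T a < cnt (B a) (P a)) := by
  have hm : PT (fun a => (B a).size + (T a).size) := by fun_prop
  set m : α → ℕ := fun a => (B a).size + (T a).size with hmd
  refine ⟨fun a y => if y < B a then P a y else (2 ^ m a ≤ y ∧ y < 2 ^ (m a + 1) - T a),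
    fun a => m a + 1, ?_, by fun_prop, fun a => ?_⟩
  · exact lv_ite j (α × Bin) (fun p => p.2.val < B p.1) _ _ (by fun_prop) hP
      (lv_dt j (by fun_prop))
  · have b1 : B a < 2 ^ m a :=
      (Nat.lt_size_self _).trans_le (Nat.pow_le_pow_right (by norm_num) (Nat.le_add_right _ _))
    have b2 : T a < 2 ^ m a :=
      (Nat.lt_size_self _).trans_le (Nat.pow_le_pow_right (by norm_num) (Nat.le_add_left _ _))
    have b3 : 2 ^ (m a + 1) = 2 * 2 ^ m a := by rw [pow_succ]; ring
    dsimp only
    rw [lv_cnt_pad (P a) b1.le (by omega) (by omega)]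
    omega

private theorem lv_cnt_not (B : ℕ) (p : ℕ → Prop) : cnt B p + cnt B (fun y => ¬ p y) = B := by
  classical
  unfold cnt
  have := Finset.card_filter_add_card_filter_not (s := range B) p
  rw [card_range] at this
  convert this

private theorem lv_not (j : ℕ) : ∀ (α : Type) [Enc α] (P : α → Prop),
    Lv j α P → Lv j α (fun a => ¬ P a) := by
  induction j with
  | zero => intro α _ P hP; exact DT.not hP
  | succ j ih =>
    intro α _ P hP
    obtain ⟨Q, m, hQ, hm, h⟩ := hP
    refine lv_congr (lv_cntLt (P := fun a y => ¬ Q a y) (B := fun a => 2 ^ m a)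
      (T := fun a => (2 ^ m a - 1) / 2) (by fun_prop) (by fun_prop) (ih _ _ hQ)) fun a => ?_
    have h1 := lv_cnt_not (2 ^ m a) (Q a)
    have h2 : 0 < 2 ^ m a := by positivity
    rw [h a]
    omega

theorem CD.congr {P Q : α → Prop} (hP : CD P) (h : ∀ a, P a ↔ Q a) : CD Q := by
  obtain ⟨j, h'⟩ := hP
  exact ⟨j, lv_congr h' h⟩

theorem CD.ofDT {P : α → Prop} (hP : DT P) : CD P := by
  exact ⟨0, hP⟩

theorem CD.comp {P : β → Prop} {f : α → β} (hP : CD P) (hf : PT f) : CD (fun a => P (f a)) := by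
  obtain ⟨j, h'⟩ := hP
  exact ⟨j, lv_comp j _ _ P f h' hf⟩

theorem CD.not {P : α → Prop} (hP : CD P) : CD (fun a => ¬ P a) := by
  obtain ⟨j, h'⟩ := hP
  exact ⟨j, lv_not j _ P h'⟩

theorem CD.and {P Q : α → Prop} (hP : CD P) (hQ : CD Q) : CD (fun a => P a ∧ Q a) := by
  classical
  obtain ⟨j, h₁⟩ := hP
  obtain ⟨k, h₂⟩ := hQ
  have h₁' := lv_mono h₁ (le_max_left j k)
  have h₂' := lv_mono h₂ (le_max_right j k)
  refine ⟨max j k + 1, lv_congr (lv_cntLt (P := fun a y => if y = 0 then P a else Q a)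
    (B := fun _ => 2) (T := fun _ => 1) (by fun_prop) (by fun_prop)
    (lv_ite _ (α × Bin) (fun p => p.2.val = 0) _ _ (by fun_prop)
      (lv_comp _ _ _ P (fun p : α × Bin => p.1) h₁' (by fun_prop))
      (lv_comp _ _ _ Q (fun p : α × Bin => p.1) h₂' (by fun_prop)))) fun a => ?_⟩
  unfold cnt
  rw [Finset.card_filter, Finset.sum_range_succ, Finset.sum_range_one]
  by_cases h : P a <;> by_cases h' : Q a <;> simp [h, h']

theorem CD.or {P Q : α → Prop} (hP : CD P) (hQ : CD Q) : CD (fun a => P a ∨ Q a) := by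
  exact (hP.not.and hQ.not).not.congr fun a => by tauto

theorem CD.imp {P Q : α → Prop} (hP : CD P) (hQ : CD Q) : CD (fun a => P a → Q a) := by
  exact (hP.not.or hQ).congr fun a => by tauto

theorem CD.iff {P Q : α → Prop} (hP : CD P) (hQ : CD Q) : CD (fun a => P a ↔ Q a) := by
  exact ((hP.imp hQ).and (hQ.imp hP)).congr fun a => by tauto

theorem CD.ite {P Q R : α → Prop} [∀ a, Decidable (P a)] (hP : CD P) (hQ : CD Q) (hR : CD R) :
    CD (fun a => if P a then Q a else R a) := by
  refine ((hP.and hQ).or (hP.not.and hR)).congr fun a => ?_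
  by_cases h : P a <;> simp [h]

/-- Threshold counting. -/
theorem CD.cntLt {P : α → ℕ → Prop} {B T : α → ℕ} (hB : BT B) (hT : BT T)
    (hP : CD (fun p : α × Bin => P p.1 p.2.val)) : CD (fun a => T a < cnt (B a) (P a)) := by
  obtain ⟨j, h'⟩ := hP
  exact ⟨j + 1, lv_cntLt hB hT h'⟩

/-- Existential quantifier over an exponential range (threshold `0`). -/
theorem CD.ex {P : α → ℕ → Prop} {B : α → ℕ} (hB : BT B)
    (hP : CD (fun p : α × Bin => P p.1 p.2.val)) : CD (fun a => ∃ y < B a, P a y) := by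
  classical
  refine (CD.cntLt (T := fun _ => 0) hB (by fun_prop) hP).congr fun a => ?_
  unfold cnt
  rw [Finset.card_pos]
  simp [Finset.Nonempty]

theorem CD.all {P : α → ℕ → Prop} {B : α → ℕ} (hB : BT B)
    (hP : CD (fun p : α × Bin => P p.1 p.2.val)) : CD (fun a => ∀ y < B a, P a y) := by
  refine (CD.ex (P := fun a y => ¬ P a y) hB hP.not).not.congr fun a => ?_
  simp

/-- Quantifier over a unary range (compose with `p ↦ (p.1, un (n p.1) p.2.val)`). -/
theorem CD.exU {P : α → ℕ → Prop} {n : α → ℕ} (hn : PT n)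
    (hP : CD (fun p : α × ℕ => P p.1 p.2)) : CD (fun a => ∃ i < n a, P a i) := by
  refine (CD.ex (P := fun a y => P a (un (n a) y)) (BT.ofPT hn)
    (hP.comp (f := fun p : α × Bin => (p.1, un (n p.1) p.2.val)) (by fun_prop))).congr fun a => ?_
  refine exists_congr fun y => and_congr_right fun hy => ?_
  rw [un, min_eq_left hy.le]

theorem CD.allU {P : α → ℕ → Prop} {n : α → ℕ} (hn : PT n)
    (hP : CD (fun p : α × ℕ => P p.1 p.2)) : CD (fun a => ∀ i < n a, P a i) := by
  refine (CD.exU (P := fun a y => ¬ P a y) hn hP.not).not.congr fun a => ?_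
  simp

/-! Specification of `lst` (least witness below `B`, else `B`). -/

theorem lst_le (B : ℕ) (p : ℕ → Prop) : lst B p ≤ B := by
  classical
  have key : ∀ q : ℕ → Prop, cnt B q ≤ B := fun q => by
    unfold cnt
    exact (Finset.card_filter_le _ _).trans (card_range B).le
  exact key _

theorem lst_spec {B : ℕ} {p : ℕ → Prop} (h : ∃ y < B, p y) :
    lst B p < B ∧ p (lst B p) ∧ ∀ y < lst B p, ¬ p y := by
  classical
  have hex : ∃ y, p y := let ⟨y, _, hy⟩ := h; ⟨y, hy⟩
  have hlt : Nat.find hex < B := let ⟨y, hy, hp⟩ := h; (Nat.find_min' hex hp).trans_lt hy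
  have e : lst B p = Nat.find hex := by
    unfold lst cnt
    rw [← card_range (Nat.find hex)]
    congr 1
    ext y
    simp only [mem_filter, mem_range]
    constructor
    · rintro ⟨_, hy⟩
      exact (Nat.lt_find_iff hex y).2 hy
    · intro hy
      exact ⟨hy.trans hlt, (Nat.lt_find_iff hex y).1 hy⟩
  rw [e]
  exact ⟨hlt, Nat.find_spec hex, fun y hy => Nat.find_min hex hy⟩

theorem lst_none {B : ℕ} {p : ℕ → Prop} (h : ∀ y < B, ¬ p y) : lst B p = B := by
  classical
  have key : ∀ q : ℕ → Prop, (∀ y < B, q y) → cnt B q = B := fun q hq => by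
    unfold cnt
    rw [Finset.filter_true_of_mem (fun y hy => hq y (mem_range.1 hy)), card_range]
  exact key _ fun y hy y' hy' => h y' (hy'.trans_lt hy)

end Crest.Agent.R316
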