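import Crest.Agent.R316.RF

/-!
Row 316, task TUP: sums and products over tuples of roots; gap bounds.
-/

set_option autoImplicit false
set_option linter.dupNamespace false

namespace Crest.Agent.R316

open Crest.Agent.PT Crest.Agent.QC Crest.Agent.R317 Polynomial Finset

variable {α β : Type} [Enc α] [Enc β]

theorem tu_sum {B : α → ℕ} {F : α × Bin → Pt → ℂ} (hB : BT B) (hF : CP F) :
    CP (fun a z => ∑ y ∈ range (B a), F (a, ⟨y⟩) z) := CP.sum (F := fun a y => F (a, ⟨y⟩)) hB hF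

theorem tu_prodU {n : α → ℕ} {F : α × ℕ → Pt → ℂ} (hn : PT n) (hF : CP F) :
    CP (fun a z => ∏ i ∈ range (n a), F (a, i) z) := CP.prodU (F := fun a i => F (a, i)) hn hF

theorem tu_cauchy {p : ℂ[X]} (hp : p.Monic) {B : ℝ} (hB : ∀ j < p.natDegree, ‖p.coeff j‖ ≤ B)
    (hB0 : 0 ≤ B) {t : ℂ} (ht : p.eval t = 0) : ‖t‖ ≤ B + 1 := by
  have h := (IsRoot.norm_lt_cauchyBound hp.ne_zero ht).le
  have h2 : (cauchyBound p : ℝ) ≤ B + 1 := by
    unfold cauchyBound
    rw [hp.leadingCoeff, nnnorm_one, div_one]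
    push_cast
    gcongr
    have : (range p.natDegree).sup (fun j => ‖p.coeff j‖₊) ≤ ⟨B, hB0⟩ :=
      Finset.sup_le (fun j hj => hB j (mem_range.1 hj))
    exact this
  exact le_trans h h2

theorem bt_card_tups {m : α → ℕ} {N : α → ℕ → ℕ} (hm : PT m)
    (hN : BT (fun p : α × ℕ => N p.1 p.2)) : BT (fun a => (tups (m a) (N a)).card) := by
  refine (BT.prod hm hN).congr (fun a => ?_)
  simp only [tups, Fintype.card_piFinset, card_range]
  exact (Fin.prod_univ_eq_prod_range (fun i => N a i) (m a)).symm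

/-- By `SepP.interp` the sum is
`∑_{y < L^m} G (app m (dg L y) x) ∏_{i < m} ω i (dg L y i)` with
`ω i j = ∑_k lb L j (ρ i k) = ∑_{e < L} lc L j e * psum i e` (`Finset.prod_univ_sum`). -/
theorem tsum_tups {m : α → ℕ} {N : α → ℕ → ℕ} {ρ : α → ℕ → Pt → ℕ → ℂ} {G : α → Pt → ℂ}
    (hm : PT m) (hρ : RF (fun p : α × ℕ => N p.1 p.2) (fun p => ρ p.1 p.2)) (hG : CP G) :
    CP (fun a x => ∑ ι ∈ tups (m a) (N a), G a (app (m a) (tp (fun i => ρ a i x) ι) x)) := by
  obtain ⟨L, hL, hsep⟩ := hG.sepP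
  have hw :=
    tu_sum (B := fun q : (α × Bin) × ℕ => L q.1.1) (by fun_prop)
      ((CP.const (CQ.lc (L := fun q : ((α × Bin) × ℕ) × Bin => L q.1.1.1)
        (j := fun q => dg (L q.1.1.1) q.1.1.2.val q.1.2) (e := fun q => q.2.val)
        (by fun_prop) (by fun_prop) (by fun_prop))).mul
      ((hρ.comp (f := fun q : ((α × Bin) × ℕ) × Bin => (q.1.1.1, q.1.2)) (by fun_prop)).psum
        (k := fun q => q.2.val) (by fun_prop)))
  have hm' : PT (fun q : α × Bin => m q.1) := by fun_prop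
  have h1 := tu_sum (B := fun a => L a ^ m a) (by fun_prop)
    (((hG.comp (f := fun q : α × Bin => q.1) (by fun_prop)).at (CV.app hm'
      (CV.dg (L := fun q : α × Bin => L q.1) (y := fun q => q.2.val) (by fun_prop) (by fun_prop))
      CV.id)).mul (tu_prodU hm' hw))
  refine h1.congr (fun a x => ?_)
  dsimp only
  have hL0 : 0 < L a := by
    obtain ⟨p, hp, -⟩ := hsep a 0 0
    omega
  simp only [(hsep a).interp (m a) (tp _ _) x]
  rw [sum_comm]
  refine sum_congr rfl (fun y _ => ?_)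
  rw [← mul_sum]
  congr 1
  simp only [← Fin.prod_univ_eq_prod_range (fun i => aeval (tp (fun i => ρ a i x) _ i)
    (lb (L a) (dg (L a) y i))) (m a), tp_fin]
  rw [tups, ← prod_univ_sum (fun i : Fin (m a) => range (N a i))
    (fun i k => aeval (ρ a i x k) (lb (L a) (dg (L a) y i))),
    ← Fin.prod_univ_eq_prod_range (fun i => ∑ e ∈ range (L a),
      (lc (L a) (dg (L a) y i) e : ℂ) * ∑ k ∈ range (N a i), ρ a i x k ^ e) (m a)]
  refine prod_congr rfl (fun i _ => ?_)
  simp only [aeval_lb_eq_sum (dg_lt hL0 y i), mul_sum]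
  rw [sum_comm]

/-- The polynomial with the values of `G` as roots (`tsum_tups` for `G ^ k`, `prod_of_psum`). -/
theorem tpoly {m : α → ℕ} {N : α → ℕ → ℕ} {ρ : α → ℕ → Pt → ℕ → ℂ} {G : α → Pt → ℂ}
    (hm : PT m) (hρ : RF (fun p : α × ℕ => N p.1 p.2) (fun p => ρ p.1 p.2)) (hG : CP G) :
    CX (fun a x => ∏ ι ∈ tups (m a) (N a),
      (X + C (G a (app (m a) (tp (fun i => ρ a i x) ι) x)))) := by
  have h1 := tsum_tups (α := α × Bin) (m := fun q => m q.1) (N := fun q => N q.1)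
    (ρ := fun q => ρ q.1) (G := fun q z => (-G q.1 z) ^ q.2.val) (by fun_prop)
    (hρ.comp (f := fun q : (α × Bin) × ℕ => (q.1.1, q.2)) (by fun_prop))
    ((hG.comp (f := fun q : α × Bin => q.1) (by fun_prop)).neg.pow (by fun_prop))
  have h2 := prod_of_psum (ι := fun a => Fin (m a) → ℕ) (s := fun a => tups (m a) (N a))
    (g := fun a x ι => -G a (app (m a) (tp (fun i => ρ a i x) ι) x)) (bt_card_tups hm hρ.1) h1
  refine h2.congr (fun a z => ?_)
  simp [eval_prod]

/-- Gap bound for constant root families. The coefficients of `Q = ∏ (X + g ι)` are bounded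
above, and below when nonzero, uniformly (`CP.bound0`, `BT.unif`). Cauchy's bound gives
`‖g ι‖ ≤ 2^L'`; the lowest nonzero coefficient is the product of the nonzero `g ι`
(`low_coeff_eq`), which gives the lower bound. -/
theorem gap {m : α → ℕ} {N : α → ℕ → ℕ} {ρ : α → ℕ → ℕ → ℂ} {G : α → Pt → ℂ}
    (hm : PT m) (hρ : RF (fun p : α × ℕ => N p.1 p.2) (fun p _ => ρ p.1 p.2)) (hG : CP G) :
    ∃ L : α → ℕ, BT L ∧ ∀ a, ∀ ι ∈ tups (m a) (N a), ‖G a (tp (ρ a) ι)‖ ≤ 2 ^ L a ∧
      (G a (tp (ρ a) ι) ≠ 0 → 1 ≤ 2 ^ L a * ‖G a (tp (ρ a) ι)‖) := by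
  classical
  have hc := bt_card_tups hm hρ.1
  have h1 := (tpoly (ρ := fun a i _ => ρ a i) hm hρ hG).comp (f := fun q : α × Bin => q.1)
    (by fun_prop)
  obtain ⟨L, hL, hb⟩ := (h1.coeff (e := fun q => q.2.val) (by fun_prop)).bound0
  obtain ⟨L', hL', hle⟩ := BT.unif (f := fun a y => L (a, ⟨y⟩)) hc hL
  refine ⟨fun a => L' a + (L' a + 1) * (tups (m a) (N a)).card, by fun_prop, fun a => ?_⟩
  simp only [app_tp_zero] at hb
  have hmon : (∏ ι ∈ tups (m a) (N a), (X + C (G a (tp (ρ a) ι)))).Monic :=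
    monic_prod_of_monic _ _ (fun ι _ => monic_X_add_C _)
  have hdeg : (∏ ι ∈ tups (m a) (N a), (X + C (G a (tp (ρ a) ι)))).natDegree =
      (tups (m a) (N a)).card := by
    rw [natDegree_prod_of_monic _ _ (fun ι _ => monic_X_add_C _)]
    simp
  have hup : ∀ ι ∈ tups (m a) (N a), ‖G a (tp (ρ a) ι)‖ ≤ 2 ^ (L' a + 1) := by
    intro ι hι
    have := tu_cauchy hmon (B := 2 ^ L' a) (fun j hj => ((hb (a, ⟨j⟩)).1).trans
      (pow_le_pow_right₀ one_le_two (hle a j (by omega)))) (by positivity)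
      (t := -G a (tp (ρ a) ι)) (by rw [eval_prod]; exact prod_eq_zero hι (by simp))
    rw [norm_neg] at this
    have h2 : (1 : ℝ) ≤ 2 ^ L' a := one_le_pow₀ one_le_two
    rw [pow_succ]; linarith
  intro ι hι
  have hpos : 0 < (tups (m a) (N a)).card := card_pos.2 ⟨ι, hι⟩
  refine ⟨(hup ι hι).trans (pow_le_pow_right₀ one_le_two (by nlinarith)), fun h0 => ?_⟩
  have hk : ((tups (m a) (N a)).filter fun ι => G a (tp (ρ a) ι) = 0).card ≤
      (tups (m a) (N a)).card := card_filter_le _ _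
  have h2 := (hb (a, ⟨((tups (m a) (N a)).filter fun ι => G a (tp (ρ a) ι) = 0).card⟩)).2
  have h3 := low_coeff_eq (tups (m a) (N a)) (fun ι => G a (tp (ρ a) ι))
  have h4 : (∏ ι ∈ tups (m a) (N a), (X + C (G a (tp (ρ a) ι)))).coeff
      ((tups (m a) (N a)).filter fun ι => G a (tp (ρ a) ι) = 0).card =
      ∏ i ∈ (tups (m a) (N a)).filter (fun ι => G a (tp (ρ a) ι) ≠ 0), G a (tp (ρ a) i) := by
    convert h3
  simp only [h4] at h2
  have h5 := h2 (prod_ne_zero_iff.2 (fun i hi => (mem_filter.1 hi).2))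
  have hmem : ι ∈ (tups (m a) (N a)).filter (fun ι => G a (tp (ρ a) ι) ≠ 0) :=
    mem_filter.2 ⟨hι, h0⟩
  rw [← mul_prod_erase _ _ hmem, norm_mul, norm_prod] at h5
  have h6 : ∏ i ∈ ((tups (m a) (N a)).filter (fun ι => G a (tp (ρ a) ι) ≠ 0)).erase ι,
      ‖G a (tp (ρ a) i)‖ ≤ (2 ^ (L' a + 1)) ^ (tups (m a) (N a)).card := by
    refine (prod_le_prod (fun i _ => norm_nonneg _) (g := fun _ => (2 : ℝ) ^ (L' a + 1))
      (fun i hi => hup i (mem_filter.1 (mem_of_mem_erase hi)).1)).trans ?_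
    rw [prod_const]
    exact pow_le_pow_right₀ (one_le_pow₀ one_le_two)
      ((card_erase_le).trans (card_filter_le _ _))
  have h7 : (2 : ℝ) ^ L (a, ⟨((tups (m a) (N a)).filter fun ι => G a (tp (ρ a) ι) = 0).card⟩) ≤
      2 ^ L' a := pow_le_pow_right₀ one_le_two (hle a _ hk)
  refine h5.trans ?_
  rw [pow_add, pow_mul, mul_assoc, mul_comm _ ‖G a (tp (ρ a) ι)‖]
  gcongr

open Classical in
/-- Parity of the number of real tuples where `G` is negative: with `Q` from `tpoly` (at `x = 0`)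
it is `∃ k ≤ card, (∀ j < k, coeff j Q = 0) ∧ re (coeff k Q) < 0` (`low_coeff_iff`,
`low_coeff_eq`, `sign_norm` with the componentwise `RF.conj`). -/
theorem odd_neg {m : α → ℕ} {N : α → ℕ → ℕ} {ρ : α → ℕ → ℕ → ℂ} {G : α → Pt → ℂ}
    (hm : PT m) (hρ : RF (fun p : α × ℕ => N p.1 p.2) (fun p _ => ρ p.1 p.2)) (hG : CP G) :
    CD (fun a => Odd ((tups (m a) (N a)).filter fun ι =>
      (∀ i : Fin (m a), (ρ a i (ι i)).im = 0) ∧ (G a (tp (ρ a) ι)).re < 0).card) := by
  have hc := bt_card_tups hm hρ.1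
  have h0 := tpoly (ρ := fun a i _ => ρ a i) hm hρ hG
  have h1 := ((h0.comp (f := fun q : (α × Bin) × Bin => q.1.1) (by fun_prop)).coeff
    (e := fun q => q.2.val) (by fun_prop)).eq_zero0
  have h2 := ((h0.comp (f := fun q : α × Bin => q.1) (by fun_prop)).coeff
    (e := fun q => q.2.val) (by fun_prop)).neg.pos0
  simp only [app_tp_zero] at h1 h2
  have h3 := CD.all (α := α × Bin) (B := fun q => q.2.val)
    (P := fun q y => (∏ ι ∈ tups (m q.1) (N q.1), (X + C (G q.1 (tp (ρ q.1) ι)))).coeff y = 0)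
    (by fun_prop) h1
  have h4 := CD.ex (B := fun a => (tups (m a) (N a)).card + 1)
    (P := fun a k => (∀ y < k, (∏ ι ∈ tups (m a) (N a), (X + C (G a (tp (ρ a) ι)))).coeff y = 0) ∧
      0 < (-(∏ ι ∈ tups (m a) (N a), (X + C (G a (tp (ρ a) ι)))).coeff k).re)
    (by fun_prop) (h3.and h2)
  refine h4.congr (fun a => ?_)
  choose π hπ hπρ using fun i => RF.conj hρ (a, i)
  have hs := sign_norm (tups (m a) (N a)) (fun ι => tp (ρ a) ι) (fun ι => G a (tp (ρ a) ι))
    (fun ι i => π i (ι i)) ?_ ?_ ?_ ?_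
  · have he : ((tups (m a) (N a)).filter fun ι => (∀ i : Fin (m a), (ρ a i (ι i)).im = 0) ∧
        (G a (tp (ρ a) ι)).re < 0) = (tups (m a) (N a)).filter fun ι =>
          (∀ i, (tp (ρ a) ι i).im = 0) ∧ (G a (tp (ρ a) ι)).re < 0 := by
      refine filter_congr (fun ι _ => and_congr_left (fun _ => ⟨fun h i => ?_, fun h i => ?_⟩))
      · by_cases hi : i < m a
        · simp only [tp, dif_pos hi]; exact h ⟨i, hi⟩
        · simp [tp, hi]
      · simpa using h i
    rw [he, ← hs, ← low_coeff_eq]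
    constructor
    · rintro ⟨k, -, h5, h6⟩
      have h7 := (low_coeff_iff (tups (m a) (N a)) (fun ι => G a (tp (ρ a) ι)) k).1
        ⟨h5, fun h => by rw [h] at h6; simp at h6⟩
      rw [← h7]
      simpa using h6
    · intro h5
      refine ⟨_, Nat.lt_succ_of_le (@card_filter_le _ _ _ (_)),
        ((low_coeff_iff (tups (m a) (N a)) (fun ι => G a (tp (ρ a) ι)) _).2 rfl).1, ?_⟩
      simpa using h5
  · refine ⟨fun ι hι => ?_, fun ι hι ι' hι' h => ?_, fun ι hι => ?_⟩
    · simp only [mem_coe, mem_tups] at hι ⊢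
      exact fun i => by simpa using (hπ i).1 (by simpa using hι i)
    · simp only [mem_coe, mem_tups] at hι hι'
      funext i
      exact (hπ i).2.1 (by simpa using hι i) (by simpa using hι' i) (congrFun h i)
    · simp only [mem_coe, mem_tups] at hι
      have : ∀ i : Fin (m a), ∃ k < N a i, π i k = ι i := fun i => by
        simpa using (hπ i).2.2 (show ι i ∈ (range (N a i) : Set ℕ) by simpa using hι i)
      choose κ h1 h2 using this
      exact ⟨κ, by simpa only [mem_coe, mem_tups] using h1, funext h2⟩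
  · intro ι hι
    funext i
    by_cases hi : i < m a
    · simp only [tp, cj, dif_pos hi]
      exact hπρ i _ (mem_tups.1 hι ⟨i, hi⟩)
    · simp [tp, cj, hi]
  · intro ι hι
    rw [← hG.conj]
    congr 1
    funext i
    by_cases hi : i < m a
    · simp only [tp, cj, dif_pos hi]
      exact hπρ i _ (mem_tups.1 hι ⟨i, hi⟩)
    · simp [tp, cj, hi]
  · intro ι _ h
    have : tp (ρ a) ι = rc (fun i => (tp (ρ a) ι i).re) := by
      funext i
      rw [Complex.ext_iff]
      simp [rc, h i]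
    rw [this]
    exact hG.real a _

end Crest.Agent.R316
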