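import Crest.Agent.R316.Inner
import Crest.Agent.R316.Loc
import Crest.Agent.R316.Tup

/-!
Row 316, task OUTER: sample points for the outer quantifier.
-/

set_option autoImplicit false
set_option linter.dupNamespace false

namespace Crest.Agent.R316

open Crest.Agent.PT Crest.Agent.QC Crest.Agent.R317 Polynomial Finset

variable {α β : Type} [Enc α] [Enc β]

/-- Real zero sets of nonnegative `CP` functions. -/
def ZS (Z : α → (ℕ → ℝ) → Prop) : Prop :=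
  ∃ F : α → Pt → ℂ, CP F ∧ ∀ a x, 0 ≤ (F a (rc x)).re ∧ (F a (rc x) = 0 ↔ Z a x)

theorem ZS.congr {Z Z' : α → (ℕ → ℝ) → Prop} (h : ZS Z) (H : ∀ a x, Z a x ↔ Z' a x) : ZS Z' := by
  obtain ⟨F, hF, h⟩ := h
  exact ⟨F, hF, fun a x => ⟨(h a x).1, (h a x).2.trans (H a x)⟩⟩

theorem ZS.eq {g : α → Pt → ℂ} (hg : CP g) : ZS (fun a x => g a (rc x) = 0) := by
  refine ⟨fun a z => g a z * g a z, hg.mul hg, fun a x => ⟨?_, by simp⟩⟩
  have := hg.real a x
  simp only [Complex.mul_re, this, mul_zero, sub_zero]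
  exact mul_self_nonneg _

theorem o_zero_iff {F : α → Pt → ℂ} (hF : CP F) (a : α) (x : ℕ → ℝ) :
    F a (rc x) = 0 ↔ (F a (rc x)).re = 0 := by
  rw [Complex.ext_iff]; simp [hF.real a x]

theorem ZS.and {Z Z' : α → (ℕ → ℝ) → Prop} (h : ZS Z) (h' : ZS Z') :
    ZS (fun a x => Z a x ∧ Z' a x) := by
  obtain ⟨F, hF, h⟩ := h
  obtain ⟨F', hF', h'⟩ := h'
  refine ⟨fun a z => F a z + F' a z, hF.add hF', fun a x => ⟨?_, ?_⟩⟩
  · simp only [Complex.add_re]; exact add_nonneg (h a x).1 (h' a x).1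
  · show _ ↔ Z a x ∧ Z' a x
    rw [o_zero_iff (hF.add hF'), ← (h a x).2, ← (h' a x).2, o_zero_iff hF, o_zero_iff hF']
    simp only [Complex.add_re]
    exact add_eq_zero_iff_of_nonneg (h a x).1 (h' a x).1

theorem ZS.all {Z : α × Bin → (ℕ → ℝ) → Prop} {B : α → ℕ} (hB : BT B) (h : ZS Z) :
    ZS (fun a x => ∀ y < B a, Z (a, ⟨y⟩) x) := by
  obtain ⟨F, hF, h⟩ := h
  have hS : CP (fun a z => ∑ y ∈ range (B a), F (a, ⟨y⟩) z) :=
    CP.sum (F := fun a y => F (a, ⟨y⟩)) hB hF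
  refine ⟨_, hS, fun a x => ⟨?_, ?_⟩⟩
  · simp only [Complex.re_sum]
    exact sum_nonneg (fun y _ => (h (a, ⟨y⟩) x).1)
  · rw [o_zero_iff hS]
    simp only [Complex.re_sum]
    rw [sum_eq_zero_iff_of_nonneg (fun y _ => (h (a, ⟨y⟩) x).1)]
    refine forall_congr' (fun y => ?_)
    rw [mem_range, ← o_zero_iff hF, (h (a, ⟨y⟩) x).2]

theorem ZS.imp {Z : α → (ℕ → ℝ) → Prop} {P : α → Prop} (hP : CD P) (h : ZS Z) :
    ZS (fun a x => P a → Z a x) := by
  classical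
  obtain ⟨F, hF, h⟩ := h
  refine ⟨fun a z => if P a then F a z else 0, CP.ite hP hF CP.zero, fun a x => ?_⟩
  by_cases hp : P a
  · simpa [hp] using h a x
  · simp [hp]

/-- Merging a parameter into the index of a family. -/
theorem comb {V : α × Bin → ℕ → Pt → ℂ[X]} {K : α × Bin → ℕ} {B : α → ℕ} (hB : BT B) (hK : BT K)
    (hV : CX (fun q : (α × Bin) × Bin => V q.1 q.2.val)) :
    ∃ (V' : α → ℕ → Pt → ℂ[X]) (K' : α → ℕ), BT K' ∧ CX (fun q : α × Bin => V' q.1 q.2.val) ∧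
      ∀ a ν x t, ν < B a → Rt (fun κ => V (a, ⟨ν⟩) κ x) (K (a, ⟨ν⟩)) t →
        Rt (fun κ => V' a κ x) (K' a) t := by
  obtain ⟨g, hg, hle⟩ := BT.unif (f := fun a y => K (a, ⟨y⟩)) hB hK
  refine ⟨fun a κ => V (a, ⟨κ / (g a + 1)⟩) (κ % (g a + 1)), fun a => B a * (g a + 1),
    by fun_prop, ?_, ?_⟩
  · exact hV.comp (f := fun q : α × Bin =>
      ((q.1, (⟨q.2.val / (g q.1 + 1)⟩ : Bin)), (⟨q.2.val % (g q.1 + 1)⟩ : Bin))) (by fun_prop)
  · rintro a ν x t hν ⟨κ, hκ, h0, h1⟩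
    have h2 : κ < g a + 1 := by have := hle a ν hν.le; omega
    have h3 : (ν * (g a + 1) + κ) / (g a + 1) = ν := by
      rw [mul_comm, Nat.mul_add_div (by omega), Nat.div_eq_of_lt h2, add_zero]
    have h4 : (ν * (g a + 1) + κ) % (g a + 1) = κ := by
      rw [mul_comm, Nat.mul_add_mod, Nat.mod_eq_of_lt h2]
    refine ⟨ν * (g a + 1) + κ, ?_, ?_, ?_⟩
    · calc ν * (g a + 1) + κ < (ν + 1) * (g a + 1) := by rw [add_mul, one_mul]; omega
        _ ≤ B a * (g a + 1) := Nat.mul_le_mul_right _ hν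
    · simpa only [h3, h4] using h0
    · simpa only [h3, h4] using h1

/-- Coefficients in `Z` of `∏ (Z + V κ)`. -/
noncomputable def oA (V : ℕ → ℂ[X]) (K j : ℕ) : ℂ[X] := (∏ κ ∈ range K, (X + C (V κ))).coeff j

theorem cx_oA {V : α → ℕ → Pt → ℂ[X]} {K j : α → ℕ} (hK : BT K) (hj : BT j)
    (hV : CX (fun q : α × Bin => V q.1 q.2.val)) :
    CX (fun a x => oA (fun κ => V a κ x) (K a) (j a)) := by
  have h1 : CX (fun a z => ∏ κ ∈ range (K a), (X + C ((V a κ (tl z)).eval (z 0)))) := by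
    refine CX.of (F := fun a z => ∏ κ ∈ range (K a), (z 0 + (V a κ (tl (tl z))).eval (z 1)))
      (CP.prod hK (CP.add (CP.var (PT.const 0)) ?_)) (fun a x t => ?_)
    · exact CX.eval hV (CP.var (PT.const 1)) CV.id.tl.tl
    · simp [eval_prod]
  refine (h1.coeff hj).congr (fun a z => ?_)
  simp only [oA, eval_coeff_prod]

/-- The polynomial counting coincidences of roots. -/
noncomputable def oQ1 (e : ℕ) (χ : ℂ[X]) : ℂ[X] :=
  ∏ ι ∈ tups 2 (fun _ => e), (X + C (rt χ (ι 0) - rt χ (ι 1)))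

/-- The polynomial counting zeros of the atoms at root tuples. -/
noncomputable def oQ2 (q : ℕ → Pt → ℂ) (s n e : ℕ) (χ : ℂ[X]) (x : Pt) : ℂ[X] :=
  ∏ κ ∈ range s ×ˢ tups n (fun _ => e), (X + C (q κ.1 (app n (tp (fun _ => rt χ) κ.2) x)))

theorem cx_oQ1 {χ : α → Pt → ℂ[X]} {e : α → ℕ} (hχ : RF e (fun a z => rt (χ a z))) :
    CX (fun a z => oQ1 (e a) (χ a z)) := by
  refine (tpoly (m := fun _ => 2) (N := fun a _ => e a) (ρ := fun a _ z => rt (χ a z))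
    (G := fun _ z => z 0 - z 1) (PT.const 2) (hχ.comp PT.id'.fst)
    ((CP.var (PT.const 0)).sub (CP.var (PT.const 1)))).congr (fun a z => ?_)
  rfl

theorem o_prodU {n : α → ℕ} {G : α × ℕ → Pt → ℂ[X]} (hn : PT n) (hG : CX G) :
    CP (fun a z => ∏ i ∈ range (n a), (G (a, i) (tl z)).eval (z 0)) :=
  CP.prodU (F := fun a i z => (G (a, i) (tl z)).eval (z 0)) hn hG

theorem cx_oQ2 {χ : α → Pt → ℂ[X]} {e n s : α → ℕ} {p : α → ℕ → Pt → ℂ} {H : α → Pt → Pt}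
    (hχ : RF e (fun a z => rt (χ a z))) (hp : CP (fun q : α × ℕ => p q.1 q.2)) (hn : PT n)
    (hs : PT s) (hH : CV H) :
    CX (fun a z => oQ2 (p a) (s a) (n a) (e a) (χ a z) (H a z)) := by
  have hn' : PT (fun q : α × ℕ => n q.1) := by fun_prop
  have h1 := tpoly (α := α × ℕ) (m := fun q => n q.1) (N := fun q _ => e q.1)
    (ρ := fun q _ z => rt (χ q.1 z))
    (G := fun q z => p q.1 q.2 (app (n q.1) z (H q.1 (sh (n q.1) z)))) hn'
    (hχ.comp PT.id'.fst.fst)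
    (hp.at (CV.app hn' CV.id ((hH.comp PT.id'.fst).at (CV.sh hn' CV.id))))
  refine (o_prodU hs h1).congr (fun a z => ?_)
  simp only [oQ2, prod_product, eval_prod, sh_app, app_app]

/-- The conditions that define a stratum. -/
def oZ (V : ℕ → ℂ[X]) (K E : ℕ) (q : ℕ → Pt → ℂ) (s n k e k3 k4 : ℕ) (w1 w2 : ℂ) (x : Pt) :
    Prop :=
  (∀ j < k, ∀ i < E, (oA V K j).coeff i = 0) ∧ (∀ i < E, e < i → (oA V K k).coeff i = 0) ∧
    w1 * (oA V K k).coeff e - 1 = 0 ∧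
    (∀ j < k3, (oQ1 e (mon e (oA V K k) w1)).coeff j = 0) ∧
    (∀ j < k4, (oQ2 q s n e (mon e (oA V K k) w1) x).coeff j = 0) ∧
    w2 * ((oQ1 e (mon e (oA V K k) w1)).coeff k3 *
      (oQ2 q s n e (mon e (oA V K k) w1) x).coeff k4) - 1 = 0

theorem oA_low (V : ℕ → ℂ[X]) (K : ℕ) : ∃ k ≤ K, (∀ j < k, oA V K j = 0) ∧ oA V K k ≠ 0 ∧
    ∀ t, Rt V K t → (oA V K k).eval (t : ℂ) = 0 := by
  obtain ⟨h1, h2⟩ := (low_coeff_iff (range K) V _).2 rfl
  refine ⟨_, ?_, h1, h2, ?_⟩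
  · exact (@card_filter_le _ _ _ (_)).trans (card_range K).le
  rintro t ⟨κ, hκ, h0, ht⟩
  unfold oA
  rw [low_coeff_eq, eval_prod, prod_eq_zero (i := κ) (by simp [hκ, h0]) ht]

theorem oZ_spec {V : ℕ → ℂ[X]} {K E : ℕ} {q : ℕ → Pt → ℂ} {s n k e k3 k4 : ℕ} {w1 w2 : ℂ} {x : Pt}
    (hE : ∀ j ≤ K, (oA V K j).natDegree < E) (h : oZ V K E q s n k e k3 k4 w1 w2 x) :
    (∀ t, Rt V K t → (mon e (oA V K k) w1).eval (t : ℂ) = 0) ∧
      zc1 e (mon e (oA V K k) w1) = k3 ∧ zc2 q s n e (mon e (oA V K k) w1) x = k4 := by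
  classical
  obtain ⟨h1, h2, h3, h4, h5, h6⟩ := h
  obtain ⟨k0, hk0, l1, l2, l3⟩ := oA_low V K
  have hne : oA V K k ≠ 0 := by
    intro h0; rw [h0] at h3; simp at h3
  have hk : k = k0 := by
    rcases lt_trichotomy k k0 with h | h | h
    · exact absurd (l1 k h) hne
    · exact h
    · refine absurd ?_ l2
      ext i
      rcases lt_or_ge i E with hi | hi
      · exact h1 _ h i hi
      · exact coeff_eq_zero_of_natDegree_lt ((hE _ hk0).trans_le hi)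
  subst hk
  have hw : w1 * (oA V K k).coeff e = 1 := sub_eq_zero.1 h3
  have hm : mon e (oA V K k) w1 = C w1 * oA V K k := by
    refine mon_eq (fun j hj => ?_) hw
    rcases lt_or_ge j E with hi | hi
    · exact h2 j hi hj
    · exact coeff_eq_zero_of_natDegree_lt ((hE _ hk0).trans_le hi)
  have h7 := sub_eq_zero.1 h6
  refine ⟨?_, ?_, ?_⟩
  · intro t ht
    rw [hm, eval_mul, l3 t ht, mul_zero]
  · symm
    refine ((low_coeff_iff _ _ k3).1 ⟨h4, fun h0 => ?_⟩).trans (by unfold zc1; convert rfl)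
    rw [show (oQ1 e (mon e (oA V K k) w1)).coeff k3 = 0 from h0] at h7
    simp at h7
  · symm
    refine ((low_coeff_iff _ _ k4).1 ⟨h5, fun h0 => ?_⟩).trans (by unfold zc2; convert rfl)
    rw [show (oQ2 q s n e (mon e (oA V K k) w1) x).coeff k4 = 0 from h0] at h7
    simp at h7

theorem o_inv_real {c : ℂ} (h0 : c ≠ 0) (hr : c.im = 0) : ((c.re⁻¹ : ℝ) : ℂ) * c - 1 = 0 := by
  have : c = c.re := by rw [Complex.ext_iff]; simp [hr]
  rw [Complex.ofReal_inv, ← this, inv_mul_cancel₀ h0, sub_self]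

theorem oZ_exists {V : ℕ → ℂ[X]} {K E : ℕ} (q : ℕ → Pt → ℂ) (s n : ℕ) (x : Pt)
    (hE : ∀ j ≤ K, (oA V K j).natDegree < E) (hr : ∀ j i, ((oA V K j).coeff i).im = 0)
    (hr' : ∀ k e k3 k4 (w1 : ℝ), ((oQ1 e (mon e (oA V K k) w1)).coeff k3 *
      (oQ2 q s n e (mon e (oA V K k) w1) x).coeff k4).im = 0) :
    ∃ k ≤ K, ∃ e < E, ∃ k3 ≤ E ^ 2, ∃ k4 ≤ s * E ^ n, ∃ w1 w2 : ℝ,
      oZ V K E q s n k e k3 k4 w1 w2 x := by
  classical
  obtain ⟨k, hk0, h1, h2, -⟩ := oA_low V K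
  have he := hE k hk0
  obtain ⟨e, hedef⟩ : ∃ e, e = (oA V K k).natDegree := ⟨_, rfl⟩
  have hc : (oA V K k).coeff e ≠ 0 := by
    rw [hedef]; exact leadingCoeff_ne_zero.2 h2
  obtain ⟨w1, hw1⟩ : ∃ w1 : ℝ, w1 * (oA V K k).coeff e - 1 = 0 := ⟨_, o_inv_real hc (hr _ _)⟩
  obtain ⟨h3, h4⟩ := (low_coeff_iff (tups 2 (fun _ => e))
    (fun ι => rt (mon e (oA V K k) w1) (ι 0) - rt (mon e (oA V K k) w1) (ι 1)) _).2 rfl
  obtain ⟨h5, h6⟩ := (low_coeff_iff (range s ×ˢ tups n (fun _ => e))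
    (fun κ => q κ.1 (app n (tp (fun _ => rt (mon e (oA V K k) w1)) κ.2) x)) _).2 rfl
  have hEe : e ≤ E := by omega
  refine ⟨k, hk0, e, by omega, _, ?_, _, ?_, w1, _, fun j hj i _ => ?_, fun i _ hi => ?_, hw1,
    h3, h5, o_inv_real (mul_ne_zero h4 h6) (hr' _ _ _ _ _)⟩
  · refine (card_filter_le _ _).trans ?_
    simp only [tups, Fintype.card_piFinset, card_range, prod_const, card_univ, Fintype.card_fin]
    exact Nat.pow_le_pow_left hEe _
  · refine (card_filter_le _ _).trans ?_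
    simp only [tups, card_product, Fintype.card_piFinset, card_range, prod_const, card_univ,
      Fintype.card_fin]
    exact Nat.mul_le_mul_left _ (Nat.pow_le_pow_left hEe _)
  · rw [h1 j hj, coeff_zero]
  · exact coeff_eq_zero_of_natDegree_lt (hedef ▸ hi)

theorem o_tendsto_app {m : ℕ} {y : ℕ → ℕ → ℝ} {y0 : ℕ → ℝ}
    (h : ∀ i < m, Filter.Tendsto (fun n => y n i) Filter.atTop (nhds (y0 i))) :
    Filter.Tendsto (fun n => app m (y n) 0) Filter.atTop (nhds (app m y0 0)) := by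
  refine tendsto_pi_nhds.2 (fun i => ?_)
  by_cases hi : i < m
  · simpa only [app_lt _ _ hi] using h i hi
  · simp only [app_ge _ _ (not_lt.1 hi)]; exact tendsto_const_nhds

theorem o_continuous_rc : Continuous rc :=
  continuous_pi (fun i => Complex.continuous_ofReal.comp (continuous_apply i))

theorem outer {p : α → ℕ → Pt → ℂ} {n s m : α → ℕ} (hp : CP (fun q : α × ℕ => p q.1 q.2))
    (hn : PT n) (hs : PT s) (hm : PT m) :
    ∃ (W : α → ℕ → ℂ[X]) (K : α → ℕ), BT K ∧ CX (fun q : α × Bin => fun _ => W q.1 q.2.val) ∧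
      ∀ a (Ψ : (ℕ → SignType) → Prop), (∀ σ σ', (∀ k < s a, σ k = σ' k) → Ψ σ → Ψ σ') →
        (∃ x : ℕ → ℝ, ∀ y, Ψ (sg (p a) (app (n a) y (app (m a) x 0)))) →
        ∃ x : ℕ → ℝ, (∀ y, Ψ (sg (p a) (app (n a) y (app (m a) x 0)))) ∧
          ∀ i < m a, Rt (W a) (K a) (x i) := by
  obtain ⟨V, K, hK, hV, hin⟩ := inner hp hn hs
  have hA : CX (fun q : α × Bin => fun x => oA (fun κ => V q.1 κ x) (K q.1) q.2.val) :=
    cx_oA (V := fun q : α × Bin => V q.1) (by fun_prop) (by fun_prop)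
      (hV.comp (f := fun q : (α × Bin) × Bin => (q.1.1, q.2)) (by fun_prop))
  obtain ⟨d, hd, hdeg⟩ := hA.deg
  obtain ⟨E, hE, hEle⟩ := BT.unif (f := fun a y => d (a, ⟨y⟩)) hK hd
  have hdeg' : ∀ a x, ∀ j ≤ K a, (oA (fun κ => V a κ x) (K a) j).natDegree < E a :=
    fun a x j hj => (hdeg (a, ⟨j⟩) x).trans_le (hEle a j hj)
  -- the general stratum
  have hgen : ∀ {γ : Type} [Enc γ] {π : γ → α} {k e : γ → ℕ}, PT π → BT k → BT e →
      CX (fun q z => oA (fun κ => V (π q) κ (tl (tl z))) (K (π q)) (k q)) ∧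
      CX (fun q z => mon (e q) (oA (fun κ => V (π q) κ (tl (tl z))) (K (π q)) (k q)) (z 0)) ∧
      CX (fun q z => oQ1 (e q)
        (mon (e q) (oA (fun κ => V (π q) κ (tl (tl z))) (K (π q)) (k q)) (z 0))) ∧
      CX (fun q z => oQ2 (p (π q)) (s (π q)) (n (π q)) (e q)
        (mon (e q) (oA (fun κ => V (π q) κ (tl (tl z))) (K (π q)) (k q)) (z 0)) (tl (tl z))) := by
    intro γ _ π k e hπ hk he
    have h1 : CX (fun q z => oA (fun κ => V (π q) κ (tl (tl z))) (K (π q)) (k q)) :=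
      (hA.comp (f := fun q => (π q, (⟨k q⟩ : Bin))) (by fun_prop)).at CV.id.tl.tl
    have h2 := h1.mon he (CP.var (PT.const 0))
    have h3 := RF.rt h2 he (fun a x => ⟨mon_monic _ _ _, mon_natDegree _ _ _⟩)
    exact ⟨h1, h2, cx_oQ1 h3, cx_oQ2 h3
      (hp.comp (f := fun q : γ × ℕ => (π q.1, q.2)) (by fun_prop)) (hn.comp hπ) (hs.comp hπ)
      CV.id.tl.tl⟩
  obtain ⟨L, hLdef⟩ : ∃ L : α → ℕ, L = fun a => K a + E a + E a ^ 2 + s a * E a ^ n a + 1 :=
    ⟨_, rfl⟩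
  have hL : BT L := by rw [hLdef]; fun_prop
  have hdg : ∀ i : ℕ, BT (fun q : α × Bin => dg (L q.1) q.2.val i) := fun i => by fun_prop
  have hZ : ZS (fun (q : α × Bin) Y => oZ (fun κ => V q.1 κ (tl (tl (rc Y)))) (K q.1) (E q.1)
      (p q.1) (s q.1) (n q.1) (dg (L q.1) q.2.val 0) (dg (L q.1) q.2.val 1)
      (dg (L q.1) q.2.val 2) (dg (L q.1) q.2.val 3) (rc Y 0) (rc Y 1) (tl (tl (rc Y)))) := by
    obtain ⟨g1, -, g3, g4⟩ := hgen (π := fun q : α × Bin => q.1) (by fun_prop) (hdg 0) (hdg 1)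
    have hE' : BT (fun q : α × Bin => E q.1) := by fun_prop
    have hf : PT (fun q : (α × Bin) × Bin => q.1) := by fun_prop
    have hs' : BT (fun q : (α × Bin) × Bin => q.2.val) := by fun_prop
    have z1 := ZS.all (hdg 0) (ZS.all (hE'.comp hf) (ZS.eq
      ((hgen (π := fun q : ((α × Bin) × Bin) × Bin => q.1.1.1) (k := fun q => q.1.2.val)
        (e := fun _ => 0) (by fun_prop) (by fun_prop) (by fun_prop)).1.coeff
          (e := fun q => q.2.val) (by fun_prop))))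
    have z2 := ZS.all hE' (ZS.imp (P := fun q : (α × Bin) × Bin =>
      dg (L q.1.1) q.1.2.val 1 < q.2.val) (CD.ofDT (by fun_prop)) (ZS.eq ((g1.comp hf).coeff hs')))
    have z3 := ZS.eq (((CP.var (PT.const 0)).mul (g1.coeff (hdg 1))).sub CP.one)
    have z4 := ZS.all (hdg 2) (ZS.eq ((g3.comp hf).coeff hs'))
    have z5 := ZS.all (hdg 3) (ZS.eq ((g4.comp hf).coeff hs'))
    have z6 := ZS.eq (((CP.var (PT.const 1)).mul
      ((g3.coeff (hdg 2)).mul (g4.coeff (hdg 3)))).sub CP.one)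
    exact (z1.and (z2.and (z3.and (z4.and (z5.and z6))))).congr (fun q Y => Iff.rfl)
  obtain ⟨F, hF, hFZ⟩ := hZ
  obtain ⟨V', K', hK', hV', hsam⟩ := sample (m := fun q : α × Bin => m q.1 + 2) hF (by fun_prop)
  obtain ⟨W, K'', hK'', hW, hcomb⟩ := comb (B := fun a => L a ^ 4) (by fun_prop) hK' hV'
  refine ⟨fun a κ => W a κ 0, K'', hK'', hW.at CV.zero, ?_⟩
  rintro a Ψ hΨ ⟨x, hx⟩
  have htl : ∀ Y : ℕ → ℝ, tl (tl (rc (app (m a + 2) Y 0))) = rc (app (m a) (tl (tl Y)) 0) := by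
    intro Y; rw [← rc_tl, ← rc_tl, tl_app, tl_app]
  obtain ⟨k, hk, e, he, k3, hk3, k4, hk4, w1, w2, hz⟩ :=
    oZ_exists (V := fun κ => V a κ (rc (app (m a) x 0))) (p a) (s a) (n a) (rc (app (m a) x 0))
      (hdeg' a _) (fun j i => hA.real (a, ⟨j⟩) _ i) (fun k e k3 k4 w1 => by
        obtain ⟨-, -, g3, g4⟩ := hgen (π := fun a => a) PT.id' (BT.const k) (BT.const e)
        have := ((g3.coeff (BT.const k3)).mul (g4.coeff (BT.const k4))).real a
          (cs w1 (cs 0 (app (m a) x 0)))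
        simpa only [rc_cs, tl_cs, cs_zero] using this)
  obtain ⟨ν, hν, hνd⟩ := exists_dg (L := L a) (m := 4)
    (fun i => if i = 0 then k else if i = 1 then e else if i = 2 then k3 else k4) (fun i _ => by
      simp only [hLdef]; split_ifs <;> omega)
  have e0 : dg (L a) ν 0 = k := hνd 0 (by omega)
  have e1 : dg (L a) ν 1 = e := hνd 1 (by omega)
  have e2 : dg (L a) ν 2 = k3 := hνd 2 (by omega)
  have e3 : dg (L a) ν 3 = k4 := hνd 3 (by omega)
  obtain ⟨-, g2, -, -⟩ := hgen (π := fun a => a) PT.id' (BT.const k) (BT.const e)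
  have hFZ' : ∀ Y : ℕ → ℝ, F (a, ⟨ν⟩) (rc (app (m a + 2) Y 0)) = 0 ↔
      oZ (fun κ => V a κ (rc (app (m a) (tl (tl Y)) 0))) (K a) (E a) (p a) (s a) (n a) k e k3 k4
        (Y 0) (Y 1) (rc (app (m a) (tl (tl Y)) 0)) := by
    intro Y
    rw [(hFZ (a, ⟨ν⟩) _).2]
    simp only [e0, e1, e2, e3, htl, rc_apply]
    rw [app_lt _ _ (by omega), app_lt _ _ (by omega)]
  have hψ : ∀ Y : ℕ → ℝ, F (a, ⟨ν⟩) (rc (app (m a + 2) Y 0)) = 0 →
      ((∀ y, Ψ (sg (p a) (app (n a) y (app (m a) (tl (tl Y)) 0)))) ↔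
        ∀ σ, RS (p a) (s a) (n a) (mon e (oA (fun κ => V a κ (rc (app (m a) (tl (tl Y)) 0)))
          (K a) k) (Y 0)) (app (m a) (tl (tl Y)) 0) σ → Ψ σ) := by
    intro Y hY
    obtain ⟨h1, -, -⟩ := oZ_spec (hdeg' a _) ((hFZ' Y).1 hY)
    constructor
    · rintro h σ ⟨y, -, hy⟩
      exact hΨ _ _ hy (h y)
    · intro h y
      obtain ⟨y', h2, h3⟩ := hin a (app (m a) (tl (tl Y)) 0) y
      exact h _ ⟨y', fun i hi => h1 _ (h3 i hi), h2⟩
  obtain ⟨Y, -, hY1, hY2⟩ := hsam (a, ⟨ν⟩) 0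
    (fun Y => ∀ y, Ψ (sg (p a) (app (n a) y (app (m a) (tl (tl Y)) 0))))
    (fun Y => (hFZ _ _).1) (fun Y Y0 h1 h2 h3 => by
      have hc : ∀ Y : ℕ → ℝ, mon e (oA (fun κ => V a κ (rc (app (m a) (tl (tl Y)) 0))) (K a) k)
          (Y 0) = (fun z : Pt => mon e (oA (fun κ => V a κ (tl (tl z))) (K a) k) (z 0))
            (rc (app (m a + 2) Y 0)) := by
        intro Y
        simp only [htl, rc_apply]
        rw [app_lt _ _ (by omega)]
      have hl := loc (e := e) (n := n a) (s := s a) (p a) (fun k => hp.continuous (a, k))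
        (fun k x => hp.real (a, k) x)
        (fun N => mon e (oA (fun κ => V a κ (rc (app (m a) (tl (tl (Y N))) 0))) (K a) k) (Y N 0))
        (mon e (oA (fun κ => V a κ (rc (app (m a) (tl (tl Y0)) 0))) (K a) k) (Y0 0))
        (fun N => ⟨mon_monic _ _ _, mon_natDegree _ _ _⟩) ⟨mon_monic _ _ _, mon_natDegree _ _ _⟩
        (fun N j => by rw [hc]; exact g2.real a _ j)
        (fun j => by
          simp only [hc]
          exact (((g2.coeff (BT.const j)).continuous a).tendsto _).comp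
            ((o_continuous_rc.tendsto _).comp (o_tendsto_app h3)))
        (fun N => app (m a) (tl (tl (Y N))) 0) (app (m a) (tl (tl Y0)) 0)
        (o_tendsto_app (fun i hi => h3 (i + 1 + 1) (by simp only; omega)))
        (fun N => by
          rw [(oZ_spec (hdeg' a _) ((hFZ' _).1 (h1 N))).2.1,
            (oZ_spec (hdeg' a _) ((hFZ' _).1 h2)).2.1])
        (fun N => by
          rw [(oZ_spec (hdeg' a _) ((hFZ' _).1 (h1 N))).2.2,
            (oZ_spec (hdeg' a _) ((hFZ' _).1 h2)).2.2])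
      refine hl.mono (fun N hN => ?_)
      rw [hψ _ (h1 N), hψ _ h2]
      exact forall_congr' (fun σ => by rw [hN σ]))
    ⟨cs w1 (cs w2 x), (hFZ' _).2 (by simpa only [tl_cs, cs_zero, cs_succ] using hz),
      by simpa only [tl_cs] using hx⟩
  refine ⟨tl (tl Y), hY1, fun i hi => hcomb a ν 0 _ hν ?_⟩
  simpa only [rc_zero, tl_apply] using hY2 (i + 1 + 1) (by simp only; omega)

end Crest.Agent.R316
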