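import Crest.Agent.R316.Tup

/-!
Row 316, task PAR: parity of the number of real root tuples with weighted sign conditions.

Plan. Let `L` be a gap bound (`gap` on `α × Bin`, made uniform over `j ≤ J` by `BT.unif`), `W` a
bound for all `∑_{j < J} w i j`, `i ≤ I`, `M = 2 (W (I + 1) + 1)`, `t j = 2^(L+1) v j - 1`,
`A j = ∏_{k < 2L+2} (2^k + t j)^M`, `B j = ∏_{k < 2L+2} (2^k - t j)^M`, `E = ∏_j (A j + B j)`,
`E j = ∏_{j'} (if j' = j then 1 else A j' + B j')`,
`G = ∑_{i < I} (∑_j w i j * A j * E j - u i * E)^2 - E^2 / 4`. At a real tuple (`step`)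
`A j + B j > 0` and `A j / (A j + B j)` is within `3^(-M)` of the indicator of `0 < v j`; hence
`G < 0` iff all the conditions hold. Conclude with `odd_neg`.
-/

set_option autoImplicit false
set_option linter.dupNamespace false

namespace Crest.Agent.R316

open Crest.Agent.PT Crest.Agent.QC Crest.Agent.R317 Polynomial Finset

variable {α β : Type} [Enc α] [Enc β]

/-- The rational step function. For `1 ≤ t < 2^n` some `k < n` has `2^k ≤ t ≤ 2 * 2^k`, so
`|2^k - t| ≤ (2^k + t) / 3`, while `|2^k - t| ≤ 2^k + t` for all `k`. -/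
theorem step {n M : ℕ} (hM : Even M) {t : ℝ} (h1 : 1 ≤ t) (h2 : t < 2 ^ n) :
    0 < ∏ k ∈ range n, ((2 : ℝ) ^ k + t) ^ M ∧ 0 ≤ ∏ k ∈ range n, ((2 : ℝ) ^ k - t) ^ M ∧
      3 ^ M * ∏ k ∈ range n, ((2 : ℝ) ^ k - t) ^ M ≤ ∏ k ∈ range n, ((2 : ℝ) ^ k + t) ^ M := by
  have ht : 0 < t := by linarith
  refine ⟨Finset.prod_pos fun k _ => by positivity,
    Finset.prod_nonneg fun k _ => hM.pow_nonneg _, ?_⟩
  obtain ⟨k, hk1, hk2⟩ := exists_nat_pow_near h1 (one_lt_two : (1 : ℝ) < 2)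
  have hkn : k ∈ range n := mem_range.2
    ((pow_lt_pow_iff_right₀ (one_lt_two : (1 : ℝ) < 2)).1 (hk1.trans_lt h2))
  rw [← Finset.mul_prod_erase _ _ hkn, ← Finset.mul_prod_erase _ _ hkn, ← mul_assoc]
  have e : ∀ j : ℕ, ((2 : ℝ) ^ j - t) ^ M = |(2 : ℝ) ^ j - t| ^ M := fun j =>
    (hM.pow_abs _).symm
  refine mul_le_mul ?_ (Finset.prod_le_prod (fun j _ => hM.pow_nonneg _) fun j _ => ?_)
    (Finset.prod_nonneg fun j _ => hM.pow_nonneg _) (by positivity)
  · rw [e, ← mul_pow]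
    refine pow_le_pow_left₀ (by positivity) ?_ _
    rw [abs_sub_comm, abs_of_nonneg (by linarith)]
    rw [pow_succ] at hk2
    linarith
  · rw [e]
    refine pow_le_pow_left₀ (abs_nonneg _) ?_ _
    have : (0 : ℝ) < 2 ^ j := by positivity
    rw [abs_le]
    constructor <;> linarith

/-- The numerator of the approximate indicator. -/
noncomputable def parA {K : Type} [CommRing K] (L M : ℕ) (v : K) : K :=
  ∏ k ∈ range (2 * L + 2), (2 ^ k + (2 ^ (L + 1) * v - 1)) ^ M

/-- The complementary term. -/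
noncomputable def parB {K : Type} [CommRing K] (L M : ℕ) (v : K) : K :=
  ∏ k ∈ range (2 * L + 2), (2 ^ k - (2 ^ (L + 1) * v - 1)) ^ M

/-- The test polynomial. -/
noncomputable def parG {K : Type} [CommRing K] (I J : ℕ) (w : ℕ → ℕ → ℕ) (u : ℕ → ℕ)
    (A B : ℕ → K) : K :=
  (4 : ℕ) * ∑ i ∈ range I, (∑ j ∈ range J, (w i j : K) * A j *
    ∏ j' ∈ range J, (if j' = j then 1 else A j' + B j') -
      (u i : K) * ∏ j ∈ range J, (A j + B j)) ^ 2 - (∏ j ∈ range J, (A j + B j)) ^ 2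

theorem par_ab {L M : ℕ} (hM : Even M) {v : ℝ} (h1 : |v| ≤ 2 ^ L)
    (h2 : v ≠ 0 → 1 ≤ 2 ^ L * |v|) :
    0 < parA L M v + parB L M v ∧
      |parA L M v / (parA L M v + parB L M v) - (if 0 < v then 1 else 0)| ≤ 1 / 3 ^ M := by
  have hL : (1 : ℝ) ≤ 2 ^ L := one_le_pow₀ one_le_two
  have e1 : (2 : ℝ) ^ (2 * L + 2) = 4 * (2 ^ L * 2 ^ L) := by ring
  have e2 : (2 : ℝ) ^ (L + 1) = 2 * 2 ^ L := by ring
  have h3 : (0 : ℝ) < 3 ^ M := by positivity
  have hv : 2 ^ L * |v| ≤ 2 ^ L * 2 ^ L := mul_le_mul_of_nonneg_left h1 (by positivity)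
  split_ifs with h
  · rw [abs_of_pos h] at h1 h2 hv
    have h4 := h2 h.ne'
    obtain ⟨a1, a2, a3⟩ := step (n := 2 * L + 2) hM (t := 2 ^ (L + 1) * v - 1)
      (by rw [e2]; linarith) (by rw [e1, e2]; nlinarith)
    change 0 < parA L M v at a1
    change 0 ≤ parB L M v at a2
    change 3 ^ M * parB L M v ≤ parA L M v at a3
    have hp : 0 < parA L M v + parB L M v := by linarith
    refine ⟨hp, ?_⟩
    rw [show parA L M v / (parA L M v + parB L M v) - 1 =
      -(parB L M v / (parA L M v + parB L M v)) by field_simp; ring, abs_neg,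
      abs_of_nonneg (by positivity), div_le_div_iff₀ hp h3]
    linarith
  · have h' : v ≤ 0 := not_lt.1 h
    rw [abs_of_nonpos h'] at h1 hv
    have h5 : 0 ≤ 2 ^ L * -v := mul_nonneg (by positivity) (by linarith)
    obtain ⟨a1, a2, a3⟩ := step (n := 2 * L + 2) hM (t := -(2 ^ (L + 1) * v - 1))
      (by rw [e2]; linarith) (by rw [e1, e2]; nlinarith)
    simp only [sub_neg_eq_add, ← sub_eq_add_neg] at a1 a2 a3
    change 0 < parB L M v at a1
    change 0 ≤ parA L M v at a2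
    change 3 ^ M * parA L M v ≤ parB L M v at a3
    have hp : 0 < parA L M v + parB L M v := by linarith
    refine ⟨hp, ?_⟩
    rw [sub_zero, abs_of_nonneg (by positivity), div_le_div_iff₀ hp h3]
    linarith

theorem par_neg_iff {I J W : ℕ} {w : ℕ → ℕ → ℕ} {u : ℕ → ℕ} {A B : ℕ → ℝ} {s : ℕ → Prop}
    [DecidablePred s] {ε : ℝ} (hε : 0 ≤ ε) (hp : ∀ j < J, 0 < A j + B j)
    (ha : ∀ j < J, |A j / (A j + B j) - (if s j then 1 else 0)| ≤ ε)
    (hW : ∀ i < I, ∑ j ∈ range J, w i j ≤ W) (hδ : W * ε * (2 * (I + 1)) ≤ 1) :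
    parG I J w u A B < 0 ↔ ∀ i < I, ∑ j ∈ range J, (if s j then w i j else 0) = u i := by
  set E : ℝ := ∏ j ∈ range J, (A j + B j) with hE
  have hE0 : 0 < E := Finset.prod_pos fun j hj => hp j (mem_range.1 hj)
  set r : ℕ → ℝ := fun i => ∑ j ∈ range J, (w i j : ℝ) * (A j / (A j + B j)) with hr
  have hG : parG I J w u A B = E ^ 2 * (4 * ∑ i ∈ range I, (r i - u i) ^ 2 - 1) := by
    unfold parG
    rw [← hE]
    have : ∀ i, ∑ j ∈ range J, (w i j : ℝ) * A j *
        ∏ j' ∈ range J, (if j' = j then 1 else A j' + B j') = r i * E := by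
      intro i
      rw [hr, Finset.sum_mul]
      refine Finset.sum_congr rfl fun j hj => ?_
      have h0 := (hp j (mem_range.1 hj)).ne'
      have h1 : E = (A j + B j) * ∏ j' ∈ range J, (if j' = j then 1 else A j' + B j') := by
        rw [hE, ← Finset.mul_prod_erase _ _ hj, ← Finset.mul_prod_erase _ _ hj, if_pos rfl,
          one_mul]
        congr 1
        exact Finset.prod_congr rfl fun j' hj' => by rw [if_neg (ne_of_mem_erase hj')]
      rw [h1]
      field_simp
    simp only [this]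
    rw [Finset.mul_sum, Finset.mul_sum, mul_sub, Finset.mul_sum]
    push_cast
    congr 1
    · exact Finset.sum_congr rfl fun i _ => by ring
    · ring
  have hc : ∀ i < I, |r i - ((∑ j ∈ range J, (if s j then w i j else 0) : ℕ) : ℝ)| ≤ W * ε := by
    intro i hi
    rw [hr]
    push_cast
    rw [← Finset.sum_sub_distrib]
    refine (Finset.abs_sum_le_sum_abs _ _).trans ?_
    refine le_trans (Finset.sum_le_sum (g := fun j => (w i j : ℝ) * ε) fun j hj => ?_) ?_
    · rw [show (w i j : ℝ) * (A j / (A j + B j)) - (if s j then (w i j : ℝ) else 0) =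
        (w i j : ℝ) * (A j / (A j + B j) - (if s j then 1 else 0)) by split_ifs <;> ring,
        abs_mul, abs_of_nonneg (Nat.cast_nonneg _)]
      exact mul_le_mul_of_nonneg_left (ha j (mem_range.1 hj)) (Nat.cast_nonneg _)
    · rw [← Finset.sum_mul]
      refine mul_le_mul_of_nonneg_right ?_ hε
      exact_mod_cast hW i hi
  have hδ0 : 0 ≤ W * ε := by positivity
  have hI0 : (0 : ℝ) ≤ I := Nat.cast_nonneg _
  have hx : ∀ x : ℝ, E ^ 2 * x < 0 ↔ x < 0 := fun x =>
    ⟨fun h => neg_of_mul_neg_right h (by positivity), fun h => mul_neg_of_pos_of_neg (by positivity) h⟩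
  rw [hG, hx]
  constructor
  · intro h i hi
    by_contra hne
    have h1 := hc i hi
    have h2 : (r i - u i) ^ 2 ≤ ∑ i ∈ range I, (r i - u i) ^ 2 :=
      Finset.single_le_sum (f := fun i => (r i - u i) ^ 2) (fun i _ => sq_nonneg _)
        (mem_range.2 hi)
    have h3 : W * ε ≤ 1 / 2 := by nlinarith
    rw [abs_le] at h1
    rcases lt_or_gt_of_ne hne with h4 | h4
    · have h5 : ((∑ j ∈ range J, (if s j then w i j else 0) : ℕ) : ℝ) + 1 ≤ u i := by
        exact_mod_cast h4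
      nlinarith
    · have h5 : (u i : ℝ) + 1 ≤ ((∑ j ∈ range J, (if s j then w i j else 0) : ℕ) : ℝ) := by
        exact_mod_cast h4
      nlinarith
  · intro h
    have h1 : ∑ i ∈ range I, (r i - u i) ^ 2 ≤ I * (W * ε) ^ 2 := by
      refine le_trans (Finset.sum_le_sum (g := fun _ => (W * ε) ^ 2) fun i hi => ?_) (by simp)
      have h2 := hc i (mem_range.1 hi)
      rw [h i (mem_range.1 hi)] at h2
      exact sq_le_sq' (abs_le.1 h2).1 (abs_le.1 h2).2
    have h2 : (W * ε * (2 * (I + 1))) ^ 2 ≤ 1 := pow_le_one₀ (by positivity) hδ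
    by_cases h0 : W * ε = 0
    · rw [h0] at h1
      linarith
    · have h3 : 0 < (W * ε) ^ 2 := by positivity
      nlinarith

theorem par_cpA {L M : α → ℕ} {v : α → Pt → ℂ} (hL : BT L) (hM : BT M) (hv : CP v) :
    CP (fun a z => parA (L a) (M a) (v a z)) := by
  have h2 : ∀ {γ : Type} [Enc γ], CP (fun (_ : γ) (_ : Pt) => (2 : ℂ)) := fun {γ} _ =>
    (CP.rat (α := γ) 2).congr fun _ _ => by simp
  unfold parA
  exact CP.prod (F := fun a k z => (2 ^ k + (2 ^ (L a + 1) * v a z - 1)) ^ M a) (by fun_prop)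
    (((h2.pow (k := fun p : α × Bin => p.2.val) (by fun_prop)).add
      (((h2.pow (k := fun p : α × Bin => L p.1 + 1) (by fun_prop)).mul
        (hv.comp (f := fun p : α × Bin => p.1) (by fun_prop))).sub CP.one)).pow (by fun_prop))

theorem par_cpB {L M : α → ℕ} {v : α → Pt → ℂ} (hL : BT L) (hM : BT M) (hv : CP v) :
    CP (fun a z => parB (L a) (M a) (v a z)) := by
  have h2 : ∀ {γ : Type} [Enc γ], CP (fun (_ : γ) (_ : Pt) => (2 : ℂ)) := fun {γ} _ =>
    (CP.rat (α := γ) 2).congr fun _ _ => by simp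
  unfold parB
  exact CP.prod (F := fun a k z => (2 ^ k - (2 ^ (L a + 1) * v a z - 1)) ^ M a) (by fun_prop)
    (((h2.pow (k := fun p : α × Bin => p.2.val) (by fun_prop)).sub
      (((h2.pow (k := fun p : α × Bin => L p.1 + 1) (by fun_prop)).mul
        (hv.comp (f := fun p : α × Bin => p.1) (by fun_prop))).sub CP.one)).pow (by fun_prop))

theorem par_cpG {I J : α → ℕ} {w : α → ℕ → ℕ → ℕ} {u : α → ℕ → ℕ} {A B : α → ℕ → Pt → ℂ}
    (hI : BT I) (hJ : BT J) (hw : BT (fun p : α × Bin × Bin => w p.1 p.2.1.val p.2.2.val))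
    (hu : BT (fun p : α × Bin => u p.1 p.2.val))
    (hA : CP (fun p : α × Bin => A p.1 p.2.val)) (hB : CP (fun p : α × Bin => B p.1 p.2.val)) :
    CP (fun a z => parG (I a) (J a) (w a) (u a) (fun j => A a j z) (fun j => B a j z)) := by
  have hE : CP (fun a z => ∏ j ∈ range (J a), (A a j z + B a j z)) :=
    CP.prod (F := fun a j z => A a j z + B a j z) hJ (hA.add hB)
  have hE' : CP (fun (p : α × Bin) z => ∏ j' ∈ range (J p.1),
      (if j' = p.2.val then 1 else A p.1 j' z + B p.1 j' z)) :=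
    CP.prod (F := fun (p : α × Bin) j' z => if j' = p.2.val then 1 else A p.1 j' z + B p.1 j' z)
      (by fun_prop) (CP.ite (P := fun q : (α × Bin) × Bin => q.2.val = q.1.2.val)
        (CD.ofDT (by fun_prop)) CP.one
        ((hA.add hB).comp (f := fun q : (α × Bin) × Bin => (q.1.1, q.2)) (by fun_prop)))
  have hS : CP (fun (p : α × Bin) z => ∑ j ∈ range (J p.1), (w p.1 p.2.val j : ℂ) * A p.1 j z *
      ∏ j' ∈ range (J p.1), (if j' = j then 1 else A p.1 j' z + B p.1 j' z)) :=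
    CP.sum (F := fun (p : α × Bin) j z => (w p.1 p.2.val j : ℂ) * A p.1 j z *
      ∏ j' ∈ range (J p.1), (if j' = j then 1 else A p.1 j' z + B p.1 j' z)) (by fun_prop)
      (((CP.natB (hw.comp (f := fun q : (α × Bin) × Bin => (q.1.1, q.1.2, q.2))
        (by fun_prop))).mul
        (hA.comp (f := fun q : (α × Bin) × Bin => (q.1.1, q.2)) (by fun_prop))).mul
        (hE'.comp (f := fun q : (α × Bin) × Bin => (q.1.1, q.2)) (by fun_prop)))
  unfold parG
  exact ((CP.natB (c := fun _ => 4) (by fun_prop)).mul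
    (CP.sum (F := fun a i z => (∑ j ∈ range (J a), (w a i j : ℂ) * A a j z *
      ∏ j' ∈ range (J a), (if j' = j then 1 else A a j' z + B a j' z) -
        (u a i : ℂ) * ∏ j ∈ range (J a), (A a j z + B a j z)) ^ 2) hI
      ((hS.sub ((CP.natB hu).mul (hE.comp (f := fun p : α × Bin => p.1) (by fun_prop)))).pow
        (k := fun _ => 2) (by fun_prop)))).sub (hE.pow (k := fun _ => 2) (by fun_prop))

theorem par_castA (L M : ℕ) (v : ℝ) : parA L M (v : ℂ) = ((parA L M v : ℝ) : ℂ) := by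
  simp [parA]

theorem par_castB (L M : ℕ) (v : ℝ) : parB L M (v : ℂ) = ((parB L M v : ℝ) : ℂ) := by
  simp [parB]

theorem par_castG (I J : ℕ) (w : ℕ → ℕ → ℕ) (u : ℕ → ℕ) (A B : ℕ → ℝ) :
    parG I J w u (fun j => (A j : ℂ)) (fun j => (B j : ℂ)) = ((parG I J w u A B : ℝ) : ℂ) := by
  simp [parG, apply_ite Complex.ofReal]

open Classical in
theorem par {m I J : α → ℕ} {N : α → ℕ → ℕ} {ρ : α → ℕ → ℕ → ℂ} {v : α → ℕ → Pt → ℂ}
    {w : α → ℕ → ℕ → ℕ} {u : α → ℕ → ℕ} (hm : PT m) (hI : BT I) (hJ : BT J)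
    (hρ : RF (fun p : α × ℕ => N p.1 p.2) (fun p _ => ρ p.1 p.2))
    (hv : CP (fun p : α × Bin => v p.1 p.2.val))
    (hw : BT (fun p : α × Bin × Bin => w p.1 p.2.1.val p.2.2.val))
    (hu : BT (fun p : α × Bin => u p.1 p.2.val)) :
    CD (fun a => Odd ((tups (m a) (N a)).filter fun ι =>
      (∀ i : Fin (m a), (ρ a i (ι i)).im = 0) ∧ ∀ i < I a,
        ∑ j ∈ range (J a), (if 0 < (v a j (tp (ρ a) ι)).re then w a i j else 0) = u a i).card) := by
  obtain ⟨L, hL, hgap⟩ := gap (α := α × Bin) (m := fun p => m p.1) (N := fun p => N p.1)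
    (ρ := fun p => ρ p.1) (G := fun p => v p.1 p.2.val) (by fun_prop)
    (hρ.comp (f := fun q : (α × Bin) × ℕ => (q.1.1, q.2)) (by fun_prop)) hv
  obtain ⟨g, hg, hg'⟩ := BT.unif (α := α × Bin) (f := fun p j => w p.1 p.2.val j)
    (B := fun p => J p.1) (by fun_prop)
    (hw.comp (f := fun q : (α × Bin) × Bin => (q.1.1, q.1.2, q.2)) (by fun_prop))
  obtain ⟨g2, hg2, hg2'⟩ := BT.unif (f := fun a i => g (a, ⟨i⟩)) hI hg
  have hM : BT (fun a => 2 * (J a * g2 a * (I a + 1) + 1)) := by fun_prop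
  have hA := par_cpA (α := α × Bin) hL (hM.comp (f := fun p : α × Bin => p.1) (by fun_prop)) hv
  have hB := par_cpB (α := α × Bin) hL (hM.comp (f := fun p : α × Bin => p.1) (by fun_prop)) hv
  have hG := par_cpG (A := fun a j z => parA (L (a, ⟨j⟩)) (2 * (J a * g2 a * (I a + 1) + 1))
    (v a j z)) (B := fun a j z => parB (L (a, ⟨j⟩)) (2 * (J a * g2 a * (I a + 1) + 1))
    (v a j z)) hI hJ hw hu hA hB
  refine (odd_neg hm hρ hG).congr fun a => ?_
  congr! 2
  refine Finset.filter_congr fun ι hι => and_congr_right fun hre => ?_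
  have hx : tp (ρ a) ι = rc (fun i => (tp (ρ a) ι i).re) := by
    funext i
    refine Complex.ext (by simp [rc]) ?_
    rw [rc_apply, Complex.ofReal_im]
    unfold tp
    split_ifs with h
    · exact hre ⟨i, h⟩
    · rfl
  have hvr : ∀ j, v a j (tp (ρ a) ι) = ((v a j (tp (ρ a) ι)).re : ℂ) := fun j => by
    refine Complex.ext (by simp) ?_
    rw [Complex.ofReal_im, hx]
    exact hv.real (a, ⟨j⟩) _
  have hab := fun j => par_ab (L := L (a, ⟨j⟩)) (M := 2 * (J a * g2 a * (I a + 1) + 1))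
    (even_two_mul _) (v := (v a j (tp (ρ a) ι)).re)
    (by
      have := (hgap (a, ⟨j⟩) ι hι).1
      beta_reduce at this
      rw [hvr j, Complex.norm_real, Real.norm_eq_abs] at this
      exact this)
    (fun h0 => by
      have := (hgap (a, ⟨j⟩) ι hι).2
      beta_reduce at this
      rw [hvr j, Complex.norm_real, Real.norm_eq_abs] at this
      exact this (by exact_mod_cast h0))
  have e : parG (I a) (J a) (w a) (u a)
      (fun j => parA (L (a, ⟨j⟩)) (2 * (J a * g2 a * (I a + 1) + 1)) (v a j (tp (ρ a) ι)))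
      (fun j => parB (L (a, ⟨j⟩)) (2 * (J a * g2 a * (I a + 1) + 1)) (v a j (tp (ρ a) ι))) =
      ((parG (I a) (J a) (w a) (u a)
      (fun j => parA (L (a, ⟨j⟩)) (2 * (J a * g2 a * (I a + 1) + 1)) (v a j (tp (ρ a) ι)).re)
      (fun j => parB (L (a, ⟨j⟩)) (2 * (J a * g2 a * (I a + 1) + 1))
        (v a j (tp (ρ a) ι)).re) : ℝ) : ℂ) := by
    rw [← par_castG]
    congr 1 <;> funext j
    · rw [← par_castA, ← hvr]
    · rw [← par_castB, ← hvr]
  rw [e, Complex.ofReal_re]
  refine par_neg_iff (W := J a * g2 a) (ε := 1 / 3 ^ (2 * (J a * g2 a * (I a + 1) + 1)))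
    (by positivity) (fun j _ => (hab j).1) (fun j _ => (hab j).2) (fun i hi => ?_) ?_
  · simpa using Finset.sum_le_card_nsmul (range (J a)) _ (g2 a) fun j hj =>
      (hg' (a, ⟨i⟩) j (mem_range.1 hj).le).trans (hg2' a i hi.le)
  · have h1 : 2 * (J a * g2 a * (I a + 1) + 1) < 3 ^ (2 * (J a * g2 a * (I a + 1) + 1)) :=
      Nat.lt_pow_self (by norm_num)
    have h2 : ((2 * (J a * g2 a * (I a + 1) + 1) : ℕ) : ℝ) <
        3 ^ (2 * (J a * g2 a * (I a + 1) + 1)) := by exact_mod_cast h1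
    rw [mul_one_div, div_mul_eq_mul_div, div_le_one (by positivity)]
    push_cast at h2 ⊢
    linarith

end Crest.Agent.R316
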