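import Crest.Agent.R316.CX
import Crest.Agent.R316.Alg

/-!
Row 316, task RF: power sums of roots and Newton's formulas.
-/

set_option autoImplicit false
set_option linter.dupNamespace false

namespace Crest.Agent.R316

open Crest.Agent.PT Crest.Agent.QC Crest.Agent.R317 Polynomial Finset

variable {α β : Type} [Enc α] [Enc β]

theorem rf_rev {ι : Type} (s : Finset ι) (a b : ι → ℂ) (t : ℂ) :
    ∑ j ∈ range (s.card + 1), (∏ i ∈ s, (C (a i) + C (b i) * X)).coeff j * t ^ (s.card - j) =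
      ∏ i ∈ s, (a i * t + b i) := by
  have hd : (∏ i ∈ s, (C (a i) + C (b i) * X)).natDegree < s.card + 1 := by
    refine Nat.lt_succ_of_le ((natDegree_prod_le _ _).trans ?_)
    rw [card_eq_sum_ones]
    refine sum_le_sum fun i _ => ?_
    rw [add_comm]
    exact natDegree_linear_le
  refine congrFun (Continuous.ext_on (dense_compl_singleton (0 : ℂ))
    (f := fun t => ∑ j ∈ range (s.card + 1),
      (∏ i ∈ s, (C (a i) + C (b i) * X)).coeff j * t ^ (s.card - j))
    (g := fun t => ∏ i ∈ s, (a i * t + b i)) (by fun_prop) (by fun_prop) fun t ht => ?_) t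
  have ht0 : t ≠ 0 := ht
  have h1 := eval_eq_sum_range' hd t⁻¹
  have h2 : ∏ i ∈ s, (a i * t + b i) = t ^ s.card * eval t⁻¹ (∏ i ∈ s, (C (a i) + C (b i) * X)) := by
    rw [eval_prod, ← prod_const, ← prod_mul_distrib]
    refine prod_congr rfl fun i _ => ?_
    simp only [eval_add, eval_mul, eval_C, eval_X]
    field_simp
  simp only
  rw [h2, h1, mul_sum]
  refine sum_congr rfl fun j hj => ?_
  rw [pow_sub₀ _ ht0 (Nat.lt_succ_iff.1 (mem_range.1 hj)), inv_pow]
  ring

theorem rf_deriv {ι : Type} [DecidableEq ι] (s : Finset ι) (g : ι → ℂ) :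
    derivative (∏ i ∈ s, (1 - C (g i) * X)) =
      ∑ i ∈ s, -C (g i) * ∏ j ∈ s.erase i, (1 - C (g j) * X) := by
  rw [derivative_prod_finset]
  refine sum_congr rfl fun i _ => ?_
  rw [derivative_sub, derivative_one, derivative_C_mul, derivative_X]
  ring

theorem rf_X_dvd {ι : Type} (s : Finset ι) (g : ι → ℂ) :
    X ∣ 1 - ∏ i ∈ s, (1 - C (g i) * X) := by
  rw [X_dvd_iff, coeff_zero_eq_eval_zero]
  simp [eval_prod]

theorem rf_psum {ι : Type} (s : Finset ι) (g : ι → ℂ) (k : ℕ) :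
    ((C (s.card : ℂ) * ∏ i ∈ s, (1 - C (g i) * X) - X * derivative (∏ i ∈ s, (1 - C (g i) * X))) *
      ∑ n ∈ range (k + 1), (1 - ∏ i ∈ s, (1 - C (g i) * X)) ^ n).coeff k = ∑ i ∈ s, g i ^ k := by
  classical
  have h1 : C (s.card : ℂ) * ∏ i ∈ s, (1 - C (g i) * X) -
      X * derivative (∏ i ∈ s, (1 - C (g i) * X)) =
      ∑ i ∈ s, ∏ j ∈ s.erase i, (1 - C (g j) * X) := by
    rw [rf_deriv, map_natCast, ← nsmul_eq_mul, ← sum_const, mul_sum, ← sum_sub_distrib]
    refine sum_congr rfl fun i hi => ?_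
    rw [← mul_prod_erase s _ hi]
    ring
  rw [h1, sum_mul, finsetSum_coeff]
  refine sum_congr rfl fun i hi => ?_
  have hR := mul_prod_erase s (fun i => (1 - C (g i) * X : ℂ[X])) hi
  obtain ⟨Y, hY⟩ := rf_X_dvd s g
  set R := ∏ i ∈ s, (1 - C (g i) * X : ℂ[X])
  set A := ∏ j ∈ s.erase i, (1 - C (g j) * X : ℂ[X])
  have h2 := mul_neg_geom_sum (1 - R) (k + 1)
  have h3 := mul_neg_geom_sum (C (g i) * X) (k + 1)
  set G := ∑ n ∈ range (k + 1), (1 - R) ^ n
  have h4 : (∑ n ∈ range (k + 1), (C (g i) * X) ^ n).coeff k = g i ^ k := by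
    simp only [mul_pow, ← C_pow, finsetSum_coeff, coeff_C_mul_X_pow]
    rw [sum_ite_eq, if_pos (mem_range.2 (Nat.lt_succ_self k))]
  set H := ∑ n ∈ range (k + 1), (C (g i) * X) ^ n
  have h5 : X ^ (k + 1) ∣ A * G - H := by
    refine ⟨A * G * C (g i) ^ (k + 1) - Y ^ (k + 1) * H, ?_⟩
    rw [hY, mul_pow, ← hY] at h2
    rw [mul_pow] at h3
    linear_combination (-(A * G)) * h3 + H * h2 + G * H * hR
  have h6 := X_pow_dvd_iff.1 h5 k (Nat.lt_succ_self k)
  rw [coeff_sub, h4] at h6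
  exact sub_eq_zero.1 h6

theorem rf_uniq {N : ℕ} {S D : ℂ[X]} (h : X ^ N ∣ derivative D - S * D) (h0 : D.coeff 0 = 0) :
    ∀ j ≤ N, D.coeff j = 0 := by
  intro j
  induction j using Nat.strong_induction_on with
  | _ j ih =>
  intro hj
  rcases j with _ | j
  · exact h0
  have h1 := X_pow_dvd_iff.1 h j (by omega)
  rw [coeff_sub, coeff_derivative, coeff_mul, sum_eq_zero, sub_zero] at h1
  · exact (mul_eq_zero.1 h1).resolve_right (Nat.cast_add_one_ne_zero j)
  · intro c hc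
    have := mem_antidiagonal.1 hc
    rw [ih c.2 (by omega) (by omega), mul_zero]

theorem rf_exp {ι : Type} (s : Finset ι) (g : ι → ℂ) (N : ℕ) {j : ℕ} (hj : j ≤ N) :
    (∑ n ∈ range (N + 1), C ((n.factorial : ℂ)⁻¹) *
      (∑ k ∈ range N, C (-(∑ i ∈ s, g i ^ (k + 1)) * ((k : ℂ) + 1)⁻¹) * X ^ (k + 1)) ^ n).coeff j =
      (∏ i ∈ s, (1 - C (g i) * X)).coeff j := by
  classical
  set S : ℂ[X] := ∑ k ∈ range N, C (-(∑ i ∈ s, g i ^ (k + 1)) * ((k : ℂ) + 1)⁻¹) * X ^ (k + 1)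
    with hS
  have hX : X ∣ S := dvd_sum fun k _ => (dvd_pow_self X (Nat.succ_ne_zero k)).mul_left _
  have hS' : derivative S = ∑ i ∈ s, -C (g i) * ∑ k ∈ range N, (C (g i) * X) ^ k := by
    simp only [mul_sum]
    rw [hS, derivative_sum, sum_comm]
    refine sum_congr rfl fun k _ => ?_
    rw [derivative_C_mul_X_pow, Nat.cast_add_one,
      inv_mul_cancel_right₀ (Nat.cast_add_one_ne_zero k), Nat.add_sub_cancel, map_neg, map_sum,
      neg_mul, sum_mul, ← sum_neg_distrib]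
    refine sum_congr rfl fun i _ => ?_
    rw [C_pow]
    ring
  have hE : X ^ N ∣ derivative (∏ i ∈ s, (1 - C (g i) * X)) -
      derivative S * ∏ i ∈ s, (1 - C (g i) * X) := by
    rw [rf_deriv, hS', sum_mul, ← sum_sub_distrib]
    refine dvd_sum fun i hi => ⟨-C (g i) * C (g i) ^ N * ∏ j ∈ s.erase i, (1 - C (g j) * X), ?_⟩
    have h3 := mul_neg_geom_sum (C (g i) * X) N
    rw [mul_pow] at h3
    rw [← mul_prod_erase s _ hi]
    linear_combination (C (g i) * ∏ j ∈ s.erase i, (1 - C (g j) * X)) * h3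
  have hT : X ^ N ∣ derivative (∑ n ∈ range (N + 1), C ((n.factorial : ℂ)⁻¹) * S ^ n) -
      derivative S * ∑ n ∈ range (N + 1), C ((n.factorial : ℂ)⁻¹) * S ^ n := by
    have e : derivative (∑ n ∈ range (N + 1), C ((n.factorial : ℂ)⁻¹) * S ^ n) =
        derivative S * ∑ n ∈ range N, C ((n.factorial : ℂ)⁻¹) * S ^ n := by
      rw [sum_range_succ', derivative_add, derivative_sum, mul_sum, pow_zero, mul_one, derivative_C,
        add_zero]
      refine sum_congr rfl fun n _ => ?_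
      have : C (((n + 1).factorial : ℂ)⁻¹) * C ((n : ℂ) + 1) = C ((n.factorial : ℂ)⁻¹) := by
        rw [← C_mul, Nat.factorial_succ, Nat.cast_mul, Nat.cast_add_one, mul_inv, mul_right_comm,
          inv_mul_cancel₀ (Nat.cast_add_one_ne_zero n), one_mul]
      rw [derivative_C_mul, derivative_pow_succ, ← this]
      ring
    rw [e, sum_range_succ, mul_add, sub_add_cancel_left, dvd_neg]
    exact ((pow_dvd_pow_of_dvd hX N).mul_left _).mul_left _
  have := rf_uniq (S := derivative S) (N := N)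
    (D := ∑ n ∈ range (N + 1), C ((n.factorial : ℂ)⁻¹) * S ^ n - ∏ i ∈ s, (1 - C (g i) * X))
    (by
      have := dvd_sub hT hE
      rw [derivative_sub]
      convert this using 1
      ring)
    (by
      have h0 : S.eval 0 = 0 := by rw [← coeff_zero_eq_eval_zero]; exact X_dvd_iff.1 hX
      rw [coeff_zero_eq_eval_zero, sum_range_succ']
      simp [eval_finsetSum, eval_prod, h0]) j hj
  rwa [coeff_sub, sub_eq_zero] at this

theorem rf_cp_rev {N : α → ℕ} {G : α → Pt → ℂ[X]} (hN : BT N) (hG : CX G) :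
    CP (fun a z => ∑ j ∈ range (N a + 1), (G a (tl z)).coeff j * z 0 ^ (N a - j)) :=
  CP.sum (F := fun a j z => (G a (tl z)).coeff j * z 0 ^ (N a - j)) (by fun_prop)
    ((((hG.comp (f := fun p : α × Bin => p.1) (by fun_prop)).coeff
      (e := fun p => p.2.val) (by fun_prop)).at CV.id.tl).mul
      ((CP.var (i := fun _ => 0) (by fun_prop)).pow (by fun_prop)))

theorem RF.comp {N : β → ℕ} {ρ : β → Pt → ℕ → ℂ} {f : α → β} (h : RF N ρ) (hf : PT f) :
    RF (fun a => N (f a)) (fun a => ρ (f a)) := by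
  exact ⟨h.1.comp hf, h.2.comp hf⟩

theorem RF.at {N : α → ℕ} {ρ : α → Pt → ℕ → ℂ} {H : α → Pt → Pt} (h : RF N ρ) (hH : CV H) :
    RF N (fun a z => ρ a (H a z)) := by
  exact ⟨h.1, h.2.at (CV.cs (CP.var (i := fun _ => 0) (by fun_prop)) (hH.at CV.id.tl))⟩

/-- The roots of a monic polynomial of known degree (`rt_spec`). -/
theorem RF.rt {N : α → ℕ} {G : α → Pt → ℂ[X]} (hG : CX G) (hN : BT N)
    (hm : ∀ a x, (G a x).Monic ∧ (G a x).natDegree = N a) : RF N (fun a x => rt (G a x)) := by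
  refine ⟨hN, CP.congr hG fun a z => ?_⟩
  rw [rt_spec (hm a _).1, (hm a _).2]

/-- Power sums. With `χ = ∏ (X - ρ k)`, `R = ∏ (1 - ρ k X) = ∑_{j ≤ N} coeff (N - j) χ X^j`:
`p_{k+1} = coeff k (-R' * ∑_{n ≤ k} (1 - R)^n)`, `p_0 = N`. (`-R' = R * ∑ p_{k+1} X^k` and
`R * ∑_{n ≤ k} (1 - R)^n = 1 - (1 - R)^(k+1)` modulo `X^(k+1)`.) -/
theorem RF.psum {N k : α → ℕ} {ρ : α → Pt → ℕ → ℂ} (h : RF N ρ) (hk : BT k) :
    CP (fun a x => ∑ i ∈ range (N a), ρ a x i ^ k a) := by
  have hN := h.1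
  have hz : CP (fun (_ : α) z => z 0) := CP.var (i := fun _ => 0) (by fun_prop)
  have hχ : CX (fun a x => ∏ i ∈ range (N a), (C (-ρ a x i) + C 1 * X)) :=
    CP.congr h.2 fun a z => by
      rw [eval_prod]
      exact prod_congr rfl fun i _ => by simp [sub_eq_neg_add]
  have hR : CX (fun a x => ∏ i ∈ range (N a), (1 - C (ρ a x i) * X)) :=
    CP.congr (rf_cp_rev hN hχ) fun a z => by
      have := rf_rev (range (N a)) (fun i => -ρ a (tl z) i) (fun _ => 1) (z 0)
      rw [card_range] at this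
      rw [this, eval_prod]
      exact prod_congr rfl fun i _ => by simp [sub_eq_neg_add]
  have hR' := hR.iterDeriv (k := fun _ => 1) (by fun_prop)
  have hG : CX (fun a x => (C (N a : ℂ) * ∏ i ∈ range (N a), (1 - C (ρ a x i) * X) -
      X * derivative (∏ i ∈ range (N a), (1 - C (ρ a x i) * X))) *
      ∑ n ∈ range (k a + 1), (1 - ∏ i ∈ range (N a), (1 - C (ρ a x i) * X)) ^ n) :=
    CP.congr ((((CP.natB hN).mul hR).sub (hz.mul hR')).mul
      (CP.sum (B := fun a => k a + 1) (F := fun a n z =>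
        (1 - (∏ i ∈ range (N a), (1 - C (ρ a (tl z) i) * X)).eval (z 0)) ^ n) (by fun_prop)
        ((CP.one.sub (CP.comp hR (f := fun p : α × Bin => p.1) (by fun_prop))).pow
          (by fun_prop)))) fun a z => by
      simp only [eval_mul, eval_sub, eval_C, eval_X, eval_finsetSum, eval_pow, eval_one,
        Function.iterate_one]
  refine (hG.coeff hk).congr fun a x => ?_
  have := rf_psum (range (N a)) (ρ a x) (k a)
  rwa [card_range] at this

/-- From the power sums back to the polynomial. With `E = ∏ (1 - g i X)` and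
`S = -∑_{1 ≤ k ≤ N} p_k X^k / k`: `E ≡ ∑_{n ≤ N} S^n / n!` modulo `X^(N+1)` (both satisfy
`E' ≡ S' E` modulo `X^N` and have constant term `1`), and
`∏ (t - g i) = ∑_{j ≤ N} coeff j E * t^(N - j)`. -/
theorem prod_of_psum {ι : α → Type} {s : ∀ a, Finset (ι a)} {g : ∀ a, Pt → ι a → ℂ}
    (hN : BT (fun a => (s a).card))
    (h : CP (fun p : α × Bin => fun x => ∑ i ∈ s p.1, g p.1 x i ^ p.2.val)) :
    CP (fun a z => ∏ i ∈ s a, (z 0 - g a (tl z) i)) := by
  have hz : ∀ {γ : Type} [Enc γ], CP (fun (_ : γ) z => z 0) :=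
    CP.var (i := fun _ => 0) (by fun_prop)
  have hS : CX (fun a x => ∑ k ∈ range (s a).card,
      C (-(∑ i ∈ s a, g a x i ^ (k + 1)) * ((k : ℂ) + 1)⁻¹) * X ^ (k + 1)) :=
    CP.congr (CP.sum (F := fun a k z => -(∑ i ∈ s a, g a (tl z) i ^ (k + 1)) *
        (((((k + 1 : ℕ) : ℚ))⁻¹ : ℚ) : ℂ) * z 0 ^ (k + 1)) hN
      ((((h.comp (f := fun p : α × Bin => (p.1, (⟨p.2.val + 1⟩ : Bin))) (by fun_prop)).at
        CV.id.tl).neg.mul (CP.const (CQ.ofBT (f := fun p : α × Bin => p.2.val + 1)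
          (by fun_prop)).inv)).mul (hz.pow (by fun_prop)))) fun a z => by
      simp only [eval_finsetSum, eval_mul, eval_C, eval_pow, eval_X]
      push_cast
      rfl
  have hT : CX (fun a x => ∑ n ∈ range ((s a).card + 1), C ((n.factorial : ℂ)⁻¹) *
      (∑ k ∈ range (s a).card,
        C (-(∑ i ∈ s a, g a x i ^ (k + 1)) * ((k : ℂ) + 1)⁻¹) * X ^ (k + 1)) ^ n) :=
    CP.congr (CP.sum (B := fun a => (s a).card + 1) (F := fun a n z =>
        (((∏ y ∈ range n, ((y + 1 : ℕ) : ℚ))⁻¹ : ℚ) : ℂ) * (∑ k ∈ range (s a).card,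
          C (-(∑ i ∈ s a, g a (tl z) i ^ (k + 1)) * ((k : ℂ) + 1)⁻¹) * X ^ (k + 1)).eval (z 0) ^ n)
      (by fun_prop)
      ((CP.const (CQ.prod (B := fun p : α × Bin => p.2.val) (f := fun _ y => ((y + 1 : ℕ) : ℚ))
        (by fun_prop) (CQ.ofBT (by fun_prop))).inv).mul
        ((CP.comp hS (f := fun p : α × Bin => p.1) (by fun_prop)).pow (by fun_prop))))
      fun a z => by
        rw [eval_finsetSum (range ((s a).card + 1))]
        refine sum_congr rfl fun n _ => ?_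
        rw [eval_mul, eval_C, eval_pow, ← Nat.cast_prod, prod_range_add_one_eq_factorial]
        push_cast
        rfl
  refine (rf_cp_rev hN hT).congr fun a z => ?_
  have := rf_rev (s a) (fun _ => 1) (fun i => -g a (tl z) i) (z 0)
  simp only [one_mul, ← sub_eq_add_neg, map_one, map_neg, neg_mul] at this
  rw [← this]
  refine sum_congr rfl fun j hj => ?_
  rw [rf_exp _ _ _ (Nat.lt_succ_iff.1 (mem_range.1 hj))]

/-- Conjugation permutes a constant root family (`CP.conj`, `perm_of_prod_eq`). -/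
theorem RF.conj {N : α → ℕ} {ρ : α → ℕ → ℂ} (h : RF N (fun a _ => ρ a)) (a : α) :
    ∃ π : ℕ → ℕ, Set.BijOn π (range (N a)) (range (N a)) ∧
      ∀ k < N a, ρ a (π k) = (starRingEnd ℂ) (ρ a k) := by
  refine perm_of_prod_eq fun t => ?_
  have := h.2.conj a (cs ((starRingEnd ℂ) t) 0)
  simpa [cj_cs] using this

end Crest.Agent.R316
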