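import Crest.Agent.R316.Elim

/-!
Row 316, task SAMPLE: sample points on the pieces of a real zero set.
-/

set_option autoImplicit false
set_option linter.dupNamespace false

namespace Crest.Agent.R316

open Crest.Agent.PT Crest.Agent.QC Crest.Agent.R317 Polynomial Finset

variable {α β : Type} [Enc α] [Enc β]

theorem smp_deriv {m : ℕ} (d : ℕ) (y : Fin m → ℝ) (j : Fin m) :
    HasDerivAt (fun t => ∑ i, Function.update y j t i ^ (d + 1) / ((d : ℝ) + 1)) (y j ^ d) (y j) := by
  have e : (fun t => ∑ i, Function.update y j t i ^ (d + 1) / ((d : ℝ) + 1)) =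
      fun t : ℝ => t ^ (d + 1) / ((d : ℝ) + 1) +
        ∑ i ∈ univ \ {j}, y i ^ (d + 1) / ((d : ℝ) + 1) := by
    funext t
    have := Finset.sum_update_of_mem (Finset.mem_univ j)
      (fun i => y i ^ (d + 1) / ((d : ℝ) + 1)) (t ^ (d + 1) / ((d : ℝ) + 1))
    rw [← this]
    refine Finset.sum_congr rfl fun i _ => ?_
    by_cases h : i = j
    · subst h; simp
    · simp [Function.update_of_ne h]
  rw [e]
  have h1 := ((hasDerivAt_pow (d + 1) (y j)).div_const ((d : ℝ) + 1)).add_const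
    (∑ i ∈ univ \ {j}, y i ^ (d + 1) / ((d : ℝ) + 1))
  refine h1.congr_deriv ?_
  have : (d : ℝ) + 1 ≠ 0 := by positivity
  simp only [Nat.add_sub_cancel]
  push_cast
  field_simp

theorem smp_compact {m d : ℕ} (hd : Odd d) (c : ℝ) :
    IsCompact {y : Fin m → ℝ | ∑ i, y i ^ (d + 1) / ((d : ℝ) + 1) ≤ c} := by
  have hev : Even (d + 1) := hd.add_one
  refine Metric.isCompact_of_isClosed_isBounded (isClosed_le (by fun_prop) continuous_const) ?_
  refine (Metric.isBounded_closedBall (x := 0) (r := max 1 (((d : ℝ) + 1) * c))).subset ?_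
  intro y hy
  rw [mem_closedBall_zero_iff, pi_norm_le_iff_of_nonneg (by positivity)]
  intro j
  have h1 : y j ^ (d + 1) / ((d : ℝ) + 1) ≤ c :=
    (Finset.single_le_sum (f := fun i => y i ^ (d + 1) / ((d : ℝ) + 1))
      (fun i _ => div_nonneg (hev.pow_nonneg _) (by positivity)) (Finset.mem_univ j)).trans hy
  rw [div_le_iff₀ (by positivity), ← hev.pow_abs] at h1
  rw [Real.norm_eq_abs]
  rcases le_total |y j| 1 with h | h
  · exact le_max_of_le_left h
  · refine le_max_of_le_right ?_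
    have := le_self_pow₀ h (show d + 1 ≠ 0 by omega)
    linarith

/-- The analytic core. Let `Z` be the zero set of `f` in `Fin m → ℝ`, `N y = ∑ y j ^ (d+1) / (d+1)`
(coercive, `d + 1` even), `y₁ ∈ Z` with `ψ`, `c = N y₁`. The sets `Z ∩ ψ` and `Z \ ψ` are closed.
`C = Z ∩ ψ ∩ {N ≤ c + 1}` is compact, so at distance `≥ 2 ε` from `Z \ ψ`; minimise `n f + N` on the
compact `K = {N ≤ c + 1} ∩ {infDist (·, Z \ ψ) ≥ ε}` (no second condition if `Z \ ψ` is empty). The
minimisers `y n` have `N ≤ c`, `f ≤ c / n`; a subsequence converges to a point of `Z ∩ K ⊆ ψ`, and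
is eventually in the interior of `K`, so that the partial derivatives vanish. -/
theorem sample_core {m d : ℕ} (hd : Odd d) (f : (Fin m → ℝ) → ℝ) (f' : Fin m → (Fin m → ℝ) → ℝ)
    (hf : Continuous f) (h0 : ∀ y, 0 ≤ f y)
    (hf' : ∀ j y, HasDerivAt (fun t => f (Function.update y j t)) (f' j y) (y j))
    (ψ : (Fin m → ℝ) → Prop)
    (hψ : ∀ (y : ℕ → Fin m → ℝ) (y0 : Fin m → ℝ), (∀ n, f (y n) = 0) → f y0 = 0 →
      Filter.Tendsto y Filter.atTop (nhds y0) → ∀ᶠ n in Filter.atTop, (ψ (y n) ↔ ψ y0))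
    (hex : ∃ y, f y = 0 ∧ ψ y) :
    ∃ (y0 : Fin m → ℝ) (y : ℕ → Fin m → ℝ) (lam : ℕ → ℝ), f y0 = 0 ∧ ψ y0 ∧
      Filter.Tendsto y Filter.atTop (nhds y0) ∧ Filter.Tendsto lam Filter.atTop Filter.atTop ∧
      ∀ n j, y n j ^ d + lam n * f' j (y n) = 0 := by
  obtain ⟨y₁, hy₁, hψ₁⟩ := hex
  have hev : Even (d + 1) := hd.add_one
  set N : (Fin m → ℝ) → ℝ := fun y => ∑ i, y i ^ (d + 1) / ((d : ℝ) + 1) with hN
  have hNc : Continuous N := by fun_prop
  have hN0 : ∀ y, 0 ≤ N y := fun y =>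
    Finset.sum_nonneg fun i _ => div_nonneg (hev.pow_nonneg _) (by positivity)
  have hz : ∀ (y : ℕ → Fin m → ℝ) y0, (∀ n, f (y n) = 0) →
      Filter.Tendsto y Filter.atTop (nhds y0) → f y0 = 0 := by
    intro y y0 h1 h2
    have := (hf.tendsto y0).comp h2
    rw [show f ∘ y = fun _ => 0 from funext h1] at this
    exact tendsto_nhds_unique this tendsto_const_nhds
  have hA : IsClosed {y | f y = 0 ∧ ψ y} := by
    refine IsSeqClosed.isClosed fun y y0 h1 h2 => ?_
    have h3 := hz y y0 (fun n => (h1 n).1) h2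
    obtain ⟨n, hn⟩ := (hψ y y0 (fun n => (h1 n).1) h3 h2).exists
    exact ⟨h3, hn.mp (h1 n).2⟩
  have hB : IsClosed {y | f y = 0 ∧ ¬ ψ y} := by
    refine IsSeqClosed.isClosed fun y y0 h1 h2 => ?_
    have h3 := hz y y0 (fun n => (h1 n).1) h2
    obtain ⟨n, hn⟩ := (hψ y y0 (fun n => (h1 n).1) h3 h2).exists
    exact ⟨h3, fun h => (h1 n).2 (hn.mpr h)⟩
  obtain ⟨K, hK, hK1, hK2⟩ := exists_compact_between
    ((smp_compact (m := m) hd (N y₁)).inter_left hA) hB.isOpen_compl
    (fun y hy h => h.2 hy.1.2)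
  have hy₁K : y₁ ∈ K := interior_subset (hK1 ⟨⟨hy₁, hψ₁⟩, le_refl (N y₁)⟩)
  have hmin : ∀ n : ℕ, ∃ y ∈ K, IsMinOn (fun y => N y + (n : ℝ) * f y) K y := fun n =>
    hK.exists_isMinOn ⟨y₁, hy₁K⟩ (by fun_prop)
  choose y hyK hy using hmin
  have hb : ∀ n : ℕ, N (y n) + (n : ℝ) * f (y n) ≤ N y₁ := fun n => by
    have := hy n hy₁K
    simpa [hy₁] using this
  obtain ⟨y0, hy0, φ, hφ, hlim⟩ := hK.tendsto_subseq hyK
  have hφ' : Filter.Tendsto (fun n => (φ n : ℝ)) Filter.atTop Filter.atTop :=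
    tendsto_natCast_atTop_atTop.comp hφ.tendsto_atTop
  have hf0 : f y0 = 0 := by
    refine le_antisymm ?_ (h0 _)
    refine le_of_tendsto_of_tendsto ((hf.tendsto y0).comp hlim)
      (hφ'.const_div_atTop (N y₁)) ?_
    filter_upwards [hφ'.eventually_gt_atTop 0] with n hn
    simp only [Function.comp]
    rw [le_div_iff₀ hn]
    linarith [hb (φ n), hN0 (y (φ n))]
  have hψ0 : ψ y0 := by
    by_contra h
    exact hK2 hy0 ⟨hf0, h⟩
  have hN1 : N y0 ≤ N y₁ := by
    refine le_of_tendsto' ((hNc.tendsto y0).comp hlim) fun n => ?_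
    have := mul_nonneg (Nat.cast_nonneg (α := ℝ) (φ n)) (h0 (y (φ n)))
    simp only [Function.comp]
    linarith [hb (φ n)]
  have hint : y0 ∈ interior K := hK1 ⟨⟨hf0, hψ0⟩, hN1⟩
  obtain ⟨n₀, hn₀⟩ := Filter.eventually_atTop.mp
    (hlim.eventually (isOpen_interior.mem_nhds hint))
  refine ⟨y0, fun n => y (φ (n + n₀)), fun n => (φ (n + n₀) : ℝ), hf0, hψ0,
    (Filter.tendsto_add_atTop_iff_nat n₀).mpr hlim,
    (Filter.tendsto_add_atTop_iff_nat (f := fun n => (φ n : ℝ)) n₀).mpr hφ', fun n j => ?_⟩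
  set w := y (φ (n + n₀)) with hw
  have hloc : IsLocalMin (fun y => N y + (φ (n + n₀) : ℝ) * f y) w :=
    (hy _).isLocalMin (mem_interior_iff_mem_nhds.mp (hn₀ (n + n₀) (by omega)))
  have hloc2 : IsLocalMin (fun t => N (Function.update w j t) +
      (φ (n + n₀) : ℝ) * f (Function.update w j t)) (w j) := by
    have h1 : IsLocalMin (fun y => N y + (φ (n + n₀) : ℝ) * f y) (Function.update w j (w j)) := by
      rwa [Function.update_eq_self]
    exact h1.comp_continuous (g := fun t => Function.update w j t)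
      (continuous_const.update j continuous_id).continuousAt
  exact hloc2.hasDerivAt_eq_zero ((smp_deriv d w j).add ((hf' j w).const_mul _))

/-- The top coefficient in the parameter vanishes at the limit (divide by `lam n ^ e`). -/
theorem top_coeff {E : ℕ} (V : ℕ → ℂ[X]) (hV : ∃ e < E, V e ≠ 0) (lam : ℕ → ℝ) (t : ℕ → ℝ)
    (t0 : ℝ) (hl : Filter.Tendsto lam Filter.atTop Filter.atTop)
    (ht : Filter.Tendsto t Filter.atTop (nhds t0))
    (h : ∀ n, ∑ e ∈ range E, (lam n : ℂ) ^ e * (V e).eval (t n : ℂ) = 0) : Rt V E t0 := by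
  classical
  have hne : ((range E).filter fun e => V e ≠ 0).Nonempty := by
    obtain ⟨e, he, h⟩ := hV
    exact ⟨e, by simp [he, h]⟩
  set e₀ := ((range E).filter fun e => V e ≠ 0).max' hne with he₀
  have hmem := Finset.max'_mem _ hne
  rw [← he₀, Finset.mem_filter, Finset.mem_range] at hmem
  refine ⟨e₀, hmem.1, hmem.2, ?_⟩
  have hev : ∀ e, Filter.Tendsto (fun n => (V e).eval (t n : ℂ)) Filter.atTop
      (nhds ((V e).eval (t0 : ℂ))) := fun e =>
    ((V e).continuous.tendsto _).comp ((Complex.continuous_ofReal.tendsto _).comp ht)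
  have hterm : ∀ e ∈ range E, Filter.Tendsto
      (fun n => ((lam n ^ e / lam n ^ e₀ : ℝ) : ℂ) * (V e).eval (t n : ℂ)) Filter.atTop
      (nhds (if e = e₀ then (V e).eval (t0 : ℂ) else 0)) := by
    intro e he
    rcases lt_trichotomy e e₀ with h1 | h1 | h1
    · rw [if_neg h1.ne]
      have h2 := (Complex.continuous_ofReal.tendsto _).comp
        ((tendsto_pow_div_pow_atTop_zero (𝕜 := ℝ) h1).comp hl)
      simpa using h2.mul (hev e)
    · rw [if_pos h1, h1]
      refine (hev e₀).congr' ?_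
      filter_upwards [hl.eventually_gt_atTop 0] with n hn
      rw [div_self (pow_pos hn _).ne']
      simp
    · rw [if_neg h1.ne']
      have : V e = 0 := by
        by_contra hne'
        exact absurd (Finset.le_max' ((range E).filter fun e => V e ≠ 0) e
          (Finset.mem_filter.mpr ⟨he, hne'⟩)) (not_le.mpr h1)
      simp [this]
  have hsum := tendsto_finsetSum _ hterm
  rw [Finset.sum_ite_eq' (range E) e₀, if_pos (Finset.mem_range.mpr hmem.1)] at hsum
  refine tendsto_nhds_unique hsum (tendsto_const_nhds.congr fun n => ?_)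
  have := congrArg (fun z => z / (lam n : ℂ) ^ e₀) (h n)
  simp only [Finset.sum_div, zero_div] at this
  rw [← this]
  refine Finset.sum_congr rfl fun e _ => ?_
  push_cast
  ring

/-- Take `χ` from `elim`. The function `(Y, lam, x) ↦ (χ a i (cs lam x)).eval Y` is `CP`; slice it in
`lam` (swap the first two coordinates, `CX.slice`, `CX.deg`, `CX.coeff`), and slice each
coefficient in `Y`: `(χ a i (cs lam x)).eval Y = ∑_{e < E} lam^e * (U a i e x).eval Y` with `E`
uniform in `i ≤ m a` (`BT.unifU`); some `U a i e x ≠ 0` since `χ` is monic. Put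
`V a κ = U a (un (m a) (κ / E)) (κ % E)`, `K = m * E`. Apply `sample_core` to
`f y = (F a (rc (app m (extension of y) x))).re`, and `top_coeff`. -/
theorem sample {F : α → Pt → ℂ} {m : α → ℕ} (hF : CP F) (hm : PT m) :
    ∃ (V : α → ℕ → Pt → ℂ[X]) (K : α → ℕ), BT K ∧ CX (fun p : α × Bin => V p.1 p.2.val) ∧
      ∀ a (x : ℕ → ℝ) (ψ : (ℕ → ℝ) → Prop),
        (∀ y : ℕ → ℝ, 0 ≤ (F a (rc (app (m a) y x))).re) →
        (∀ (y : ℕ → ℕ → ℝ) (y0 : ℕ → ℝ), (∀ n, F a (rc (app (m a) (y n) x)) = 0) →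
          F a (rc (app (m a) y0 x)) = 0 →
          (∀ i < m a, Filter.Tendsto (fun n => y n i) Filter.atTop (nhds (y0 i))) →
          ∀ᶠ n in Filter.atTop, (ψ (y n) ↔ ψ y0)) →
        (∃ y, F a (rc (app (m a) y x)) = 0 ∧ ψ y) →
        ∃ y, F a (rc (app (m a) y x)) = 0 ∧ ψ y ∧
          ∀ i < m a, Rt (fun κ => V a κ (rc x)) (K a) (y i) := by
  obtain ⟨d, χ, hd, hχ, hmon, hroot⟩ := elim hF hm
  have hΦ : CP (fun (p : α × ℕ) z => (χ p.1 p.2 (cs (z 0) (tl (tl z)))).eval (z 1)) :=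
    hχ.eval (CP.var (i := fun _ => 1) (by fun_prop))
      (CV.cs (CP.var (i := fun _ => 0) (by fun_prop)) (CV.tl (CV.tl CV.id)))
  obtain ⟨G, hG, hGe⟩ := CX.slice hΦ
  obtain ⟨δ, hδ, hdeg⟩ := hG.deg
  obtain ⟨E, hE, hEδ⟩ := BT.unifU (f := fun a i => δ (a, i)) hm hδ
  have hc : CP (fun (q : (α × ℕ) × Bin) x => (G q.1 x).coeff q.2.val) :=
    (hG.comp (f := fun q : (α × ℕ) × Bin => q.1) (by fun_prop)).coeff (by fun_prop)
  obtain ⟨U, hU, hUe⟩ := CX.slice hc
  refine ⟨fun a κ => U ((a, un (m a) (κ / E a)), ⟨κ % E a⟩), fun a => m a * E a, by fun_prop,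
    hU.comp (f := fun p : α × Bin =>
      ((p.1, un (m p.1) (p.2.val / E p.1)), (⟨p.2.val % E p.1⟩ : Bin))) (by fun_prop), ?_⟩
  intro a x ψ hpos hψ hex
  have hexp : ∀ i < m a, ∀ (lam Y : ℂ) (z : Pt), (χ a i (cs lam z)).eval Y =
      ∑ e ∈ range (E a), lam ^ e * (U ((a, i), ⟨e⟩) z).eval Y := by
    intro i hi lam Y z
    have h1 := hGe (a, i) (cs Y z) lam
    rw [eval_eq_sum_range' ((hdeg (a, i) _).trans_le (hEδ a i hi.le))] at h1
    refine h1.symm.trans (Finset.sum_congr rfl fun e _ => ?_)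
    rw [hUe, mul_comm]
  let ex : (Fin (m a) → ℝ) → ℕ → ℝ := fun y i => if h : i < m a then y ⟨i, h⟩ else 0
  have hex' : ∀ y (i : ℕ) (h : i < m a), ex y i = y ⟨i, h⟩ := fun y i h => dif_pos h
  have hre : ∀ w : ℕ → ℝ, (F a (rc w)).re = 0 ↔ F a (rc w) = 0 := fun w =>
    ⟨fun h => Complex.ext h (hF.real a w), fun h => by rw [h]; rfl⟩
  obtain ⟨L, -, hL⟩ := hF.sepP
  obtain ⟨y0, y, lam, h1, h2, h3, h4, h5⟩ := sample_core (m := m a) (hd a)
    (fun y => (F a (rc (app (m a) (ex y) x))).re)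
    (fun j y => (D j (F a) (rc (app (m a) (ex y) x))).re)
    (by
      refine Complex.continuous_re.comp ((hF.continuous a).comp (continuous_pi fun i => ?_))
      by_cases h : i < m a
      · simp only [rc, app_lt _ _ h, hex' _ _ h]
        fun_prop
      · simp only [rc, app_ge _ _ (not_lt.mp h)]
        fun_prop)
    (fun y => hpos _)
    (by
      intro j y
      have h1 := (hL a).hasDerivAt j (rc (app (m a) (ex y) x))
      have h2 : rc (app (m a) (ex y) x) j = (y j : ℂ) := by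
        simp only [rc, app_lt _ _ j.2, hex' _ _ j.2]
      rw [h2] at h1
      have h3 : ∀ t : ℝ, rc (app (m a) (ex (Function.update y j t)) x) =
          Function.update (rc (app (m a) (ex y) x)) j (t : ℂ) := by
        intro t
        funext i
        by_cases hij : i = j
        · subst hij
          simp only [rc, app_lt _ _ j.2, hex' _ _ j.2, Function.update_self, Fin.eta]
        · rw [Function.update_of_ne hij]
          by_cases h : i < m a
          · simp only [rc, app_lt _ _ h, hex' _ _ h]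
            rw [Function.update_of_ne (fun h' => hij (congrArg Fin.val h'))]
          · simp only [rc, app_ge _ _ (not_lt.mp h)]
      simp only [h3]
      exact h1.real_of_complex)
    (fun y => ψ (ex y))
    (by
      intro y y0 h1 h2 h3
      refine hψ (fun n => ex (y n)) (ex y0) (fun n => (hre _).mp (h1 n)) ((hre _).mp h2)
        fun i hi => ?_
      simp only [hex' _ _ hi]
      exact tendsto_pi_nhds.mp h3 _)
    (by
      obtain ⟨y, hy1, hy2⟩ := hex
      have e : app (m a) (ex fun i => y i) x = app (m a) y x :=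
        app_congr x fun i hi => hex' (fun i => y i) _ hi
      refine ⟨fun i => y i, by simp only [e]; exact (hre _).mpr hy1, ?_⟩
      obtain ⟨n, hn⟩ := (hψ (fun _ => ex fun i => y i) y (fun _ => by rw [e]; exact hy1) hy1
        (fun i hi => by simp only [hex' _ _ hi]; exact tendsto_const_nhds)).exists
      exact hn.mpr hy2)
  refine ⟨ex y0, (hre _).mp h1, h2, fun i hi => ?_⟩
  have hz : ∀ n, (χ a i (cs (lam n : ℂ) (rc x))).eval (y n ⟨i, hi⟩ : ℂ) = 0 := by
    intro n
    have := hroot a (lam n) (rc (ex (y n))) (rc x) (fun j hj => by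
      have b1 := h5 n ⟨j, hj⟩
      have b2 := (hF.D (j := fun _ => j) (by fun_prop)).real a (app (m a) (ex (y n)) x)
      rw [← rc_app]
      have b3 : D j (F a) (rc (app (m a) (ex (y n)) x)) =
          ((D j (F a) (rc (app (m a) (ex (y n)) x))).re : ℂ) :=
        Complex.ext (by simp) (by simpa using b2)
      rw [b3, rc_apply, hex' _ _ hj]
      exact_mod_cast b1) i hi
    rwa [rc_apply, hex' _ _ hi] at this
  obtain ⟨e, he, he1, he2⟩ := top_coeff (E := E a) (fun e => U ((a, i), ⟨e⟩) (rc x))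
    (by
      by_contra hc'
      push Not at hc'
      refine (hmon a i (cs 0 (rc x))).ne_zero (Polynomial.funext fun Y => ?_)
      rw [hexp i hi, eval_zero]
      exact Finset.sum_eq_zero fun e he => by rw [hc' e (Finset.mem_range.mp he)]; simp)
    lam (fun n => y n ⟨i, hi⟩) (y0 ⟨i, hi⟩) h4 (tendsto_pi_nhds.mp h3 _)
    (fun n => by rw [← hexp i hi]; exact hz n)
  have k1 : (E a * i + e) / E a = i := by
    rw [Nat.mul_add_div (by omega), Nat.div_eq_of_lt he, add_zero]
  have k2 : (E a * i + e) % E a = e := by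
    rw [Nat.mul_add_mod, Nat.mod_eq_of_lt he]
  refine ⟨E a * i + e, by nlinarith, ?_⟩
  simp only [k1, k2, un, min_eq_left hi.le, hex' _ _ hi]
  exact ⟨he1, he2⟩

end Crest.Agent.R316
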