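import Crest.Agent.R316.Circ

/-!
Row 316, task SEM: the meaning of a sentence through the atoms read off its code.

Plan. Let `w = S.encode`, `l = S.toNats`, `n = |w|`. If `l.drop (k+1) = circuitToNats c ++ r` then
`gvs w k (app n y x) t = circuitValues (x ∘ ix w) (y ∘ ix w) (c.take t)` over `ℝ` (`gp_spec`,
`tk_flat`; a token value `A` occurring in `l` has `ix w A < n` and `tk w (ix w A) = A` by
`lst_spec`), and `atom_map` with `Complex.ofRealHom` passes to `ℂ`. By induction on `φ` with
`l.drop k = φ.toNats ++ r`: `HA (sg (atom w) (app n y x)) φ k ↔ φ.Holds (x ∘ ix w) (y ∘ ix w)`.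
`Holds` depends only on the values at the variables that occur, these are `< r` resp. `< s` and
occur in `l`. Change of variables: from `x : Fin r → ℝ` take `x' i = extend x (tk w i)`; from
`y' : ℕ → ℝ` take `y A = y' (ix w A)`; and conversely.
-/

set_option autoImplicit false
set_option linter.dupNamespace false

namespace Crest.Agent.R316

open Crest.Agent.PT Crest.Agent.QC Crest.Agent.R317 Finset Crest.RealEA

variable {α β : Type} [Enc α] [Enc β]

theorem sm_HA_congr {σ σ' : ℕ → SignType} (φ : Form) : ∀ k : ℕ,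
    (∀ j < k + φ.toNats.length, σ j = σ' j) → (HA σ φ k ↔ HA σ' φ k) := by
  induction φ with
  | eqZero c =>
    intro k h
    show σ k = 0 ↔ σ' k = 0
    rw [h k (by simp [Form.toNats])]
  | pos c =>
    intro k h
    show σ k = 1 ↔ σ' k = 1
    rw [h k (by simp [Form.toNats])]
  | and φ ψ ih ih' =>
    intro k h
    simp only [Form.toNats, List.length_cons, List.length_append] at h
    exact and_congr (ih _ (fun j hj => h j (by omega))) (ih' _ (fun j hj => h j (by omega)))
  | or φ ψ ih ih' =>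
    intro k h
    simp only [Form.toNats, List.length_cons, List.length_append] at h
    exact or_congr (ih _ (fun j hj => h j (by omega))) (ih' _ (fun j hj => h j (by omega)))
  | not φ ih =>
    intro k h
    simp only [Form.toNats, List.length_cons] at h
    exact not_congr (ih _ (fun j hj => h j (by omega)))

theorem phi_loc (w : Raw) (σ σ' : ℕ → SignType) (h : ∀ k < w.val.length, σ k = σ' k)
    (hw : Phi w σ) : Phi w σ' := by
  obtain ⟨S, h1, h2, h3⟩ := hw
  refine ⟨S, h1, h2, (sm_HA_congr S.body 2 (fun j hj => h j ?_)).1 h3⟩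
  have := length_le_flat S.toNats
  rw [← h2, Sentence.encode]
  simp only [Sentence.toNats, List.length_cons] at this ⊢
  omega

theorem sm_drop_cons {l m : List ℕ} {i a : ℕ} (h : l.drop i = a :: m) :
    l.getD i 0 = a ∧ l.drop (i + 1) = m ∧ i < l.length := by
  have hi : i < l.length := by
    by_contra h1
    rw [List.drop_eq_nil_of_le (by omega)] at h
    cases h
  rw [List.drop_eq_getElem_cons hi] at h
  injection h with h1 h2
  exact ⟨by rw [List.getD_eq_getElem _ _ hi, h1], h2, hi⟩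

theorem sm_gval {l m : List ℕ} {g : ℕ} {a : AGate} (h : l.drop g = a.toNats ++ m) (z : ℕ → ℝ)
    (prev : List ℝ) :
    gval ⟨l.flatMap natBits⟩ z g prev =
      a.value (fun A => z ((l.flatMap natBits).length + ix ⟨l.flatMap natBits⟩ A))
        (fun A => z (ix ⟨l.flatMap natBits⟩ A)) prev := by
  unfold gval
  simp only [tk_flat]
  cases a with
  | const x =>
    obtain ⟨h0, h, -⟩ := sm_drop_cons h
    obtain ⟨h1, h, -⟩ := sm_drop_cons h
    obtain ⟨h2, h, -⟩ := sm_drop_cons h
    rw [h0, h1, h2, if_pos rfl, AGate.value, Nat.cast_natAbs]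
    by_cases h3 : x < 0
    · rw [if_pos h3, if_neg one_ne_zero, abs_of_neg h3]; simp
    · rw [if_neg h3, if_pos rfl, abs_of_nonneg (not_lt.1 h3)]
  | varX x =>
    obtain ⟨h0, h, -⟩ := sm_drop_cons h
    obtain ⟨h1, h, -⟩ := sm_drop_cons h
    rw [h0, h1]; rfl
  | varY x =>
    obtain ⟨h0, h, -⟩ := sm_drop_cons h
    obtain ⟨h1, h, -⟩ := sm_drop_cons h
    rw [h0, h1]; rfl
  | add x y =>
    obtain ⟨h0, h, -⟩ := sm_drop_cons h
    obtain ⟨h1, h, -⟩ := sm_drop_cons h
    obtain ⟨h2, h, -⟩ := sm_drop_cons h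
    rw [h0, h1, h2]; rfl
  | sub x y =>
    obtain ⟨h0, h, -⟩ := sm_drop_cons h
    obtain ⟨h1, h, -⟩ := sm_drop_cons h
    obtain ⟨h2, h, -⟩ := sm_drop_cons h
    rw [h0, h1, h2]; rfl
  | mul x y =>
    obtain ⟨h0, h, -⟩ := sm_drop_cons h
    obtain ⟨h1, h, -⟩ := sm_drop_cons h
    obtain ⟨h2, h, -⟩ := sm_drop_cons h
    rw [h0, h1, h2]; rfl

theorem sm_gvs {l r : List ℕ} {k : ℕ} {c : List AGate}
    (h : l.drop (k + 1) = circuitToNats c ++ r) (z : ℕ → ℝ) {t : ℕ} (ht : t ≤ c.length) :
    gvs ⟨l.flatMap natBits⟩ k z t =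
      circuitValues (fun A => z ((l.flatMap natBits).length + ix ⟨l.flatMap natBits⟩ A))
        (fun A => z (ix ⟨l.flatMap natBits⟩ A)) (c.take t) := by
  induction t with
  | zero => rfl
  | succ t ih =>
    have ht' : t < c.length := ht
    have h1 := (gp_spec h ht'.le).1
    rw [List.drop_eq_getElem_cons ht', List.flatMap_cons, List.append_assoc] at h1
    show gvs _ k z t ++ [gval _ z _ (gvs _ k z t)] = _
    rw [sm_gval h1, ih ht'.le, List.take_succ_eq_append_getElem ht']
    simp only [circuitValues, List.foldl_append, List.foldl_cons, List.foldl_nil]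

theorem sm_len_le (c : List AGate) : c.length ≤ (c.flatMap AGate.toNats).length := by
  induction c with
  | nil => simp
  | cons a c ih =>
    have : 1 ≤ a.toNats.length := by cases a <;> simp [AGate.toNats]
    simp only [List.flatMap_cons, List.length_append, List.length_cons]; omega

theorem sm_atom {l r : List ℕ} {k : ℕ} {c : List AGate}
    (h : l.drop (k + 1) = circuitToNats c ++ r) (z : ℕ → ℝ) :
    sg (fun k z => atom ⟨l.flatMap natBits⟩ k z) z k = SignType.sign
      (circuitValue (fun A => z ((l.flatMap natBits).length + ix ⟨l.flatMap natBits⟩ A))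
        (fun A => z (ix ⟨l.flatMap natBits⟩ A)) c) := by
  have h1 : atom ⟨l.flatMap natBits⟩ k (rc z) = ((atom ⟨l.flatMap natBits⟩ k z : ℝ) : ℂ) :=
    (atom_map Complex.ofRealHom _ k z).symm
  have h2 := (sm_drop_cons (a := c.length) h).1
  have h3 := congrArg List.length h
  have h4 := sm_len_le c
  have h5 := length_le_flat l
  simp only [List.length_drop, circuitToNats, List.length_append, List.length_cons] at h3
  show SignType.sign (atom ⟨l.flatMap natBits⟩ k (rc z)).re = _
  rw [h1, Complex.ofReal_re, atom, tk_flat, h2, un, min_eq_left (by simp only; omega),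
    sm_gvs h z le_rfl, List.take_length]
  rfl

theorem sm_HA {l : List ℕ} (z : ℕ → ℝ) (φ : Form) : ∀ (k : ℕ) (r : List ℕ),
    l.drop k = φ.toNats ++ r → (HA (sg (fun k z => atom ⟨l.flatMap natBits⟩ k z) z) φ k ↔
      φ.Holds (fun A => z ((l.flatMap natBits).length + ix ⟨l.flatMap natBits⟩ A))
        (fun A => z (ix ⟨l.flatMap natBits⟩ A))) := by
  induction φ with
  | eqZero c =>
    intro k r h
    show sg _ z k = 0 ↔ _
    rw [sm_atom (sm_drop_cons (a := 6) h).2.1, sign_eq_zero_iff]; rfl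
  | pos c =>
    intro k r h
    show sg _ z k = 1 ↔ _
    rw [sm_atom (sm_drop_cons (a := 7) h).2.1, sign_eq_one_iff]; rfl
  | and φ ψ ih ih' =>
    intro k r h
    have h1 : l.drop (k + 1) = φ.toNats ++ (ψ.toNats ++ r) := by
      rw [(sm_drop_cons (a := 8) h).2.1, ← List.append_assoc]; rfl
    exact and_congr (ih _ _ h1) (ih' _ r (by rw [← List.drop_drop, h1, List.drop_left]))
  | or φ ψ ih ih' =>
    intro k r h
    have h1 : l.drop (k + 1) = φ.toNats ++ (ψ.toNats ++ r) := by
      rw [(sm_drop_cons (a := 9) h).2.1, ← List.append_assoc]; rfl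
    exact or_congr (ih _ _ h1) (ih' _ r (by rw [← List.drop_drop, h1, List.drop_left]))
  | not φ ih =>
    intro k r h
    exact not_congr (ih _ r (sm_drop_cons (a := 10) h).2.1)

theorem sm_circ_congr {r s : ℕ} {x y x' y' : ℕ → ℝ} {c : List AGate} (hc : CircuitWF r s c)
    (h : ∀ A ∈ circuitToNats c, (A < r → x A = x' A) ∧ (A < s → y A = y' A)) :
    circuitValue x y c = circuitValue x' y' c := by
  unfold circuitValue circuitValues
  congr 1
  refine List.foldl_ext _ _ _ (fun prev g hg => ?_)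
  obtain ⟨t, rfl⟩ := List.mem_iff_get.1 hg
  have h1 := hc.2 t
  have h2 : ∀ A ∈ (c.get t).toNats, (A < r → x A = x' A) ∧ (A < s → y A = y' A) :=
    fun A hA => h A (List.mem_cons_of_mem _ (List.mem_flatMap.2 ⟨_, hg, hA⟩))
  generalize c.get t = a at h1 h2
  cases a with
  | varX i => simp only [AGate.value]; rw [(h2 i (by simp [AGate.toNats])).1 h1]
  | varY i => simp only [AGate.value]; rw [(h2 i (by simp [AGate.toNats])).2 h1]
  | _ => rfl

theorem sm_holds_congr {r s : ℕ} {x y x' y' : ℕ → ℝ} {φ : Form} (hφ : φ.WF r s)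
    (h : ∀ A ∈ φ.toNats, (A < r → x A = x' A) ∧ (A < s → y A = y' A)) :
    φ.Holds x y ↔ φ.Holds x' y' := by
  induction φ with
  | eqZero c =>
    show circuitValue x y c = 0 ↔ circuitValue x' y' c = 0
    rw [sm_circ_congr hφ (fun A hA => h A (List.mem_cons_of_mem _ hA))]
  | pos c =>
    show 0 < circuitValue x y c ↔ 0 < circuitValue x' y' c
    rw [sm_circ_congr hφ (fun A hA => h A (List.mem_cons_of_mem _ hA))]
  | and φ ψ ih ih' =>
    exact and_congr (ih hφ.1 (fun A hA => h A (List.mem_cons_of_mem _ (List.mem_append_left _ hA))))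
      (ih' hφ.2 (fun A hA => h A (List.mem_cons_of_mem _ (List.mem_append_right _ hA))))
  | or φ ψ ih ih' =>
    exact or_congr (ih hφ.1 (fun A hA => h A (List.mem_cons_of_mem _ (List.mem_append_left _ hA))))
      (ih' hφ.2 (fun A hA => h A (List.mem_cons_of_mem _ (List.mem_append_right _ hA))))
  | not φ ih => exact not_congr (ih hφ (fun A hA => h A (List.mem_cons_of_mem _ hA)))

theorem sm_ix {l : List ℕ} {A : ℕ} (h : A ∈ l) :
    ix ⟨l.flatMap natBits⟩ A < (l.flatMap natBits).length ∧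
      tk ⟨l.flatMap natBits⟩ (ix ⟨l.flatMap natBits⟩ A) = A := by
  obtain ⟨i, hi, rfl⟩ := List.mem_iff_getElem.1 h
  have := lst_spec (B := (l.flatMap natBits).length)
    (p := fun j => tk ⟨l.flatMap natBits⟩ j = l[i])
    ⟨i, hi.trans_le (length_le_flat l), by rw [tk_flat, List.getD_eq_getElem _ _ hi]⟩
  exact ⟨this.1, this.2.1⟩

theorem sm_ix' {S : Sentence} {A : ℕ} (h : A ∈ S.body.toNats) :
    ix ⟨S.encode⟩ A < S.encode.length ∧ tk ⟨S.encode⟩ (ix ⟨S.encode⟩ A) = A :=
  sm_ix (l := S.toNats) (List.mem_cons_of_mem _ (List.mem_cons_of_mem _ h))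

theorem sm_HA' (S : Sentence) (z : ℕ → ℝ) :
    HA (sg (fun k z => atom ⟨S.encode⟩ k z) z) S.body 2 ↔
      S.body.Holds (fun A => z (S.encode.length + ix ⟨S.encode⟩ A))
        (fun A => z (ix ⟨S.encode⟩ A)) :=
  sm_HA (l := S.toNats) z S.body 2 [] (by simp [Sentence.toNats])

theorem sm_extend {n : ℕ} (f : ℕ → ℝ) {A : ℕ} (h : A < n) :
    extend (fun i : Fin n => f i) A = f A := by
  simp [extend, h]

theorem sem (w : Raw) : w.val ∈ EATR ↔ ∃ x : ℕ → ℝ, ∀ y : ℕ → ℝ,
    Phi w (sg (fun k z => atom w k z) (app w.val.length y x)) := by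
  obtain ⟨w⟩ := w
  constructor
  · rintro ⟨S, h1, ⟨x, hx⟩, rfl⟩
    refine ⟨fun i => extend x (tk ⟨S.encode⟩ i), fun y => ⟨S, h1, rfl, ?_⟩⟩
    rw [sm_HA']
    refine (sm_holds_congr h1 (fun A hA => ⟨fun _ => ?_, fun h2 => ?_⟩)).1
      (hx (fun A => app S.encode.length y (fun i => extend x (tk ⟨S.encode⟩ i)) (ix ⟨S.encode⟩ A)))
    · rw [app_add, (sm_ix' hA).2]
    · exact sm_extend (fun A => app S.encode.length y (fun i => extend x (tk ⟨S.encode⟩ i))
        (ix ⟨S.encode⟩ A)) h2
  · rintro ⟨x, hx⟩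
    obtain ⟨S, h1, h2, -⟩ := hx 0
    simp only at h2
    subst h2
    refine ⟨S, h1, ⟨fun A => x (ix ⟨S.encode⟩ A), fun y => ?_⟩, rfl⟩
    obtain ⟨S', -, h3, h4⟩ := hx (fun i => extend y (tk ⟨S.encode⟩ i))
    obtain rfl : S' = S := encode_injective h3
    rw [sm_HA'] at h4
    refine (sm_holds_congr h1 (fun A hA => ⟨fun h5 => ?_, fun _ => ?_⟩)).1 h4
    · rw [app_add]
      exact (sm_extend (fun A => x (ix ⟨S'.encode⟩ A)) h5).symm
    · rw [app_lt _ _ (sm_ix' hA).1, (sm_ix' hA).2]

end Crest.Agent.R316
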