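import Crest.Agent.R316.CZ
import Crest.Agent.R316.Primes

/-!
Row 316, task SIGN: zero test and sign test for `CZ` integers.
-/

set_option autoImplicit false
set_option linter.dupNamespace false

namespace Crest.Agent.R316

open Crest.Agent.PT Crest.Agent.QC Crest.Agent.R317 Polynomial Finset

variable {α β : Type} [Enc α] [Enc β]

/-- `F a = 0 ↔ ∀ q < Y a, q prime → t a < q → q ∣ F a`, with `Y` from `exists_primes t L`. -/
theorem CZ.eq_zero {F : α → ℤ} (hF : CZ F) : CD (fun a => F a = 0) := by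
  obtain ⟨⟨L, hL, hFL⟩, t, ht, hR⟩ := hF
  obtain ⟨Y, hY, hM⟩ := exists_primes ht hL
  have h1 : CD (fun p : α × Bin => p.2.val.Prime ∧ t p.1 < p.2.val ∧ (p.2.val : ℤ) ∣ F p.1) :=
    (hR.comp (f := fun p : α × Bin => p.1) (by fun_prop)).dvd (by fun_prop) (by fun_prop)
  have h2 : CD (fun p : α × Bin => p.2.val.Prime ∧ t p.1 < p.2.val) :=
    (CD.prime (by fun_prop)).and (CD.ofDT (by fun_prop))
  refine (CD.all (P := fun a q => (q.Prime ∧ t a < q) → (q.Prime ∧ t a < q ∧ (q : ℤ) ∣ F a)) hY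
    (h2.imp h1)).congr fun a => ⟨fun h => ?_, fun h q _ hq => ⟨hq.1, hq.2, by simp [h]⟩⟩
  by_contra h0
  obtain ⟨q, hq, hq'⟩ := exists_prime_not_dvd (hM a) h0 (hFL a)
  simp only [prs, mem_filter, mem_range] at hq
  exact hq' (h q hq.1 hq.2).2.2

theorem sgn_prod_le (t Y : ℕ) : ∏ q ∈ prs t Y, q ≤ 4 ^ Y := by
  refine le_trans ?_ (primorial_le_four_pow Y)
  unfold primorial
  refine Finset.prod_le_prod_of_subset_of_one_le' (fun q hq => ?_) (fun q hq _ => ?_)
  · simp only [prs, mem_filter, mem_range] at hq ⊢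
    exact ⟨by omega, hq.2.1⟩
  · exact (mem_filter.mp hq).2.one_lt.le

theorem sgn_iff {t Y L : ℕ} {F : ℤ} (hF : |F| ≤ 2 ^ L) (hM : 2 ^ (L + 2) < ∏ q ∈ prs t Y, q)
    (r : ℕ → ℕ → ℕ) (hr : ∀ y, ∀ q ∈ prs t Y, r y q < q ∧
      (q : ℤ) ∣ 2 ^ y * F - r y q * ∏ q' ∈ (prs t Y).erase q, (q' : ℤ)) :
    (∃ y < 2 * Y + 1, ∃ ρ < Y,
      2 ^ y * F - ∑ q ∈ prs t Y, (r y q : ℤ) * ∏ q' ∈ (prs t Y).erase q, (q' : ℤ) +
        ρ * ∏ q ∈ prs t Y, (q : ℤ) = 0 ∧
      ρ * (4 * Y + 1) < ∑ q ∈ prs t Y, (4 * Y + 1) * r y q / q) ↔ 0 < F := by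
  have hpos : ∀ q ∈ prs t Y, (0 : ℝ) < q := fun q hq => by
    exact_mod_cast (mem_filter.mp hq).2.1.pos
  set M : ℝ := ∏ q ∈ prs t Y, (q : ℝ) with hMdef
  have hM0 : 0 < M := Finset.prod_pos hpos
  have hsum : ∀ y, ∑ q ∈ prs t Y, (r y q : ℝ) * ∏ q' ∈ (prs t Y).erase q, (q' : ℝ) =
      M * ∑ q ∈ prs t Y, (r y q : ℝ) / q := by
    intro y
    rw [Finset.mul_sum]
    refine Finset.sum_congr rfl fun q hq => ?_
    have := Finset.mul_prod_erase (prs t Y) (fun q => (q : ℝ)) hq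
    have h1 := hpos q hq
    rw [hMdef, ← this]
    field_simp
  constructor
  · rintro ⟨y, -, ρ, -, h1, h2⟩
    have h3 : (2 : ℝ) ^ y * F - M * ∑ q ∈ prs t Y, (r y q : ℝ) / q + ρ * M = 0 := by
      have := congrArg (Int.cast : ℤ → ℝ) h1
      push_cast at this
      rw [← hsum, hMdef]
      exact this
    have h4 : (ρ : ℝ) * (4 * Y + 1) < (4 * Y + 1) * ∑ q ∈ prs t Y, (r y q : ℝ) / q := by
      calc (ρ : ℝ) * (4 * Y + 1) < ((∑ q ∈ prs t Y, (4 * Y + 1) * r y q / q : ℕ) : ℝ) := by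
            exact_mod_cast h2
        _ ≤ _ := by
          rw [Nat.cast_sum, Finset.mul_sum]
          refine Finset.sum_le_sum fun q _ => Nat.cast_div_le.trans (le_of_eq ?_)
          push_cast
          ring
    have h5 : (ρ : ℝ) < ∑ q ∈ prs t Y, (r y q : ℝ) / q := by
      have : (0 : ℝ) < 4 * Y + 1 := by positivity
      nlinarith
    have h6 : (0 : ℝ) < 2 ^ y * F := by nlinarith
    have h7 : (0 : ℝ) < F := (mul_pos_iff_of_pos_left (by positivity)).mp h6
    exact_mod_cast h7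
  · intro h0
    have hF1 : (1 : ℝ) ≤ F := by exact_mod_cast h0
    have hF2 : 4 * (F : ℝ) < M := by
      have a1 : (F : ℝ) ≤ 2 ^ L := by exact_mod_cast (le_abs_self F).trans hF
      have a2 : (2 : ℝ) ^ (L + 2) < M := by rw [hMdef, ← Nat.cast_prod]; exact_mod_cast hM
      rw [pow_add] at a2
      linarith
    have hex : M ≤ 4 * (2 ^ (2 * Y) * (F : ℝ)) := by
      have a1 : M ≤ 4 ^ Y := by rw [hMdef, ← Nat.cast_prod]; exact_mod_cast sgn_prod_le t Y
      have a2 : (0 : ℝ) < 4 ^ Y := by positivity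
      rw [pow_mul]
      norm_num
      nlinarith
    have hE : ∃ y : ℕ, M ≤ 4 * (2 ^ y * (F : ℝ)) := ⟨_, hex⟩
    have hy1 := Nat.find_spec hE
    have hy2 : Nat.find hE ≤ 2 * Y := Nat.find_min' hE hex
    have hy3 : 4 * (2 ^ Nat.find hE * (F : ℝ)) < 2 * M := by
      rcases hy : Nat.find hE with _ | y
      · rw [hy] at hy1
        linarith
      · have := Nat.find_min hE (m := y) (by omega)
        rw [pow_succ]
        linarith
    set y := Nat.find hE with hy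
    obtain ⟨k, hk⟩ := prs_crt (F := 2 ^ y * F) (r := r y) fun q hq => (hr y q hq).2
    have hk' : (2 : ℝ) ^ y * F - M * ∑ q ∈ prs t Y, (r y q : ℝ) / q = M * k := by
      have := congrArg (Int.cast : ℤ → ℝ) hk
      push_cast at this
      rw [← hsum, hMdef]
      exact this
    set s := ∑ q ∈ prs t Y, (r y q : ℝ) / q with hs
    have hcard : ((prs t Y).card : ℝ) ≤ Y := by
      have := Finset.card_filter_le (range Y) (fun q => q.Prime ∧ t < q)
      rw [card_range] at this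
      exact_mod_cast this
    have hs0 : 0 ≤ s := Finset.sum_nonneg fun q _ => by positivity
    have hs1 : s ≤ Y := by
      refine le_trans ?_ hcard
      rw [Finset.card_eq_sum_ones, Nat.cast_sum]
      refine Finset.sum_le_sum fun q hq => ?_
      rw [Nat.cast_one, div_le_one (hpos q hq)]
      exact_mod_cast (hr y q hq).1.le
    have b1 : 1 / 4 ≤ s + k := by
      refine le_of_mul_le_mul_left ?_ hM0
      linarith
    have b2 : s + k < 1 / 2 := by
      refine lt_of_mul_lt_mul_left ?_ hM0.le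
      linarith
    have b3 : k < 1 := by
      have : (k : ℝ) < 1 := by linarith
      exact_mod_cast this
    obtain ⟨ρ, hρ⟩ : ∃ ρ : ℕ, k = -ρ := ⟨(-k).toNat, by omega⟩
    subst hρ
    push_cast at b1 b2 hk
    refine ⟨y, by omega, ρ, ?_, by rw [hk]; ring, ?_⟩
    · have : (ρ : ℝ) < Y := by linarith
      exact_mod_cast this
    · have c1 : (4 * Y + 1) * s ≤
          ((∑ q ∈ prs t Y, (4 * Y + 1) * r y q / q : ℕ) : ℝ) + (prs t Y).card := by
        rw [Finset.card_eq_sum_ones, Nat.cast_sum, Nat.cast_sum, ← Finset.sum_add_distrib, hs,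
          Finset.mul_sum]
        refine Finset.sum_le_sum fun q _ => ?_
        have := Nat.lt_floor_add_one ((((4 * Y + 1) * r y q : ℕ) : ℝ) / q)
        rw [Nat.floor_div_eq_div] at this
        refine le_trans (le_of_eq ?_) (this.le.trans (le_of_eq (by simp)))
        push_cast
        ring
      have c2 : (ρ : ℝ) * (4 * Y + 1) < ((∑ q ∈ prs t Y, (4 * Y + 1) * r y q / q : ℕ) : ℝ) := by
        have : (0 : ℝ) ≤ Y := by positivity
        nlinarith
      exact_mod_cast c2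

open Classical in
/-- product of the other primes -/
noncomputable def sgnM (t Y q : ℕ) : ℤ :=
  ∏ q' ∈ range Y, if q'.Prime ∧ t < q' ∧ q' ≠ q then (q' : ℤ) else 1

theorem sgnM_eq (t Y q : ℕ) : sgnM t Y q = ∏ q' ∈ (prs t Y).erase q, (q' : ℤ) := by
  unfold sgnM
  rw [← Finset.prod_filter]
  refine Finset.prod_congr ?_ fun _ _ => rfl
  ext q'
  simp only [prs, mem_filter, mem_range, mem_erase]
  tauto

theorem sgn_cd {t q q' : α → ℕ} (ht : BT t) (hq : BT q) (hq' : BT q') :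
    CD (fun a => (q' a).Prime ∧ t a < q' a ∧ q' a ≠ q a) :=
  (CD.prime hq').and (CD.ofDT (by fun_prop))

/-- Let `t`, `L` be the threshold and size bound of `F`, `Y` from `exists_primes t (L + 2)`,
`M = ∏ q ∈ prs t Y, q > 4 |F|`, `M_q` the product of the other primes (as a product over
`range Y` of `if q' prime ∧ t < q' ∧ q' ≠ q then q' else 1`), `T = 4 Y + 1`, and
`r a y q = lst q (fun r => q prime ∧ t < q ∧ q ∣ 2^y F - r M_q)` (a `CF` family: use the `Res`
lemmas with the fixed threshold `t a` and `Res.dvd`). Then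
`0 < F ↔ ∃ y < 2 Y + 1, ∃ ρ < Y, 2^y F - ∑_q r M_q + ρ M = 0 ∧ ρ T < ∑_q T r / q`.
(⇐) dividing by `M`: `2^y F / M = ∑ r/q - ρ > 0`. (⇒) take `y` with `M ≤ 4 * 2^y F < 2 M`
(`M ≤ 4^Y`); by `prs_crt` `ρ` is an integer with `∑ r/q = ρ + θ`, `1/4 ≤ θ < 1/2`, so `0 ≤ ρ < Y`
and `∑ ⌊T r/q⌋ > T ρ + T/4 - Y`. -/
theorem CZ.pos {F : α → ℤ} (hF : CZ F) : CD (fun a => 0 < F a) := by
  classical
  obtain ⟨⟨L, hL, hFL⟩, t, ht, hR⟩ := id hF
  obtain ⟨Y, hY, hM⟩ := exists_primes (L := fun a => L a + 2) ht (by fun_prop)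
  let r : α → ℕ → ℕ → ℕ := fun a y q => lst q (fun r => q.Prime ∧ t a < q ∧
    (q : ℤ) ∣ 2 ^ y * F a - r * sgnM (t a) (Y a) q)
  have hr : CF (fun p : (α × Bin) × Bin => r p.1.1 p.1.2.val p.2.val) := by
    refine CF.lst (P := fun (p : (α × Bin) × Bin) r => p.2.val.Prime ∧ t p.1.1 < p.2.val ∧
      (p.2.val : ℤ) ∣ 2 ^ p.1.2.val * F p.1.1 - r * sgnM (t p.1.1) (Y p.1.1) p.2.val)
      (by fun_prop) ?_
    refine Res.dvd (t := fun p : ((α × Bin) × Bin) × Bin => t p.1.1.1) ?_ (by fun_prop)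
      (by fun_prop)
    refine Res.sub (Res.mul ?_ (hR.comp (by fun_prop)))
      (Res.mul (Res.ofCF _ (CF.ofBT (by fun_prop))) ?_)
    · exact ((Res.ofCF _ (CF.ofBT (f := fun _ => 2) (by fun_prop))).pow
        (k := fun p : ((α × Bin) × Bin) × Bin => p.1.1.2.val) (by fun_prop)).congr
        (fun _ => by simp)
    · refine Res.prod (F := fun (p : ((α × Bin) × Bin) × Bin) q' =>
        if q'.Prime ∧ t p.1.1.1 < q' ∧ q' ≠ p.1.2.val then (q' : ℤ) else 1) (by fun_prop) ?_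
      refine Res.ite (sgn_cd (by fun_prop) (by fun_prop) (by fun_prop))
        (Res.ofCF _ (CF.ofBT (by fun_prop))) ?_
      exact (Res.ofCF _ (CF.ofBT (f := fun _ => 1) (by fun_prop))).congr (fun _ => by simp)
  have hMq : CZ (fun p : α × Bin => sgnM (t p.1) (Y p.1) p.2.val) := by
    refine CZ.prod (F := fun (p : α × Bin) q' =>
      if q'.Prime ∧ t p.1 < q' ∧ q' ≠ p.2.val then (q' : ℤ) else 1) (by fun_prop) ?_
    exact CZ.ite (sgn_cd (by fun_prop) (by fun_prop) (by fun_prop)) (CZ.ofBT (by fun_prop))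
      (CZ.const 1)
  have hpr : CD (fun p : α × Bin => p.2.val.Prime ∧ t p.1 < p.2.val) :=
    (CD.prime (by fun_prop)).and (CD.ofDT (by fun_prop))
  have hS : CZ (fun p : α × Bin => ∑ q ∈ range (Y p.1),
      if q.Prime ∧ t p.1 < q then (r p.1 p.2.val q : ℤ) * sgnM (t p.1) (Y p.1) q else 0) := by
    refine CZ.sum (F := fun (p : α × Bin) q =>
      if q.Prime ∧ t p.1 < q then (r p.1 p.2.val q : ℤ) * sgnM (t p.1) (Y p.1) q else 0)
      (by fun_prop) ?_
    exact CZ.ite (hpr.comp (f := fun p : (α × Bin) × Bin => (p.1.1, p.2)) (by fun_prop))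
      ((CZ.ofCF hr).mul (hMq.comp (f := fun p : (α × Bin) × Bin => (p.1.1, p.2)) (by fun_prop)))
      (CZ.const 0)
  have hS' : CF (fun p : α × Bin => ∑ q ∈ range (Y p.1),
      if q.Prime ∧ t p.1 < q then (4 * Y p.1 + 1) * r p.1 p.2.val q / q else 0) := by
    refine CF.sum (f := fun (p : α × Bin) q =>
      if q.Prime ∧ t p.1 < q then (4 * Y p.1 + 1) * r p.1 p.2.val q / q else 0) (by fun_prop) ?_
    exact CF.ite (hpr.comp (f := fun p : (α × Bin) × Bin => (p.1.1, p.2)) (by fun_prop))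
      (((CF.ofBT (by fun_prop)).mul hr).div (CF.ofBT (by fun_prop)))
      (CF.ofBT (f := fun _ => 0) (by fun_prop))
  have hE : CZ (fun p : (α × Bin) × Bin => 2 ^ p.1.2.val * F p.1.1 - (∑ q ∈ range (Y p.1.1),
      if q.Prime ∧ t p.1.1 < q then (r p.1.1 p.1.2.val q : ℤ) * sgnM (t p.1.1) (Y p.1.1) q
        else 0) + (p.2.val : ℤ) * sgnM (t p.1.1) (Y p.1.1) 0) :=
    ((((CZ.const 2).pow (by fun_prop)).mul (hF.comp (by fun_prop))).sub
      (hS.comp (f := fun p : (α × Bin) × Bin => p.1) (by fun_prop))).add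
      ((CZ.ofBT (by fun_prop)).mul
        (hMq.comp (f := fun p : (α × Bin) × Bin => (p.1.1, (⟨0⟩ : Bin))) (by fun_prop)))
  have hI : CD (fun p : (α × Bin) × Bin => p.2.val * (4 * Y p.1.1 + 1) < ∑ q ∈ range (Y p.1.1),
      if q.Prime ∧ t p.1.1 < q then (4 * Y p.1.1 + 1) * r p.1.1 p.1.2.val q / q else 0) :=
    (CF.ofBT (by fun_prop)).lt (hS'.comp (f := fun p : (α × Bin) × Bin => p.1) (by fun_prop))
  have h1 := CD.ex (B := fun a => 2 * Y a + 1) (P := fun a y => ∃ ρ < Y a,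
      (2 ^ y * F a - (∑ q ∈ range (Y a),
        if q.Prime ∧ t a < q then (r a y q : ℤ) * sgnM (t a) (Y a) q else 0) +
          (ρ : ℤ) * sgnM (t a) (Y a) 0 = 0) ∧
      ρ * (4 * Y a + 1) < ∑ q ∈ range (Y a),
        if q.Prime ∧ t a < q then (4 * Y a + 1) * r a y q / q else 0) (by fun_prop)
    (CD.ex (B := fun p : α × Bin => Y p.1) (P := fun p ρ =>
      (2 ^ p.2.val * F p.1 - (∑ q ∈ range (Y p.1),
        if q.Prime ∧ t p.1 < q then (r p.1 p.2.val q : ℤ) * sgnM (t p.1) (Y p.1) q else 0) +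
          (ρ : ℤ) * sgnM (t p.1) (Y p.1) 0 = 0) ∧
      ρ * (4 * Y p.1 + 1) < ∑ q ∈ range (Y p.1),
        if q.Prime ∧ t p.1 < q then (4 * Y p.1 + 1) * r p.1 p.2.val q / q else 0) (by fun_prop)
      (hE.eq_zero.and hI))
  refine h1.congr fun a => ?_
  rw [← sgn_iff (hFL a) (hM a) (r a) (fun y q hq => ?_)]
  · have e0 : (prs (t a) (Y a)).erase 0 = prs (t a) (Y a) :=
      Finset.erase_eq_of_notMem (by simp [prs, Nat.not_prime_zero])
    simp only [← Finset.sum_filter, sgnM_eq, e0]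
    rfl
  · have hq' := (mem_filter.mp hq).2
    obtain ⟨ρ, h2, h3⟩ := prs_exists_coeff hq (2 ^ y * F a)
    have := lst_spec (B := q) (p := fun r => q.Prime ∧ t a < q ∧
      (q : ℤ) ∣ 2 ^ y * F a - r * sgnM (t a) (Y a) q) ⟨ρ, h2, hq'.1, hq'.2, by rwa [sgnM_eq]⟩
    refine ⟨this.1, ?_⟩
    rw [← sgnM_eq]
    exact this.2.1.2.2

end Crest.Agent.R316
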