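import Crest.Agent.R316.Outer
import Crest.Agent.R316.Index

/-!
Row 316, task TOP: elimination of the two quantifier blocks.
-/

set_option autoImplicit false
set_option linter.dupNamespace false

namespace Crest.Agent.R316

open Crest.Agent.PT Crest.Agent.QC Crest.Agent.R317 Polynomial Finset

variable {α β : Type} [Enc α] [Enc β]

theorem t_low {ι : Type} (T : Finset ι) (V : ι → ℂ[X]) :
    ∃ k ≤ T.card, (∏ i ∈ T, (X + C (V i))).coeff k ≠ 0 ∧ ∀ i ∈ T, V i ≠ 0 → ∀ t : ℂ,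
      (V i).eval t = 0 → ((∏ i ∈ T, (X + C (V i))).coeff k).eval t = 0 := by
  obtain ⟨-, h2⟩ := (low_coeff_iff T V _).2 rfl
  refine ⟨_, @card_filter_le _ _ _ (_), h2, fun i hi h0 t ht => ?_⟩
  rw [low_coeff_eq, eval_prod, prod_eq_zero (i := i) (by simp [hi, h0]) ht]

theorem t_root {χ : ℂ[X]} (hχ : χ.Monic) {t : ℂ} (ht : χ.eval t = 0) :
    ∃ k < χ.natDegree, rt χ k = t := by
  rw [rt_spec hχ, prod_eq_zero_iff] at ht
  obtain ⟨k, hk, h⟩ := ht
  exact ⟨k, mem_range.1 hk, (sub_eq_zero.1 h).symm⟩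

/-- The normalised product of the nonzero members of a family. -/
noncomputable def tM (W : ℕ → ℂ[X]) (K k e : ℕ) : ℂ[X] :=
  mon e (oA W K k) ((oA W K k).coeff e)⁻¹

/-- Coefficients of the norm of a parametric polynomial over the root tuples. -/
noncomputable def tB (V : Pt → ℂ[X]) (χ : ℂ[X]) (m e j : ℕ) : ℂ[X] :=
  (∏ ι ∈ tups m (fun _ => e), (X + C (V (tp (fun _ => rt χ) ι)))).coeff j

theorem cx_tB {V : α → Pt → ℂ[X]} {χ : α → ℂ[X]} {m e j : α → ℕ} (hV : CX V)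
    (hχ : RF e (fun a _ => rt (χ a))) (hm : PT m) (hj : BT j) :
    CX (fun a _ => tB (V a) (χ a) (m a) (e a) (j a)) := by
  have h1 := tpoly (m := m) (N := fun a _ => e a) (ρ := fun a _ _ => rt (χ a))
    (G := fun a z => (V a (app (m a) z 0)).eval (z (m a))) hm (hχ.comp PT.id'.fst)
    (hV.eval (CP.var hm) (CV.app hm CV.id CV.zero))
  refine (h1.coeff hj).congr (fun a z => ?_)
  simp only [tB, eval_coeff_prod, app_app, app_tp_zero]
  congr 1
  refine prod_congr rfl (fun ι _ => ?_)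
  rw [app_ge _ _ le_rfl, Nat.sub_self]

theorem t_app_app {β : Type} (n m : ℕ) (f : ℕ → β) (u v : ℕ → ℕ) (x : ℕ → β) :
    app (n + m) (fun i => f (app n v u i)) x =
      app n (fun i => f (v i)) (app m (fun i => f (u i)) x) := by
  funext i
  simp only [app]
  split_ifs <;> first | rfl | omega | (congr 1; omega)

theorem t_sign (r : ℝ) (b c : Prop) [Decidable b] [Decidable c] (hb : b ↔ 0 < r)
    (hc : c ↔ 0 < -r) : (if b then 1 else if c then -1 else 0 : SignType) = SignType.sign r := by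
  rcases lt_trichotomy r 0 with h | h | h
  · rw [if_neg (fun h' => by have := hb.1 h'; linarith), if_pos (hc.2 (by linarith)), sign_neg h]
  · subst h
    rw [if_neg (fun h' => by have := hb.1 h'; linarith),
      if_neg (fun h' => by have := hc.1 h'; linarith), sign_zero]
  · rw [if_pos (hb.2 h), sign_pos h]

theorem t_bits (s : ℕ) (P : ℕ → Prop) : ∃ b < 2 ^ s, ∀ k < s, (dg 2 b k = 1 ↔ P k) := by
  classical
  obtain ⟨b, hb, h⟩ := exists_dg (L := 2) (m := s) (fun k => if P k then 1 else 0)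
    (fun i _ => by split_ifs <;> omega)
  refine ⟨b, hb, fun k hk => ?_⟩
  rw [h k hk]
  by_cases hp : P k <;> simp [hp]

theorem t_ex {P : α × Bin → Prop} {B : α → ℕ} (hB : BT B) (hP : CD P) :
    CD (fun a => ∃ y < B a, P (a, ⟨y⟩)) := CD.ex (P := fun a y => P (a, ⟨y⟩)) hB hP

theorem t_all {P : α × Bin → Prop} {B : α → ℕ} (hB : BT B) (hP : CD P) :
    CD (fun a => ∀ y < B a, P (a, ⟨y⟩)) := CD.all (P := fun a y => P (a, ⟨y⟩)) hB hP

theorem t_allU {P : α × ℕ → Prop} {n : α → ℕ} (hn : PT n) (hP : CD P) :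
    CD (fun a => ∀ i < n a, P (a, i)) := CD.allU (P := fun a i => P (a, i)) hn hP

theorem t_names {L m : ℕ} {ok : ℕ → Prop} {val : ℕ → ℝ} (x : ℕ → ℝ)
    (h : ∀ i < m, ∃ ν < L, ok ν ∧ val ν = x i) :
    ∃ u < L ^ m, ∀ i < m, ok (dg L u i) ∧ val (dg L u i) = x i := by
  choose! ν h1 h2 h3 using h
  obtain ⟨u, hu, h⟩ := exists_dg ν h1
  exact ⟨u, hu, fun i hi => by rw [h i hi]; exact ⟨h2 i hi, h3 i hi⟩⟩

/-- Constant polynomials whose roots include those of the `V κ x` for all root tuples `x`. -/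
theorem lift {W : α → ℕ → ℂ[X]} {V : α → ℕ → Pt → ℂ[X]} {K K' m : α → ℕ} (hK : BT K)
    (hK' : BT K') (hm : PT m) (hW : CX (fun q : α × Bin => fun _ => W q.1 q.2.val))
    (hV : CX (fun q : α × Bin => V q.1 q.2.val)) :
    ∃ (U : α → ℕ → ℂ[X]) (K'' : α → ℕ), BT K'' ∧
      CX (fun q : α × Bin => fun _ => U q.1 q.2.val) ∧
      (∀ a t, Rt (W a) (K a) t → Rt (U a) (K'' a) t) ∧
      ∀ a (x : ℕ → ℝ), (∀ i < m a, Rt (W a) (K a) (x i)) →
        ∀ t, Rt (fun κ => V a κ (rc (app (m a) x 0))) (K' a) t → Rt (U a) (K'' a) t := by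
  have hA : CX (fun q : α × Bin => fun _ => oA (W q.1) (K q.1) q.2.val) :=
    cx_oA (V := fun (q : α × Bin) κ _ => W q.1 κ) (by fun_prop) (by fun_prop)
      (hW.comp (f := fun q : (α × Bin) × Bin => (q.1.1, q.2)) (by fun_prop))
  obtain ⟨d, hd, hdeg⟩ := hA.deg
  obtain ⟨E, hE, hEle⟩ := BT.unif (f := fun a y => d (a, ⟨y⟩)) hK hd
  obtain ⟨L, hLdef⟩ : ∃ L : α → ℕ, L = fun a => K a + E a + K' a + E a ^ m a + 1 := ⟨_, rfl⟩
  have hL : BT L := by rw [hLdef]; fun_prop
  have hdg : ∀ i : ℕ, BT (fun q : α × Bin => dg (L q.1) (q.2.val - K q.1) i) :=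
    fun i => by fun_prop
  have h1 := hA.comp (f := fun q : α × Bin => (q.1, (⟨dg (L q.1) (q.2.val - K q.1) 0⟩ : Bin)))
    (by fun_prop)
  have h2 := h1.mon (hdg 1) (h1.coeff (hdg 1)).inv0
  have h3 := RF.rt h2 (hdg 1) (fun a x => ⟨mon_monic _ _ _, mon_natDegree _ _ _⟩)
  have h4 := cx_tB (hV.comp
    (f := fun q : α × Bin => (q.1, (⟨dg (L q.1) (q.2.val - K q.1) 2⟩ : Bin))) (by fun_prop)) h3
    (m := fun q => m q.1) (by fun_prop) (hdg 3)
  refine ⟨fun a ν => if ν < K a then W a ν else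
    tB (V a (dg (L a) (ν - K a) 2)) (tM (W a) (K a) (dg (L a) (ν - K a) 0) (dg (L a) (ν - K a) 1))
      (m a) (dg (L a) (ν - K a) 1) (dg (L a) (ν - K a) 3), fun a => K a + L a ^ 4,
    by fun_prop, ?_, ?_, ?_⟩
  · refine (CP.ite (P := fun q : α × Bin => q.2.val < K q.1) (CD.ofDT (by fun_prop)) hW h4).congr
      (fun q z => ?_)
    simp only [tM]
    split_ifs <;> rfl
  · rintro a t ⟨κ, hκ, h0, ht⟩
    exact ⟨κ, by simp only; omega, by simpa only [if_pos hκ] using h0, by simpa only [if_pos hκ] using ht⟩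
  · rintro a x hx t ⟨κ, hκ, h0, ht⟩
    obtain ⟨k, hk, -, l2, l3⟩ := oA_low (W a) (K a)
    obtain ⟨e, hedef⟩ : ∃ e, e = (oA (W a) (K a) k).natDegree := ⟨_, rfl⟩
    have he : e < E a := hedef ▸ (hdeg (a, ⟨k⟩) 0).trans_le (hEle a k hk)
    have hc : (oA (W a) (K a) k).coeff e ≠ 0 := by
      rw [hedef]; exact leadingCoeff_ne_zero.2 l2
    have hM : tM (W a) (K a) k e = C ((oA (W a) (K a) k).coeff e)⁻¹ * oA (W a) (K a) k :=
      mon_eq (fun j hj => coeff_eq_zero_of_natDegree_lt (hedef ▸ hj)) (inv_mul_cancel₀ hc)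
    have hr : ∀ i : Fin (m a), ∃ j < e, rt (tM (W a) (K a) k e) j = x i := by
      intro i
      have := t_root (χ := tM (W a) (K a) k e) (mon_monic _ _ _) (t := x i)
        (by rw [hM, eval_mul, l3 _ (hx i i.2), mul_zero])
      rwa [show (tM (W a) (K a) k e).natDegree = e from mon_natDegree _ _ _] at this
    choose ι hι1 hι2 using hr
    have hpt : tp (fun _ => rt (tM (W a) (K a) k e)) ι = rc (app (m a) x 0) := by
      funext i
      by_cases hi : i < m a
      · simp only [tp, dif_pos hi, rc, app_lt _ _ hi]; exact hι2 ⟨i, hi⟩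
      · simp [tp, rc, app, hi]
    obtain ⟨j, hj, b1, b2⟩ := t_low (tups (m a) (fun _ => e))
      (fun ι => V a κ (tp (fun _ => rt (tM (W a) (K a) k e)) ι))
    have hj' : j ≤ E a ^ m a := by
      refine hj.trans ?_
      simp only [tups, Fintype.card_piFinset, card_range, prod_const, card_univ, Fintype.card_fin]
      exact Nat.pow_le_pow_left he.le _
    obtain ⟨ν, hν, hνd⟩ := exists_dg (L := L a) (m := 4)
      (fun i => if i = 0 then k else if i = 1 then e else if i = 2 then κ else j) (fun i _ => by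
        simp only [hLdef]; split_ifs <;> omega)
    have e0 : dg (L a) ν 0 = k := hνd 0 (by omega)
    have e1 : dg (L a) ν 1 = e := hνd 1 (by omega)
    have e2 : dg (L a) ν 2 = κ := hνd 2 (by omega)
    have e3 : dg (L a) ν 3 = j := hνd 3 (by omega)
    refine ⟨K a + ν, by simp only; omega, ?_, ?_⟩
    · simp only [if_neg (show ¬ K a + ν < K a by omega), Nat.add_sub_cancel_left, e0, e1, e2, e3]
      exact b1
    · simp only [if_neg (show ¬ K a + ν < K a by omega), Nat.add_sub_cancel_left, e0, e1, e2, e3]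
      exact b2 ι (mem_tups.2 hι1) (by rw [hpt]; exact h0) t (by rw [hpt]; exact ht)

theorem qe2 {p : α → ℕ → Pt → ℂ} {n s : α → ℕ} {Φ : α → (ℕ → SignType) → Prop}
    (hp : CP (fun q : α × ℕ => p q.1 q.2)) (hn : PT n) (hs : PT s)
    (hΦ : CD (fun q : α × Bin × Bin => Φ q.1 (sv q.2.1.val q.2.2.val)))
    (hloc : ∀ a σ σ', (∀ k < s a, σ k = σ' k) → Φ a σ → Φ a σ') :
    CD (fun a => ∃ x : ℕ → ℝ, ∀ y : ℕ → ℝ, Φ a (sg (p a) (app (n a) y x))) := by
  obtain ⟨v, hv, hvars⟩ := hp.vars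
  obtain ⟨m, hm, hmle⟩ := PT.unifU (f := fun a k => v (a, k)) hs hv
  have htr : ∀ a (x y : ℕ → ℝ), ∀ k < s a,
      sg (p a) (app (n a) y x) k = sg (p a) (app (n a) y (app (m a) x 0)) k := by
    intro a x y k hk
    simp only [sg]
    rw [show p a k (rc (app (n a) y x)) = p a k (rc (app (n a) y (app (m a) x 0))) from
      hvars (a, k) _ _ (fun i hi => ?_)]
    have := hmle a k hk.le
    simp only [rc, app]
    split_ifs <;> first | rfl | omega
  obtain ⟨W, K, hK, hW, hout⟩ := outer hp hn hs hm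
  obtain ⟨V, K', hK', hV, hin⟩ := inner hp hn hs
  obtain ⟨U, K'', hK'', hU, hWU, hVU⟩ := lift hK hK' hm hW hV
  obtain ⟨L, ok, val, hL, hok, hname, hsign⟩ := index hK'' hU
  -- names of roots of `W`
  have hokW : CD (fun q : α × Bin => ok q.1 q.2.val ∧ Rt (W q.1) (K q.1) (val q.1 q.2.val)) := by
    have hW' := hW.comp (f := fun q : (α × Bin) × Bin => (q.1.1, q.2)) (by fun_prop)
    have hg := hW'.eval (CP.var (PT.const 0)) CV.id
    have s1 := hsign ((α × Bin) × Bin) (fun q => q.1.1) (fun _ => 1) (fun q _ => q.1.2.val) _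
      (by fun_prop) (by fun_prop) (by fun_prop) hg
    have s2 := hsign ((α × Bin) × Bin) (fun q => q.1.1) (fun _ => 1) (fun q _ => q.1.2.val) _
      (by fun_prop) (by fun_prop) (by fun_prop) hg.neg
    refine (hok.and (t_ex (B := fun q : α × Bin => K q.1) (by fun_prop)
      (hW'.ne_zero0.and (s1.not.and s2.not)))).congr (fun q => and_congr_right (fun h => ?_))
    refine exists_congr (fun κ => and_congr_right (fun _ => and_congr_right (fun _ => ?_)))
    have hr := hg.real (q, ⟨κ⟩) (fun _ => val q.1 q.2.val)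
    simp only [rc, app, Nat.lt_one_iff, if_true, h, implies_true, true_and, Complex.neg_re] at hr ⊢
    rw [Complex.ext_iff]
    simp only [hr, Complex.zero_re, Complex.zero_im, and_true]
    constructor
    · rintro ⟨h1, h2⟩; linarith
    · intro h1; rw [h1]; simp
  -- the signs at named points; parameters `((((a, u), v), bp), bm), k`
  have hν : BT (fun q : (((((α × Bin) × Bin) × Bin) × Bin) × ℕ) × ℕ =>
      app (n q.1.1.1.1.1.1) (dg (L q.1.1.1.1.1.1) q.1.1.1.1.2.val)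
        (dg (L q.1.1.1.1.1.1) q.1.1.1.1.1.2.val) q.2) := by
    simp only [app]; fun_prop
  have hg := hp.comp (f := fun q : ((((α × Bin) × Bin) × Bin) × Bin) × ℕ => (q.1.1.1.1.1, q.2))
    (by fun_prop)
  have s1 := hsign (((((α × Bin) × Bin) × Bin) × Bin) × ℕ) (fun q => q.1.1.1.1.1)
    (fun q => n q.1.1.1.1.1 + m q.1.1.1.1.1)
    (fun q => app (n q.1.1.1.1.1) (dg (L q.1.1.1.1.1) q.1.1.1.2.val)
      (dg (L q.1.1.1.1.1) q.1.1.1.1.2.val)) _ (by fun_prop) (by fun_prop) hν hg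
  have s2 := hsign (((((α × Bin) × Bin) × Bin) × Bin) × ℕ) (fun q => q.1.1.1.1.1)
    (fun q => n q.1.1.1.1.1 + m q.1.1.1.1.1)
    (fun q => app (n q.1.1.1.1.1) (dg (L q.1.1.1.1.1) q.1.1.1.2.val)
      (dg (L q.1.1.1.1.1) q.1.1.1.1.2.val)) _ (by fun_prop) (by fun_prop) hν hg.neg
  have c1 := ((CD.ofDT (P := fun q : ((((α × Bin) × Bin) × Bin) × Bin) × ℕ =>
    dg 2 q.1.1.2.val q.2 = 1) (by fun_prop)).iff s1).and
    ((CD.ofDT (P := fun q : ((((α × Bin) × Bin) × Bin) × Bin) × ℕ =>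
      dg 2 q.1.2.val q.2 = 1) (by fun_prop)).iff s2)
  have c2 := (t_allU (n := fun q : (((α × Bin) × Bin) × Bin) × Bin => s q.1.1.1.1)
    (by fun_prop) c1).and (hΦ.comp
      (f := fun q : (((α × Bin) × Bin) × Bin) × Bin => (q.1.1.1.1, q.1.2, q.2)) (by fun_prop))
  have c3 := t_ex (B := fun q : (α × Bin) × Bin => 2 ^ s q.1.1) (by fun_prop)
    (t_ex (B := fun q : ((α × Bin) × Bin) × Bin => 2 ^ s q.1.1.1) (by fun_prop) c2)
  have c4 := t_allU (n := fun q : (α × Bin) × Bin => n q.1.1) (by fun_prop)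
    (hok.comp (f := fun q : ((α × Bin) × Bin) × ℕ =>
      (q.1.1.1, (⟨dg (L q.1.1.1) q.1.2.val q.2⟩ : Bin))) (by fun_prop))
  have c5 := t_allU (n := fun q : α × Bin => m q.1) (by fun_prop)
    (hokW.comp (f := fun q : (α × Bin) × ℕ =>
      (q.1.1, (⟨dg (L q.1.1) q.1.2.val q.2⟩ : Bin))) (by fun_prop))
  have c6 := t_ex (B := fun a => L a ^ m a) (by fun_prop) (c5.and
    (t_all (B := fun q : α × Bin => L q.1 ^ n q.1) (by fun_prop) (c4.imp c3)))
  refine c6.congr (fun a => ?_)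
  have hall : ∀ u w : ℕ, (∀ i < m a, ok a (dg (L a) u i)) → (∀ i < n a, ok a (dg (L a) w i)) →
      ∀ i < n a + m a, ok a (app (n a) (dg (L a) w) (dg (L a) u) i) := by
    intro u w h1 h2 i hi
    simp only [app]
    split_ifs with h
    · exact h2 i h
    · exact h1 _ (by omega)
  simp only [t_app_app]
  constructor
  · rintro ⟨u, -, h1, h2⟩
    refine ⟨app (m a) (fun i => val a (dg (L a) u i)) 0, fun y => ?_⟩
    obtain ⟨y', h3, h4⟩ := hin a (app (m a) (fun i => val a (dg (L a) u i)) 0) y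
    obtain ⟨w, hw, h5⟩ := t_names y' (fun i hi =>
      hname a _ (hVU a _ (fun j hj => (h1 j hj).2) _ (h4 i hi)))
    obtain ⟨bp, -, bm, -, h6, h7⟩ := h2 w hw (fun i hi => (h5 i hi).1)
    refine hloc a _ _ (fun k hk => ?_) h7
    rw [← h3 k hk, ← app_congr _ (fun i hi => (h5 i hi).2)]
    have h8 := hall u w (fun j hj => (h1 j hj).1) (fun i hi => (h5 i hi).1)
    exact t_sign _ _ _ ((h6 k hk).1.trans (and_iff_right h8))
      ((h6 k hk).2.trans ((and_iff_right h8).trans (by rw [Complex.neg_re])))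
  · rintro ⟨x, hx⟩
    obtain ⟨x', h1, h2⟩ := hout a (Φ a) (hloc a)
      ⟨x, fun y => hloc a _ _ (htr a x y) (hx y)⟩
    obtain ⟨u, hu, h3⟩ := t_names x' (fun i hi => hname a _ (hWU a _ (h2 i hi)))
    refine ⟨u, hu, fun i hi => ⟨(h3 i hi).1, by rw [(h3 i hi).2]; exact h2 i hi⟩,
      fun w _ h4 => ?_⟩
    have h8 := hall u w (fun j hj => (h3 j hj).1) h4
    obtain ⟨bp, hbp, h5⟩ := t_bits (s a) (fun k => 0 < (p a k (rc (app (n a)
      (fun i => val a (dg (L a) w i)) (app (m a) (fun i => val a (dg (L a) u i)) 0)))).re)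
    obtain ⟨bm, hbm, h6⟩ := t_bits (s a) (fun k => 0 < (-p a k (rc (app (n a)
      (fun i => val a (dg (L a) w i)) (app (m a) (fun i => val a (dg (L a) u i)) 0)))).re)
    refine ⟨bp, hbp, bm, hbm, fun k hk => ⟨(h5 k hk).trans (and_iff_right h8).symm,
      (h6 k hk).trans (and_iff_right h8).symm⟩, ?_⟩
    refine hloc a _ _ (fun k hk => ?_) (h1 (fun i => val a (dg (L a) w i)))
    rw [← app_congr _ (fun i hi => (h3 i hi).2)]
    exact (t_sign _ _ _ (h5 k hk) ((h6 k hk).trans (by rw [Complex.neg_re]))).symm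

end Crest.Agent.R316
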